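import Vale.Agent.P232.Rigid.SidePlanes

/-!
# P232 rigidity: gradients along planes and lines, superlevel sets
-/

open MeasureTheory Set Filter
open scoped ENNReal NNReal Real Topology

noncomputable section

namespace Vale.Agent.P232.Rigid

/-! ## Fubini for null sets -/

theorem ae_line {p : R3 → Prop} (h : ∀ᵐ x, p x) (d : Fin 3) :
    ∀ᵐ y : R2, ∀ᵐ t : ℝ, p (facePoint d t y) := by
  have hmp : MeasurePreserving (MeasurableEquiv.piFinSuccAbove (fun _ : Fin 3 => ℝ) d).symm
      (volume.prod volume) volume :=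
    (volume_preserving_piFinSuccAbove (fun _ : Fin 3 => ℝ) d).symm _
  exact Measure.ae_ae_of_ae_prod ((Measure.measurePreserving_swap (μ := (volume : Measure R2))
    (ν := (volume : Measure ℝ))).quasiMeasurePreserving.ae (hmp.quasiMeasurePreserving.ae h))

theorem ae_plane {p : R3 → Prop} (h : ∀ᵐ x, p x) (d : Fin 3) :
    ∀ᵐ t : ℝ, ∀ᵐ y : R2, p (facePoint d t y) := by
  have hmp : MeasurePreserving (MeasurableEquiv.piFinSuccAbove (fun _ : Fin 3 => ℝ) d).symm
      (volume.prod volume) volume :=
    (volume_preserving_piFinSuccAbove (fun _ : Fin 3 => ℝ) d).symm _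
  exact Measure.ae_ae_of_ae_prod (hmp.quasiMeasurePreserving.ae h)

/-! ## The transverse gradient -/

theorem measurable_gradPerp (d : Fin 3) (f : R3 → ℝ) : Measurable (gradPerp d f) :=
  (Finset.measurable_sum _ fun i _ => (measurable_pd i f).pow_const 2).sqrt

theorem gradPerp_nonneg (d : Fin 3) (f : R3 → ℝ) (x : R3) : 0 ≤ gradPerp d f x :=
  Real.sqrt_nonneg _

theorem gradNorm_eq (d : Fin 3) (f : R3 → ℝ) (x : R3) :
    gradNorm f x = Real.sqrt (gradPerp d f x ^ 2 + pd d f x ^ 2) := by
  rw [gradPerp, Real.sq_sqrt (Finset.sum_nonneg fun i _ => sq_nonneg _),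
    Finset.sum_erase_add _ _ (Finset.mem_univ d)]
  rfl

theorem mul_add_mul_le_gradNorm (d : Fin 3) (f : R3 → ℝ) (x : R3) {c σ : ℝ}
    (h : c ^ 2 + σ ^ 2 ≤ 1) : c * gradPerp d f x + σ * pd d f x ≤ gradNorm f x := by
  rw [gradNorm_eq d]
  refine (le_abs_self _).trans (Real.abs_le_sqrt ?_)
  nlinarith [sq_nonneg (c * pd d f x - σ * gradPerp d f x),
    mul_le_mul_of_nonneg_right h (add_nonneg (sq_nonneg (gradPerp d f x)) (sq_nonneg (pd d f x)))]

theorem mul_add_mul_abs_le_gradNorm (d : Fin 3) (f : R3 → ℝ) (x : R3) {c s : ℝ}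
    (h : c ^ 2 + s ^ 2 ≤ 1) : c * gradPerp d f x + s * |pd d f x| ≤ gradNorm f x := by
  rcases le_total 0 (pd d f x) with hp | hp
  · rw [abs_of_nonneg hp]; exact mul_add_mul_le_gradNorm d f x h
  · rw [abs_of_nonpos hp, mul_neg, ← neg_mul]
    exact mul_add_mul_le_gradNorm d f x (by rwa [neg_sq])

theorem abs_gradPerp_le {f : R3 → ℝ} {L : ℝ≥0} (hf : LipschitzWith L f) (d : Fin 3) (x : R3) :
    |gradPerp d f x| ≤ 3 * L := by
  rw [abs_of_nonneg (gradPerp_nonneg d f x)]
  refine le_trans ?_ (gradNorm_le hf x)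
  rw [gradNorm_eq d]
  exact Real.le_sqrt_of_sq_le (le_add_of_nonneg_right (sq_nonneg _))

theorem gradNorm_sliceFun {v : R3 → ℝ} (d : Fin 3) (t : ℝ) {x : R3}
    (hv : DifferentiableAt ℝ v (Function.update x d t)) :
    gradNorm (sliceFun v d t) x = gradPerp d v (Function.update x d t) := by
  have hU : HasFDerivAt (fun z : R3 => Function.update z d t) (ContinuousLinearMap.id ℝ R3 +
      (-(ContinuousLinearMap.proj (R := ℝ) (φ := fun _ : Fin 3 => ℝ) d)).smulRight (unit d)) x := by
    simp only [update_eq_add]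
    exact (hasFDerivAt_id x).add
      (((hasFDerivAt_apply d x).const_sub t).smul_const (unit d))
  have hg : HasFDerivAt (sliceFun v d t) _ x := hv.hasFDerivAt.comp x hU
  have hpd : ∀ i, pd i (sliceFun v d t) x = if i = d then 0 else pd i v (Function.update x d t) := by
    intro i
    rw [pd, hg.fderiv]
    simp only [ContinuousLinearMap.comp_apply, add_apply, ContinuousLinearMap.id_apply,
      ContinuousLinearMap.smulRight_apply, neg_apply, ContinuousLinearMap.proj_apply]
    by_cases h : i = d
    · subst h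
      simp [unit_apply]
    · simp [unit_apply, h, Ne.symm h, pd]
  simp only [gradNorm, gradPerp, hpd]
  congr 1
  rw [← Finset.sum_erase_add _ _ (Finset.mem_univ d)]
  simp only [if_true, ne_eq, OfNat.ofNat_ne_zero, not_false_eq_true, zero_pow, add_zero]
  exact Finset.sum_congr rfl fun i hi => by rw [if_neg (Finset.ne_of_mem_erase hi)]

theorem integral_gradNorm_sliceFun {L : ℝ≥0} {v : R3 → ℝ} (hv : v ∈ lipClass L) (d : Fin 3) :
    ∀ᵐ t : ℝ, ∫ x in cell, gradNorm (sliceFun v d t) x = planeInt (gradPerp d v) d t := by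
  filter_upwards [ae_plane (hv.1.ae_differentiableAt (μ := volume)) d] with t ht
  have hg := lipClass_sliceFun hv d t
  have key : ∀ s : ℝ, planeInt (gradNorm (sliceFun v d t)) d s = planeInt (gradPerp d v) d t := by
    intro s
    refine integral_congr_ae (ae_restrict_of_ae ?_)
    filter_upwards [ht] with y hy
    rw [gradNorm_sliceFun d t (by rwa [facePoint_update]), facePoint_update]
  rw [integral_cell_eq_planeInt (measurable_gradNorm _)
      (fun x => by rw [abs_of_nonneg (gradNorm_nonneg _ x)]; exact gradNorm_le hg.1 x) d,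
    intervalIntegral.integral_congr (g := fun _ => planeInt (gradPerp d v) d t) fun s _ => key s]
  simp

/-- The calibration inequality for the slices across `d`. -/
theorem calib_le {L : ℝ≥0} {v : R3 → ℝ} (hv : v ∈ lipClass L) (d : Fin 3) {c σ : ℝ → ℝ}
    (hc : Continuous c) (hσ : ContDiff ℝ 1 σ) (hσp : Function.Periodic σ 1)
    (hcσ : ∀ t, c t ^ 2 + σ t ^ 2 ≤ 1) :
    ∫ t in (0 : ℝ)..1, (c t * planeInt (gradPerp d v) d t + deriv σ t * planeInt v d t) ≤
      ∫ x in cell, gradNorm v x := by
  obtain ⟨hvL, hvp, hv01⟩ := hv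
  have hc1 : ∀ t, |c t| ≤ 1 := fun t => abs_le_one_iff_mul_self_le_one.2 (by
    nlinarith [hcσ t, sq_nonneg (σ t)])
  have hσ1 : ∀ t, |σ t| ≤ 1 := fun t => abs_le_one_iff_mul_self_le_one.2 (by
    nlinarith [hcσ t, sq_nonneg (c t)])
  have hdσ := hσ.continuous_deriv le_rfl
  obtain ⟨D, hD⟩ : ∃ D, ∀ t, |deriv σ t| ≤ D := by
    obtain ⟨D, hD⟩ := (isCompact_Icc (a := (0 : ℝ)) (b := 1)).exists_bound_of_continuousOn
      hdσ.continuousOn
    have hp : Function.Periodic (deriv σ) 1 := fun t => by
      rw [← deriv_comp_add_const, show (fun x => σ (x + 1)) = σ from funext hσp]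
    refine ⟨D, fun t => ?_⟩
    obtain ⟨y, hy, hty⟩ := hp.exists_mem_Ico₀ zero_lt_one t
    rw [hty]
    exact hD y ⟨hy.1, hy.2.le⟩
  set F : R3 → ℝ := fun x => c (x d) * gradPerp d v x + deriv σ (x d) * v x with hF
  have hFm : Measurable F :=
    ((hc.measurable.comp (measurable_pi_apply d)).mul (measurable_gradPerp d v)).add
      ((hdσ.measurable.comp (measurable_pi_apply d)).mul hvL.continuous.measurable)
  have hFC : ∀ x, |F x| ≤ 3 * L + D := fun x => by
    refine (abs_add_le _ _).trans (add_le_add ?_ ?_) <;> rw [abs_mul]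
    · exact (mul_le_of_le_one_left (abs_nonneg _) (hc1 _)).trans (abs_gradPerp_le hvL d x)
    · exact (mul_le_of_le_one_right (abs_nonneg _) (abs_le_one_of_mem (hv01 x))).trans (hD _)
  have hplane : ∀ t, planeInt F d t =
      c t * planeInt (gradPerp d v) d t + deriv σ t * planeInt v d t := by
    intro t
    simp only [planeInt, hF, facePoint_self]
    rw [integral_add
        ((integrableOn_plane (measurable_gradPerp d v) _ (abs_gradPerp_le hvL d) d t).const_mul _)
        ((integrableOn_plane hvL.continuous.measurable 1 (fun x => abs_le_one_of_mem (hv01 x))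
          d t).const_mul _),
      integral_const_mul, integral_const_mul]
  simp only [← hplane]
  rw [← integral_cell_eq_planeInt hFm hFC d]
  set X : Fin 3 → R3 → ℝ := fun j x => if j = d then σ (x d) else 0 with hX
  have hXc : ∀ j, ContDiff ℝ 1 (X j) := fun j => by
    simp only [hX]
    split_ifs
    exacts [hσ.comp (contDiff_apply ℝ ℝ d), contDiff_const]
  have hXp : ∀ j, IsPeriodicFun (X j) := fun j x i => by
    simp only [hX]
    split_ifs with h
    · by_cases hi : d = i
      · subst hi; simp [unit_apply, hσp (x d)]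
      · simp [unit_apply, hi]
    · rfl
  have hdiv : ∀ x, divergence X x = deriv σ (x d) := fun x => by
    rw [divergence, Finset.sum_eq_single d (fun j _ hj => ?_) (by simp)]
    · have h1 : HasFDerivAt (X d) ((deriv σ (x d)) •
          ContinuousLinearMap.proj (R := ℝ) (φ := fun _ : Fin 3 => ℝ) d) x := by
        simp only [hX, if_true]
        exact ((hσ.differentiable one_ne_zero (x d)).hasDerivAt).comp_hasFDerivAt x
          (hasFDerivAt_apply d x)
      rw [pd, h1.fderiv]
      simp [unit_apply]
    · rw [pd, show X j = fun _ => (0 : ℝ) from funext fun z => by simp [hX, hj]]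
      simp
  have hibp := integral_mul_divergence hvL hvp hXc hXp
  have hsum : ∀ x, ∑ i, pd i v x * X i x = pd d v x * σ (x d) := fun x => by
    simp [hX]
  simp only [hdiv, hsum] at hibp
  have hi1 : IntegrableOn (fun x => c (x d) * gradPerp d v x) cell :=
    integrableOn_cell ((hc.measurable.comp (measurable_pi_apply d)).mul (measurable_gradPerp d v))
      (3 * L) fun x _ => by
        rw [abs_mul]
        exact (mul_le_of_le_one_left (abs_nonneg _) (hc1 _)).trans (abs_gradPerp_le hvL d x)
  have hi2 : IntegrableOn (fun x => deriv σ (x d) * v x) cell :=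
    integrableOn_cell_of_continuous ((hdσ.comp (continuous_apply d)).mul hvL.continuous)
  have hi3 : IntegrableOn (fun x => pd d v x * σ (x d)) cell :=
    integrableOn_cell ((measurable_pd d v).mul (hσ.continuous.measurable.comp (measurable_pi_apply d)))
      L fun x _ => by
        rw [abs_mul]
        exact (mul_le_of_le_one_right (abs_nonneg _) (hσ1 _)).trans (abs_pd_le hvL d x)
  rw [integral_add hi1 hi2,
    show (∫ x in cell, deriv σ (x d) * v x) = -∫ x in cell, pd d v x * σ (x d) by
      rw [← hibp]; simp only [mul_comm],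
    ← sub_eq_add_neg, ← integral_sub hi1 hi3]
  refine integral_mono (hi1.sub hi3) (integrableOn_gradNorm hvL) fun x => ?_
  have h := mul_add_mul_le_gradNorm d v x (c := c (x d)) (σ := -σ (x d))
    (by rw [neg_sq]; exact hcσ _)
  show c (x d) * gradPerp d v x - pd d v x * σ (x d) ≤ gradNorm v x
  linarith

/-- The same with constant weights and the absolute normal derivative. -/
theorem vert_le {L : ℝ≥0} {v : R3 → ℝ} (hv : v ∈ lipClass L) (d : Fin 3) {c s : ℝ}
    (h : c ^ 2 + s ^ 2 ≤ 1) :
    c * (∫ t in (0 : ℝ)..1, planeInt (gradPerp d v) d t) + s * (∫ x in cell, |pd d v x|) ≤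
      ∫ x in cell, gradNorm v x := by
  have hg := integrableOn_cell (measurable_gradPerp d v) (3 * L) fun x _ => abs_gradPerp_le hv.1 d x
  have hp : IntegrableOn (fun x => |pd d v x|) cell :=
    integrableOn_cell (continuous_abs.measurable.comp (measurable_pd d v)) L fun x _ => by
      rw [abs_abs]; exact abs_pd_le hv.1 d x
  rw [← integral_cell_eq_planeInt (measurable_gradPerp d v) (abs_gradPerp_le hv.1 d) d,
    ← integral_const_mul, ← integral_const_mul, ← integral_add (hg.const_mul c) (hp.const_mul s)]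
  exact integral_mono ((hg.const_mul c).add (hp.const_mul s)) (integrableOn_gradNorm hv.1)
    fun x => mul_add_mul_abs_le_gradNorm d v x h

/-! ## Lines -/

theorem periodic_osc {g : ℝ → ℝ} {L : ℝ≥0} (hg : LipschitzWith L g) (hp : Function.Periodic g 1)
    (a b : ℝ) : 2 * |g a - g b| ≤ ∫ t in (0 : ℝ)..1, |deriv g t| := by
  have hdp : Function.Periodic (fun t => |deriv g t|) 1 := fun t => by
    show |deriv g (t + 1)| = |deriv g t|
    rw [← deriv_comp_add_const, show (fun x => g (x + 1)) = g from funext hp]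
  have hint : ∀ p q, IntervalIntegrable (deriv g) volume p q :=
    intervalIntegrable_of_bdd (measurable_deriv g) L fun t => norm_deriv_le_of_lipschitz hg
  have hftc : ∀ p q, ∫ t in p..q, deriv g t = g q - g p := fun p q =>
    (hg.lipschitzOnWith (s := uIcc p q)).absolutelyContinuousOnInterval.integral_deriv_eq_sub
  set b' := b - (⌊b - a⌋ : ℝ) with hb'
  have hgb : g b' = g b := by
    have := hp.sub_int_mul_eq (x := b) ⌊b - a⌋
    rwa [mul_one] at this
  have h1 : a ≤ b' := by linarith [Int.floor_le (b - a)]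
  have h2 : b' ≤ a + 1 := by linarith [Int.lt_floor_add_one (b - a)]
  rw [← zero_add (1 : ℝ), ← hdp.intervalIntegral_add_eq a 0,
    ← intervalIntegral.integral_add_adjacent_intervals (hint a b').abs (hint b' (a + 1)).abs]
  have e1 := intervalIntegral.abs_integral_le_integral_abs (μ := volume) (f := deriv g) h1
  have e2 := intervalIntegral.abs_integral_le_integral_abs (μ := volume) (f := deriv g) h2
  rw [hftc, hgb] at e1
  rw [hftc, hgb, hp a] at e2
  rw [abs_sub_comm] at e1
  linarith

theorem line_osc {L : ℝ≥0} {v : R3 → ℝ} (hv : v ∈ lipClass L) (e : Fin 3) :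
    ∀ᵐ y : R2, ∀ a b, 2 * |v (facePoint e a y) - v (facePoint e b y)| ≤
      ∫ t in Icc (0 : ℝ) 1, |pd e v (facePoint e t y)| := by
  filter_upwards [ae_line (hv.1.ae_differentiableAt (μ := volume)) e] with y hy a b
  have hl : LipschitzWith L fun t => v (facePoint e t y) := by
    have hF : LipschitzWith 1 fun t : ℝ => facePoint e t y :=
      LipschitzWith.mk_one fun p q => (dist_pi_le_iff dist_nonneg).2 (by
        refine e.forall_iff_succAbove.2 ⟨?_, fun j => ?_⟩ <;> simp [facePoint])
    have h := hv.1.comp hF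
    rwa [mul_one] at h
  have hp : Function.Periodic (fun t => v (facePoint e t y)) 1 := fun t => by
    show v (facePoint e (t + 1) y) = v (facePoint e t y)
    rw [show facePoint e (t + 1) y = facePoint e t y + unit e by rw [← facePoint_add, one_smul],
      hv.2.1]
  refine (periodic_osc hl hp a b).trans_eq ?_
  rw [← integral_Icc_zero_one]
  refine integral_congr_ae (ae_restrict_of_ae ?_)
  filter_upwards [hy] with t ht
  congr 1
  have h2 : HasDerivAt (fun s : ℝ => facePoint e 0 y + s • unit e) (unit e) t := by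
    simpa using ((hasDerivAt_id t).smul_const (unit e)).const_add (facePoint e 0 y)
  simp only [facePoint_add, zero_add] at h2
  exact (ht.hasFDerivAt.comp_hasDerivAt t h2).deriv

theorem lines_le {L : ℝ≥0} {v : R3 → ℝ} (hv : v ∈ lipClass L) (e : Fin 3) {G : R2 → ℝ}
    (hG : IntegrableOn G square)
    (h : ∀ y, ∃ a b, G y ≤ |v (facePoint e a y) - v (facePoint e b y)|) :
    2 * ∫ y in square, G y ≤ ∫ x in cell, |pd e v x| := by
  have hm : Measurable fun x => |pd e v x| := continuous_abs.measurable.comp (measurable_pd e v)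
  rw [setIntegral_cell_eq_box, integral_box_eq (integrableOn_box hm L fun x _ => by
      rw [abs_abs]; exact abs_pd_le hv.1 e x) e, ← integral_const_mul]
  refine integral_mono_ae (hG.const_mul 2) ?_ (ae_restrict_of_ae ?_)
  · refine integrableOn_square ?_ L fun y => ?_
    · exact ((hm.comp ((continuous_facePoint e).measurable.comp
        measurable_swap)).stronglyMeasurable.integral_prod_right'
          (ν := volume.restrict (Icc (0 : ℝ) 1))).measurable
    · have h := norm_setIntegral_le_of_norm_le_const (μ := volume) (s := Icc (0 : ℝ) 1) (C := (L : ℝ))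
        (f := fun t => |pd e v (facePoint e t y)|) (by simp)
        (fun t _ => by rw [Real.norm_eq_abs, abs_abs]; exact abs_pd_le hv.1 e _)
      simpa [measureReal_def] using h
  · filter_upwards [line_osc hv e] with y hy
    obtain ⟨a, b, hab⟩ := h y
    exact le_trans (by linarith) (hy a b)

theorem integral_abs_translate_le {L : ℝ≥0} {v : R3 → ℝ} (hv : v ∈ lipClass L) (e : Fin 3)
    (τ : ℝ) : ∫ x in cell, |v (x + τ • unit e) - v x| ≤ ∫ x in cell, |pd e v x| := by
  have hc : Continuous fun x => |v (x + τ • unit e) - v x| := by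
    have := hv.1.continuous
    fun_prop
  rw [integral_cell_eq_planeInt hc.measurable (C := 1) (fun x => by
    rw [abs_abs, abs_le]
    constructor <;> linarith [(hv.2.2 x).1, (hv.2.2 x).2, (hv.2.2 (x + τ • unit e)).1,
      (hv.2.2 (x + τ • unit e)).2]) e]
  have hT : 0 ≤ ∫ x in cell, |pd e v x| := setIntegral_nonneg measurableSet_cell fun x _ => abs_nonneg _
  have hle : ∀ t, planeInt (fun x => |v (x + τ • unit e) - v x|) e t ≤
      (∫ x in cell, |pd e v x|) / 2 := fun t => by
    rw [le_div_iff₀' (by norm_num : (0 : ℝ) < 2)]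
    exact lines_le hv e ((hc.comp (continuous_facePoint' e t)).continuousOn.integrableOn_compact
      isCompact_Icc) fun y => ⟨t + τ, t, le_of_eq (by
      show |v (facePoint e t y + τ • unit e) - _| = _
      rw [facePoint_add])⟩
  refine le_trans (intervalIntegral.integral_mono_on zero_le_one
    (intervalIntegrable_planeInt hc.measurable (C := 1) (fun x => by
      rw [abs_abs, abs_le]
      constructor <;> linarith [(hv.2.2 x).1, (hv.2.2 x).2, (hv.2.2 (x + τ • unit e)).1,
        (hv.2.2 (x + τ • unit e)).2]) e 0 1) intervalIntegrable_const fun t _ => hle t) ?_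
  simp only [intervalIntegral.integral_const, sub_zero, one_smul]
  linarith

/-! ## Superlevel sets -/

variable {α : Type*} [MeasurableSpace α] {μ : Measure α} {K : Set α} {f : α → ℝ}

theorem measureReal_lt_le_integral (hK : MeasurableSet K) (hKf : μ K ≠ ⊤) (hf : Measurable f)
    {φ : ℝ → ℝ} (hφ : IntegrableOn (fun x => φ (f x)) K μ) (h0 : ∀ r, 0 ≤ φ r) {s : ℝ}
    (h1 : ∀ r, s < r → 1 ≤ φ r) : μ.real (K ∩ {x | s < f x}) ≤ ∫ x in K, φ (f x) ∂μ := by
  have hset : MeasurableSet {x | s < f x} := measurableSet_lt measurable_const hf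
  have : μ.real (K ∩ {x | s < f x}) = ∫ x in K, {x | s < f x}.indicator (fun _ => (1 : ℝ)) x ∂μ := by
    rw [setIntegral_indicator hset, setIntegral_const, smul_eq_mul, mul_one]
  rw [this]
  refine setIntegral_mono_on ((integrableOn_const hKf).indicator hset) hφ hK fun x _ => ?_
  by_cases h : s < f x
  · rw [indicator_of_mem (show x ∈ {x | s < f x} from h)]; exact h1 _ h
  · rw [indicator_of_notMem (show x ∉ {x | s < f x} from h)]; exact h0 _

theorem integral_le_measureReal_lt (hK : MeasurableSet K) (hKf : μ K ≠ ⊤) (hf : Measurable f)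
    {φ : ℝ → ℝ} (hφ : IntegrableOn (fun x => φ (f x)) K μ) (h0 : ∀ r, φ r ≤ 1) {s : ℝ}
    (h1 : ∀ r, r ≤ s → φ r ≤ 0) : ∫ x in K, φ (f x) ∂μ ≤ μ.real (K ∩ {x | s < f x}) := by
  have hset : MeasurableSet {x | s < f x} := measurableSet_lt measurable_const hf
  have : μ.real (K ∩ {x | s < f x}) = ∫ x in K, {x | s < f x}.indicator (fun _ => (1 : ℝ)) x ∂μ := by
    rw [setIntegral_indicator hset, setIntegral_const, smul_eq_mul, mul_one]
  rw [this]
  refine setIntegral_mono_on hφ ((integrableOn_const hKf).indicator hset) hK fun x _ => ?_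
  by_cases h : s < f x
  · rw [indicator_of_mem (show x ∈ {x | s < f x} from h)]; exact h0 _
  · rw [indicator_of_notMem (show x ∉ {x | s < f x} from h)]; exact h1 _ (not_lt.1 h)

theorem abs_level_sub_integral (hKf : μ K ≠ ⊤) (hf : Measurable f)
    (h01 : ∀ x, f x ∈ Icc (0 : ℝ) 1) {δ s : ℝ} (hδ : 0 < δ) (hs : δ ≤ s) (hs' : s ≤ 1 - δ) :
    |μ.real (K ∩ {x | s < f x}) - ∫ x in K, f x ∂μ| ≤ (∫ x in K, f x * (1 - f x) ∂μ) / δ := by
  have hset : MeasurableSet {x | s < f x} := measurableSet_lt measurable_const hf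
  have hint : ∀ {g : α → ℝ}, Measurable g → ∀ C, (∀ x, |g x| ≤ C) → IntegrableOn g K μ :=
    fun hg C hC => IntegrableOn.of_bound hKf.lt_top hg.aestronglyMeasurable C
      (ae_of_all _ fun x => (Real.norm_eq_abs _).trans_le (hC x))
  have hi : IntegrableOn ({x | s < f x}.indicator fun _ => (1 : ℝ)) K μ :=
    (integrableOn_const hKf).indicator hset
  have hf' : IntegrableOn f K μ := hint hf 1 fun x => abs_le_one_of_mem (h01 x)
  have hq : IntegrableOn (fun x => f x * (1 - f x) / δ) K μ :=
    (hint (hf.mul (measurable_const.sub hf)) 1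
      fun x => abs_le_one_of_mem (mul_one_sub_mem (h01 x))).div_const δ
  have : μ.real (K ∩ {x | s < f x}) = ∫ x in K, {x | s < f x}.indicator (fun _ => (1 : ℝ)) x ∂μ := by
    rw [setIntegral_indicator hset, setIntegral_const, smul_eq_mul, mul_one]
  rw [this, ← integral_sub hi hf', ← integral_div]
  refine abs_integral_le_integral_abs.trans (integral_mono (hi.sub hf').abs hq fun x => ?_)
  obtain ⟨h0, h1⟩ := h01 x
  show |_ - f x| ≤ _
  rw [le_div_iff₀ hδ]
  by_cases h : s < f x
  · rw [indicator_of_mem (show x ∈ {x | s < f x} from h), abs_of_nonneg (by linarith)]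
    nlinarith
  · rw [indicator_of_notMem (show x ∉ {x | s < f x} from h), zero_sub, abs_neg, abs_of_nonneg h0]
    nlinarith [not_lt.1 h]

end Vale.Agent.P232.Rigid
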