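import Vale.Agent.P232.Rigid.Spec
import Vale.Agent.P232.Subgraph

/-!
# P232 rigidity: plane integrals and slices of periodic functions
-/

open MeasureTheory Set Filter
open scoped ENNReal NNReal Real Topology

noncomputable section

namespace Vale.Agent.P232.Rigid

/-- The slice `x d = t`, extended constantly along `d`. -/
def sliceFun (f : R3 → ℝ) (d : Fin 3) (t : ℝ) : R3 → ℝ := fun x => f (Function.update x d t)

/-- The length of the gradient transverse to `d`. -/
def gradPerp (d : Fin 3) (f : R3 → ℝ) (x : R3) : ℝ :=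
  Real.sqrt (∑ i ∈ Finset.univ.erase d, pd i f x ^ 2)

theorem facePoint_update (d : Fin 3) (s t : ℝ) (y : R2) :
    Function.update (facePoint d s y) d t = facePoint d t y :=
  Fin.update_insertNth (α := fun _ => ℝ) d s t y

theorem facePoint_self (d : Fin 3) (t : ℝ) (y : R2) : facePoint d t y d = t :=
  Fin.insertNth_apply_same _ _ _

theorem update_eq_add (x : R3) (d : Fin 3) (t : ℝ) :
    Function.update x d t = x + (t - x d) • unit d := by
  funext j
  by_cases h : j = d
  · subst h; simp [unit_apply]
  · simp [unit_apply, h]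

theorem update_add_unit (x : R3) (d : Fin 3) (t : ℝ) :
    Function.update x d t + unit d = Function.update x d (t + 1) := by
  funext j
  by_cases h : j = d
  · subst h; simp [unit_apply]
  · simp [unit_apply, h]

theorem update_periodic {α : Type*} {f : R3 → α} (hf : IsPeriodicFun f) (x : R3) (d : Fin 3) :
    Function.Periodic (fun t => f (Function.update x d t)) 1 := fun t => by
  show f (Function.update x d (t + 1)) = f (Function.update x d t)
  rw [← update_add_unit, hf]

theorem lipschitzWith_update (d : Fin 3) (t : ℝ) :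
    LipschitzWith 1 (fun x : R3 => Function.update x d t) := by
  refine LipschitzWith.mk_one fun x y => (dist_pi_le_iff dist_nonneg).2 fun j => ?_
  by_cases h : j = d
  · subst h; simp
  · simp only [Function.update_of_ne h]
    exact dist_le_pi_dist x y j

theorem isPeriodic_sliceFun {f : R3 → ℝ} (hf : IsPeriodicFun f) (d : Fin 3) (t : ℝ) :
    IsPeriodicFun (sliceFun f d t) := fun x i => by
  by_cases h : i = d
  · subst h
    refine congrArg f ?_
    funext j
    by_cases hj : j = i
    · subst hj; simp
    · simp [unit_apply, hj]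
  · show f (Function.update (x + unit i) d t) = f (Function.update x d t)
    rw [← hf (Function.update x d t) i]
    congr 1
    funext j
    by_cases hj : j = d
    · subst hj; simp [unit_apply, Ne.symm h]
    · simp [hj]

theorem sliceFun_update (f : R3 → ℝ) (d : Fin 3) (t : ℝ) (x : R3) (s : ℝ) :
    sliceFun f d t (Function.update x d s) = sliceFun f d t x := by
  simp [sliceFun]

theorem lipClass_sliceFun {L : ℝ≥0} {f : R3 → ℝ} (hf : f ∈ lipClass L) (d : Fin 3) (t : ℝ) :
    sliceFun f d t ∈ lipClass L := by
  refine ⟨?_, isPeriodic_sliceFun hf.2.1 d t, fun x => hf.2.2 _⟩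
  have h := hf.1.comp (lipschitzWith_update d t)
  rwa [mul_one] at h

theorem abs_le_one_of_mem {r : ℝ} (h : r ∈ Icc (0 : ℝ) 1) : |r| ≤ 1 := by
  rw [abs_of_nonneg h.1]; exact h.2

theorem mul_one_sub_mem {r : ℝ} (h : r ∈ Icc (0 : ℝ) 1) : r * (1 - r) ∈ Icc (0 : ℝ) 1 :=
  ⟨mul_nonneg h.1 (sub_nonneg.2 h.2), by nlinarith [h.1, h.2]⟩

/-! ## Plane integrals -/

theorem integrableOn_square {g : R2 → ℝ} (hg : Measurable g) (C : ℝ) (hC : ∀ y, |g y| ≤ C) :
    IntegrableOn g square :=
  IntegrableOn.of_bound (by simp [volume_square]) hg.aestronglyMeasurable C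
    (ae_of_all _ fun y => (Real.norm_eq_abs _).trans_le (hC y))

theorem integrableOn_plane {f : R3 → ℝ} (hm : Measurable f) (C : ℝ) (hC : ∀ x, |f x| ≤ C)
    (d : Fin 3) (t : ℝ) : IntegrableOn (fun y => f (facePoint d t y)) square :=
  integrableOn_square (hm.comp (continuous_facePoint' d t).measurable) C fun _ => hC _

theorem measurable_planeInt {f : R3 → ℝ} (hm : Measurable f) (d : Fin 3) :
    Measurable (planeInt f d) :=
  ((hm.comp (continuous_facePoint d).measurable).stronglyMeasurable.integral_prod_right'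
    (ν := volume.restrict square)).measurable

theorem abs_planeInt_le {f : R3 → ℝ} {C : ℝ} (hC : ∀ x, |f x| ≤ C) (d : Fin 3) (t : ℝ) :
    |planeInt f d t| ≤ C := by
  have h := norm_setIntegral_le_of_norm_le_const (μ := volume) (s := square) (C := C)
    (f := fun y => f (facePoint d t y)) (by simp [volume_square])
    (fun y _ => (Real.norm_eq_abs _).trans_le (hC _))
  simpa [planeInt, measureReal_def, volume_square] using h

theorem planeInt_nonneg {f : R3 → ℝ} (hf : ∀ x, 0 ≤ f x) (d : Fin 3) (t : ℝ) :
    0 ≤ planeInt f d t :=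
  setIntegral_nonneg measurableSet_square fun _ _ => hf _

theorem planeInt_mono {f g : R3 → ℝ} (hf : Measurable f) (hg : Measurable g) {C : ℝ}
    (hfC : ∀ x, |f x| ≤ C) (hgC : ∀ x, |g x| ≤ C) {d : Fin 3} {t t' : ℝ}
    (h : ∀ y, f (facePoint d t y) ≤ g (facePoint d t' y)) : planeInt f d t ≤ planeInt g d t' :=
  integral_mono (integrableOn_plane hf C hfC d t) (integrableOn_plane hg C hgC d t') h

theorem planeInt_mem {f : R3 → ℝ} (h : ∀ x, f x ∈ Icc (0 : ℝ) 1) (d : Fin 3)
    (t : ℝ) : planeInt f d t ∈ Icc (0 : ℝ) 1 :=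
  ⟨planeInt_nonneg (fun x => (h x).1) d t,
    (le_abs_self _).trans (abs_planeInt_le (fun x => abs_le_one_of_mem (h x)) d t)⟩

theorem planeInt_periodic {f : R3 → ℝ} (hf : IsPeriodicFun f) (d : Fin 3) :
    Function.Periodic (planeInt f d) 1 := fun t => by
  refine setIntegral_congr_fun measurableSet_square fun y _ => ?_
  rw [show facePoint d (t + 1) y = facePoint d t y + unit d by
    rw [← facePoint_add, one_smul], hf]

theorem intervalIntegrable_of_bdd {g : ℝ → ℝ} (hg : Measurable g) (C : ℝ) (hC : ∀ t, |g t| ≤ C)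
    (a b : ℝ) : IntervalIntegrable g volume a b := by
  rw [intervalIntegrable_iff]
  exact IntegrableOn.of_bound (by simp [uIoc]) hg.aestronglyMeasurable C
    (ae_of_all _ fun t => (Real.norm_eq_abs _).trans_le (hC t))

theorem intervalIntegrable_planeInt {f : R3 → ℝ} (hm : Measurable f) {C : ℝ}
    (hC : ∀ x, |f x| ≤ C) (d : Fin 3) (a b : ℝ) : IntervalIntegrable (planeInt f d) volume a b :=
  intervalIntegrable_of_bdd (measurable_planeInt hm d) C (abs_planeInt_le hC d) a b

theorem cell_ae_eq_box : cell =ᵐ[volume] box :=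
  Measure.univ_pi_Ico_ae_eq_Icc (μ := fun _ : Fin 3 => (volume : Measure ℝ))
    (f := (0 : R3)) (g := (1 : R3))

theorem setIntegral_cell_eq_box (f : R3 → ℝ) : ∫ x in cell, f x = ∫ x in box, f x :=
  setIntegral_congr_set cell_ae_eq_box

theorem integral_Icc_zero_one (g : ℝ → ℝ) :
    ∫ t in Icc (0 : ℝ) 1, g t = ∫ t in (0 : ℝ)..1, g t := by
  rw [integral_Icc_eq_integral_Ioc, intervalIntegral.integral_of_le zero_le_one]

/-- Fubini along an axis of the cell. -/
theorem integral_cell_eq_planeInt {f : R3 → ℝ} (hm : Measurable f) {C : ℝ} (hC : ∀ x, |f x| ≤ C)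
    (d : Fin 3) : ∫ x in cell, f x = ∫ t in (0 : ℝ)..1, planeInt f d t := by
  rw [setIntegral_cell_eq_box, integral_box_eq (integrableOn_box hm C fun x _ => hC x) d,
    ← integral_Icc_zero_one]
  refine integral_integral_swap ?_
  have : IsFiniteMeasure ((volume : Measure R2).restrict square) :=
    isFiniteMeasure_restrict.2 (by simp [volume_square])
  exact Integrable.of_bound
    ((hm.comp ((continuous_facePoint d).measurable.comp measurable_swap)).aestronglyMeasurable) C
    (ae_of_all _ fun p => (Real.norm_eq_abs _).trans_le (hC _))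

/-- A function independent of `d`. -/
theorem planeInt_of_indep {f : R3 → ℝ} {d : Fin 3}
    (h : ∀ x t, f (Function.update x d t) = f x) (t : ℝ) : planeInt f d t = planeInt f d 0 := by
  refine setIntegral_congr_fun measurableSet_square fun y _ => ?_
  rw [← facePoint_update d 0 t y, h]

theorem integral_cell_of_indep {f : R3 → ℝ} (hm : Measurable f) {C : ℝ} (hC : ∀ x, |f x| ≤ C)
    {d : Fin 3} (h : ∀ x t, f (Function.update x d t) = f x) (t : ℝ) :
    ∫ x in cell, f x = planeInt f d t := by
  rw [integral_cell_eq_planeInt hm hC d,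
    intervalIntegral.integral_congr (g := fun _ => planeInt f d t) fun s _ => by
      show planeInt f d s = planeInt f d t
      rw [planeInt_of_indep h s, planeInt_of_indep h t]]
  simp

theorem measurable_sliceFun {f : R3 → ℝ} (hm : Measurable f) (d : Fin 3) (t : ℝ) :
    Measurable (sliceFun f d t) :=
  hm.comp (lipschitzWith_update d t).continuous.measurable

theorem planeInt_sliceFun (f : R3 → ℝ) (d : Fin 3) (s t : ℝ) :
    planeInt (sliceFun f d t) d s = planeInt f d t := by
  refine setIntegral_congr_fun measurableSet_square fun y _ => ?_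
  simp only [sliceFun, facePoint_update]

theorem integral_cell_sliceFun {f : R3 → ℝ} (hm : Measurable f) {C : ℝ} (hC : ∀ x, |f x| ≤ C)
    (d : Fin 3) (t : ℝ) : ∫ x in cell, sliceFun f d t x = planeInt f d t := by
  rw [integral_cell_of_indep (measurable_sliceFun hm d t) (fun x => hC _)
    (fun x s => sliceFun_update f d t x s) t, planeInt_sliceFun]

/-- Averaging a plane integral over the lines in the plane. -/
theorem integral_planeInt_sliceFun {f : R3 → ℝ} (hm : Measurable f) {C : ℝ}
    (hC : ∀ x, |f x| ≤ C) (d i : Fin 3) (c : ℝ) :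
    ∫ t in (0 : ℝ)..1, planeInt (sliceFun f i c) d t = planeInt f i c := by
  rw [← integral_cell_eq_planeInt (measurable_sliceFun hm i c) (fun x => hC _) d,
    integral_cell_sliceFun hm hC]

/-! ## Symmetric decreasing functions -/

theorem abs_sub_round_le (t : ℝ) : |t - round t| ≤ 1 / 2 := abs_sub_round t

theorem IsSymmDecreasing.between {w : R3 → ℝ} (hw : IsSymmDecreasing w) (hp : IsPeriodicFun w)
    (x : R3) (e : Fin 3) (t : ℝ) :
    w (Function.update x e (1 / 2)) ≤ w (Function.update x e t) ∧
      w (Function.update x e t) ≤ w (Function.update x e 0) := by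
  have hh : |(1 / 2 : ℝ)| = 1 / 2 := abs_of_pos (by norm_num)
  have hr : w (Function.update x e t) = w (Function.update x e (t - round t)) := by
    have := (update_periodic hp x e).sub_int_mul_eq (x := t) (round t)
    rw [mul_one] at this
    exact this.symm
  rw [hr]
  constructor
  · exact hw e x _ _ ((abs_sub_round t).trans hh.ge) hh.le
  · exact hw e x _ _ (by rw [abs_zero]; exact abs_nonneg _) (abs_sub_round t)

theorem isSymmDecreasing_sliceFun {d : Fin 3} {v : R3 → ℝ} (hv : SymmExcept d v) (t : ℝ) :
    IsSymmDecreasing (sliceFun v d t) := by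
  intro i x a b hab hb
  by_cases h : i = d
  · subst h; simp [sliceFun]
  · simp only [sliceFun]
    rw [Function.update_comm h, Function.update_comm h]
    exact hv i h _ a b hab hb

theorem lipClass_half {L : ℝ≥0} {f : R3 → ℝ} (hf : f ∈ lipClass L) :
    LipschitzWith L (half f) ∧ ∀ x, half f x ∈ Icc (0 : ℝ) 1 := by
  refine ⟨LipschitzWith.of_dist_le_mul fun x y => (hf.1.dist_le_mul _ _).trans ?_, fun x => hf.2.2 _⟩
  rw [dist_smul₀]
  gcongr
  calc ‖(1 / 2 : ℝ)‖ * dist x y ≤ 1 * dist x y := by gcongr; norm_num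
    _ = dist x y := one_mul _

theorem half_antitone {f : R3 → ℝ} (hf : IsSymmDecreasing f) :
    ∀ x ∈ box, ∀ y ∈ box, y ≤ x → half f x ≤ half f y :=
  fun _ hx _ hy hyx => hf.antitone_half hx hy hyx

theorem integral_box_half_symm {f : R3 → ℝ} (hp : IsPeriodicFun f) (hm : Measurable f) {C : ℝ}
    (hC : ∀ x, |f x| ≤ C) (hs : ∀ i x, f (refl i 0 x) = f x) :
    ∫ x in box, half f x = ∫ x in cell, f x := by
  rw [setIntegral_cell_eq_octant hp hm C hC fun i => ae_of_all _ (hs i)]
  exact integral_box_half f

theorem integral_box_half_comp {L : ℝ≥0} {f : R3 → ℝ} (hf : f ∈ lipClass L)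
    (hsd : IsSymmDecreasing f) {φ : ℝ → ℝ} (hφ : Continuous φ) :
    ∫ x in box, φ (half f x) = ∫ x in cell, φ (f x) := by
  obtain ⟨C, hC⟩ := (hf.2.1.comp φ).exists_bound (hφ.comp hf.1.continuous)
  exact integral_box_half_symm (f := fun x => φ (f x)) (hf.2.1.comp φ)
    (hφ.comp hf.1.continuous).measurable hC fun i x => congrArg φ (hsd.refl_eq hf.2.1 i x)

theorem integral_gradNorm_half {L : ℝ≥0} {v : R3 → ℝ} (hv : v ∈ lipClass L)
    (hsd : IsSymmDecreasing v) :
    ∫ x in box, gradNorm (half v) x = (∫ x in cell, gradNorm v x) / 2 := by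
  obtain ⟨hvL, hvp, -⟩ := hv
  have hrefl := hsd.refl_eq hvp
  have hgsymm : ∀ i, ∀ᵐ x, gradNorm v (refl i 0 x) = gradNorm v x := fun i => by
    filter_upwards [(measurePreserving_refl i 0).quasiMeasurePreserving.ae
      (hvL.ae_differentiableAt (μ := volume))] with x hx
    rw [← gradNorm_comp_refl hx, show (fun z => v (refl i 0 z)) = v from funext (hrefl i)]
  have hgw : ∀ᵐ x, gradNorm (half v) x = gradNorm v ((1 / 2 : ℝ) • x) / 2 := by
    filter_upwards [(Measure.quasiMeasurePreserving_smul volume (r := (1 / 2 : ℝ)) (by norm_num)).ae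
      (hvL.ae_differentiableAt (μ := volume))] with x hx
    have hd : HasFDerivAt (half v) ((fderiv ℝ v ((1 / 2 : ℝ) • x)).comp
        ((1 / 2 : ℝ) • ContinuousLinearMap.id ℝ R3)) x :=
      hx.hasFDerivAt.comp x ((hasFDerivAt_id x).const_smul (1 / 2 : ℝ))
    simp only [gradNorm, pd, hd.fderiv, ContinuousLinearMap.comp_apply, FunLike.coe_smul,
      Pi.smul_apply, ContinuousLinearMap.id_apply, map_smul, smul_eq_mul, mul_pow, ← Finset.mul_sum]
    rw [Real.sqrt_mul (by norm_num), Real.sqrt_sq (by norm_num)]
    ring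
  rw [integral_congr_ae (ae_restrict_of_ae hgw), integral_div, integral_box_half,
    setIntegral_cell_eq_octant (pd_periodic_gradNorm hvp) (measurable_gradNorm v) (3 * L)
      (fun x => by rw [abs_of_nonneg (gradNorm_nonneg v x)]; exact gradNorm_le hvL x) hgsymm]

/-- A plane integral as an integral over the square. -/
theorem planeInt_eq_square {f : R3 → ℝ} (hp : IsPeriodicFun f) (hm : Measurable f) {C : ℝ}
    (hC : ∀ x, |f x| ≤ C) (i : Fin 3) (c : ℝ)
    (hs : ∀ j x, sliceFun f i c (refl j 0 x) = sliceFun f i c x) :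
    planeInt f i c = ∫ y in square, sliceFun f i c ((1 / 2 : ℝ) • facePoint i 1 y) := by
  rw [← integral_cell_sliceFun hm hC i c,
    ← integral_box_half_symm (f := sliceFun f i c) (isPeriodic_sliceFun hp i c)
      (measurable_sliceFun hm i c) (fun x => hC _) hs,
    integral_box_eq (F := half (sliceFun f i c))
      (integrableOn_box ((measurable_sliceFun hm i c).comp (measurable_const_smul _)) C
        fun x _ => hC _) i]
  refine setIntegral_congr_fun measurableSet_square fun y _ => ?_
  have : ∀ t, half (sliceFun f i c) (facePoint i t y) =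
      sliceFun f i c ((1 / 2 : ℝ) • facePoint i 1 y) := fun t => by
    simp only [half, sliceFun]
    congr 1
    funext j
    revert j
    refine i.forall_iff_succAbove.2 ⟨?_, fun j => ?_⟩
    · simp
    · simp [facePoint, Fin.succAbove_ne]
  simp only [this]
  simp

/-- The end face of a symmetric decreasing function. -/
theorem planeInt_face {L : ℝ≥0} {w : R3 → ℝ} (hw : w ∈ lipClass L) (hsd : IsSymmDecreasing w)
    {φ : ℝ → ℝ} (hφ : Continuous φ) (i : Fin 3) :
    planeInt (fun x => φ (w x)) i (1 / 2) = ∫ y in square, φ (half w (facePoint i 1 y)) := by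
  obtain ⟨C, hC⟩ := (hw.2.1.comp φ).exists_bound (hφ.comp hw.1.continuous)
  have hp := hw.2.1
  rw [planeInt_eq_square (hp.comp φ) (hφ.comp hw.1.continuous).measurable hC i (1 / 2) fun j x => by
    simp only [sliceFun]
    congr 1
    by_cases h : j = i
    · subst h
      congr 1
      funext l
      by_cases hl : l = j
      · subst hl; simp
      · simp [refl_apply, hl]
    · rw [show Function.update (refl j 0 x) i (1 / 2) = refl j 0 (Function.update x i (1 / 2)) from ?_,
        hsd.refl_eq hp]
      funext l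
      by_cases hl : l = i
      · subst hl; simp [refl_apply, Ne.symm h]
      · by_cases hlj : l = j
        · subst hlj; simp [refl_apply, hl]
        · simp [refl_apply, hl, hlj]]
  refine setIntegral_congr_fun measurableSet_square fun y _ => ?_
  simp only [sliceFun, half]
  congr 2
  rw [Function.update_eq_self_iff]
  simp [facePoint_self]

end Vale.Agent.P232.Rigid
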