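import Vale.Agent.P232.Rigid.Spec

/-!
# P232 rigidity: the assembly
-/

open MeasureTheory Set Filter
open scoped ENNReal NNReal Real Topology

noncomputable section

namespace Vale.Agent.P232.Rigid

theorem shapeRadius_mem {n : ℕ} {v : ℝ} (hv : 0 < v) (hv2 : v ≤ 1 / 2) :
    0 < shapeRadius n v ∧ shapeRadius n v < 1 / 2 := by
  have hpi := Real.pi_gt_three
  rw [shapeRadius]
  split_ifs
  · refine ⟨by positivity, ?_⟩
    refine lt_of_pow_lt_pow_left₀ 3 (by norm_num) ?_
    rw [← Real.rpow_natCast ((3 * v / (4 * π)) ^ _), ← Real.rpow_mul (by positivity)]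
    norm_num
    rw [div_lt_iff₀ (by positivity)]
    nlinarith
  · refine ⟨by positivity, ?_⟩
    rw [Real.sqrt_lt' (by norm_num), div_lt_iff₀ (by positivity)]
    nlinarith
  · constructor <;> linarith

theorem candidate_min {V : ℝ} : candidate (min V (1 - V)) = candidate V := by
  have h : min (min V (1 - V)) (1 - min V (1 - V)) = min V (1 - V) :=
    min_eq_left (by linarith [min_le_left V (1 - V), min_le_right V (1 - V)])
  simp only [candidate, h]

/-- The assembly. -/
theorem assembly (hSide : SideSpec) (hCircle : CircleSpec) (hShape : ShapeSpec) :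
    AssemblySpec := by
  intro V hV hbound hstable E hE hvol hper
  set v := min V (1 - V) with hv
  have hv0 : 0 < v := lt_min hV.1 (by linarith [hV.2])
  have hv2 : v ≤ 1 / 2 := by linarith [min_le_left V (1 - V), min_le_right V (1 - V)]
  have hP : perimeter E ≤ ENNReal.ofReal (candidate v) := by
    rw [hper, hv, candidate_min]
    exact profile_le_candidate hV
  have key : ∀ F : Set R3, IsTorusSet F → torusVolume F = v →
      perimeter F ≤ ENNReal.ofReal (candidate v) →
        ∃ (S : Finset (Fin 3)) (c : R3) (R : ℝ), S.Nonempty ∧ 0 < R ∧ R < 1 / 2 ∧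
          ∀ᵐ x : R3, x ∈ F ↔ x ∈ shapeSet S c R := by
    intro F hF hFv hFP
    obtain ⟨S, hS, hSP, hdata⟩ := hSide v hv0 hv2 hbound hstable F hF hFv hFP
    have hn : S.card = 1 ∨ S.card = 2 ∨ S.card = 3 := by
      have h3 : S.card ≤ 3 := (Finset.card_le_univ S).trans_eq (Fintype.card_fin 3)
      have h1 := Finset.card_pos.2 hS
      omega
    have hc : ∀ d, ∃ c : ℝ, d ∈ S →
        ∀ᵐ t : ℝ, marginal F d t = shapeMarginal S.card (shapeRadius S.card v) (t - c) := by
      intro d
      by_cases hd : d ∈ S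
      · obtain ⟨c, hc⟩ := hCircle S.card v hn hv0 hv2 hSP _ (hdata d hd)
        exact ⟨c, fun _ => hc⟩
      · exact ⟨0, fun h => absurd h hd⟩
    choose c hc using hc
    obtain ⟨hR0, hR2⟩ := shapeRadius_mem (n := S.card) hv0 hv2
    exact ⟨S, c, _, hS, hR0, hR2, hShape F S c v hF hS hv0 hv2 hSP hFv fun d hd => hc d hd⟩
  rcases min_choice V (1 - V) with h | h
  · obtain ⟨S, c, R, hS, hR, hR2, hae⟩ := key E hE (hvol.trans h.symm) hP
    exact ⟨S, c, R, hS, hR, hR2, Or.inl hae⟩
  · obtain ⟨S, c, R, hS, hR, hR2, hae⟩ := key Eᶜ hE.compl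
      (by rw [hE.torusVolume_compl, hvol]; exact h.symm) (hE.perimeter_compl_le.trans hP)
    refine ⟨S, c, R, hS, hR, hR2, Or.inr (hae.mono fun x hx => ?_)⟩
    rw [← hx, mem_compl_iff, not_not]

end Vale.Agent.P232.Rigid
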