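import Vale.Agent.P232.Rigid.Circle.Tube
import Vale.Agent.P232.Rigid.Circle.Ball
import Vale.Agent.P232.Rigid.Circle.Slab

/-!
# P232 rigidity: the marginal of a minimiser is the candidate's
-/

noncomputable section

namespace Vale.Agent.P232.Rigid

/-- M4: one-variable rigidity. -/
theorem circle : CircleSpec := by
  intro n V hn hV hV2 hP A h
  rcases hn with rfl | rfl | rfl
  · exact Circle.slab_profile hV hV2 h
  · exact Circle.tube_profile hV hP h
  · exact Circle.ball_profile hV hP h

end Vale.Agent.P232.Rigid
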