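import Vale.Agent.P232.Rigid.SideLimit

/-!
# P232 rigidity: stability of reduced sets gives stability of faces
-/

open MeasureTheory Set Filter
open scoped ENNReal NNReal Real Topology

noncomputable section

namespace Vale.Agent.P232.Rigid

/-- A level in `(p, q)` of a nearly optimal symmetric function is a nearly optimal reduced set
with end areas between the face areas. -/
theorem level_set (hL : LevelSpec) {V : ℝ} (h0 : 0 ≤ V) (h1 : V ≤ 1)
    (hev : ∀ᶠ W in 𝓝 V, ReducedBoundAt W) {p q : ℝ} (hp : 0 < p) (hpq : p < q) (hq : q < 1) {δs : ℝ}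
    (hδs : 0 < δs) :
    ∃ δ : ℝ, 0 < δ ∧ ∀ (L : ℝ≥0) (w : R3 → ℝ), w ∈ lipClass L → IsSymmDecreasing w →
      |(∫ x in cell, w x) - V| < δ → (∫ x in cell, w x * (1 - w x)) < δ →
      (∫ x in cell, gradNorm w x) ≤ candidate V + δ →
        ∃ (D : Set R3) (M : ℝ), IsReduced D M ∧ |boxVolume D - V| < δs ∧
          2 * M ≤ candidate V + δs ∧
            ∀ i, faceArea w i q ≤ endArea D i ∧ endArea D i ≤ faceArea w i p := by
  set P := candidate V with hPdef
  have hP0 : 0 ≤ P := candidate_nonneg h0 h1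
  set δ₀ := min (min p (1 - q)) (δs * (q - p) / (4 * (P + 1))) with hδ₀def
  have hqp : 0 < q - p := sub_pos.2 hpq
  have hδ₀ : 0 < δ₀ := lt_min (lt_min hp (by linarith)) (by positivity)
  have hδ₀p : δ₀ ≤ p := (min_le_left _ _).trans (min_le_left _ _)
  have hδ₀q : q ≤ 1 - δ₀ := by
    linarith [(min_le_left (min p (1 - q)) (δs * (q - p) / (4 * (P + 1)))).trans (min_le_right _ _)]
  have hδ₀P : δ₀ * (4 * (P + 1)) ≤ δs * (q - p) :=
    (le_div_iff₀ (by positivity)).1 (min_le_right _ _)
  set η' := δs * (q - p) / 4 with hη'def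
  have hη'0 : 0 < η' := by positivity
  obtain ⟨γ, hγ, hγ'⟩ := Metric.eventually_nhds_iff.1
    (hev.and (continuous_candidate.continuousAt.eventually
      (eventually_gt_nhds (show P - η' < candidate V by linarith))))
  set δ := min (η' / 2) (min γ δs * δ₀ / 4) with hδdef
  have hδ : 0 < δ := lt_min (by positivity) (by positivity)
  refine ⟨δ, hδ, fun L w hw hsd hA hQ hE => ?_⟩
  set W := half w with hWdef
  obtain ⟨hWL, hW01⟩ := lipClass_half hw
  have hanti := half_antitone hsd
  have hvol : ∀ t, δ₀ ≤ t → t ≤ 1 - δ₀ → |boxVolume (box ∩ {x | t < W x}) - V| < min γ δs := by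
    intro t ht ht'
    have h := abs_level_sub_integral (μ := volume) (K := box) (by simp [volume_box])
      hWL.continuous.measurable hW01 hδ₀ ht ht'
    rw [integral_box_half_comp hw hsd (φ := fun t => t) continuous_id,
      integral_box_half_comp hw hsd (φ := fun t => t * (1 - t)) (by fun_prop)] at h
    have hm : 0 < min γ δs := lt_min hγ hδs
    have hδ' : δ ≤ min γ δs * δ₀ / 4 := min_le_right _ _
    have h2 : (∫ x in cell, w x * (1 - w x)) / δ₀ ≤ min γ δs / 4 := by
      rw [div_le_iff₀ hδ₀]; linarith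
    have h3 : δ ≤ min γ δs / 4 := by
      have h4 : δ₀ ≤ 1 := by linarith
      nlinarith
    calc |boxVolume (box ∩ {x | t < W x}) - V|
        ≤ |boxVolume (box ∩ {x | t < W x}) - ∫ x in cell, w x| + |(∫ x in cell, w x) - V| :=
          abs_sub_le _ _ _
      _ < min γ δs := by unfold boxVolume; linarith
  have hI : ∫ x in box, gradNorm W x ≤ (P + δ) / 2 := by
    rw [hWdef, integral_gradNorm_half hw hsd]
    linarith
  set J := max 0 ((P - η') / 2) with hJdef
  obtain ⟨s, hs, hred⟩ := hL L W hWL hW01 hanti δ₀ J p q hδ₀ hδ₀p hpq hδ₀q (le_max_left _ _)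
    fun t ht M hM => by
      refine max_le ?_ ?_
      · have := hM.bound (fun _ _ => 0) (fun _ => contDiff_const) (fun _ _ => by simp)
        simpa [flux, divergence, pd] using this
      · have hd : dist (boxVolume (box ∩ {x | t < W x})) V < γ := by
          rw [Real.dist_eq]
          exact (hvol t ht.1.le ht.2.le).trans_le (min_le_left _ _)
        obtain ⟨hb1, hc1⟩ := hγ' hd
        have := hb1 _ M hM rfl
        linarith
  set M := ((∫ x in box, gradNorm W x) - J * (1 - 2 * δ₀ - (q - p))) / (q - p) with hMdef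
  have hM : 2 * M ≤ P + δs := by
    have hk : 0 ≤ 1 - 2 * δ₀ - (q - p) := by linarith
    have hJ' : (P - η') / 2 * (1 - 2 * δ₀ - (q - p)) ≤ J * (1 - 2 * δ₀ - (q - p)) :=
      mul_le_mul_of_nonneg_right (le_max_right _ _) hk
    have hδη : δ ≤ η' / 2 := min_le_left _ _
    rw [hMdef, ← mul_div_assoc, div_le_iff₀ hqp]
    nlinarith
  have hup : ∀ i, endArea (box ∩ {x | s < W x}) i ≤ faceArea w i p := by
    intro i
    set r := max (1 / 2) (1 - (s - p) / ((L : ℝ) + 1)) with hr
    have hsp : 0 < (s - p) / ((L : ℝ) + 1) := div_pos (by linarith [hs.1]) (by positivity)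
    have hr0 : 0 < r := lt_max_of_lt_left (by norm_num)
    have hr1 : r < 1 := max_lt (by norm_num) (by linarith)
    refine (ciInf_le ⟨0, by rintro _ ⟨t, rfl⟩; exact measureReal_nonneg⟩
      (⟨r, hr0, hr1⟩ : Ioo (0 : ℝ) 1)).trans ?_
    refine measureReal_mono (fun y hy => ⟨hy.1, ?_⟩)
      (ne_top_of_le_ne_top (by simp [volume_square]) (measure_mono inter_subset_left))
    have h2 : s < W (facePoint i r y) := hy.2.2
    have hlip := hWL.dist_le_mul (facePoint i r y) (facePoint i 1 y)
    have hdist : dist (facePoint i r y) (facePoint i 1 y) ≤ (s - p) / ((L : ℝ) + 1) := by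
      have hsub : facePoint i 1 y = facePoint i r y + (1 - r) • unit i := by
        rw [facePoint_add, add_sub_cancel]
      rw [hsub, dist_self_add_right, norm_smul, norm_unit, mul_one, Real.norm_eq_abs,
        abs_of_pos (by linarith)]
      linarith [le_max_right (1 / 2 : ℝ) (1 - (s - p) / ((L : ℝ) + 1))]
    have h3 : (L : ℝ) * dist (facePoint i r y) (facePoint i 1 y) ≤ s - p := by
      calc (L : ℝ) * dist (facePoint i r y) (facePoint i 1 y)
          ≤ ((L : ℝ) + 1) * ((s - p) / ((L : ℝ) + 1)) :=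
            mul_le_mul (by linarith) hdist dist_nonneg (by positivity)
        _ = s - p := by field_simp
    rw [Real.dist_eq] at hlip
    show p < W (facePoint i 1 y)
    linarith [le_abs_self (W (facePoint i r y) - W (facePoint i 1 y))]
  have hlo : ∀ i, faceArea w i q ≤ endArea (box ∩ {x | s < W x}) i := by
    intro i
    have : Nonempty (Ioo (0 : ℝ) 1) := ⟨⟨1 / 2, by norm_num⟩⟩
    refine le_ciInf fun t => measureReal_mono (fun y hy => ?_)
      (ne_top_of_le_ne_top (by simp [volume_square]) (measure_mono inter_subset_left))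
    have hb1 : facePoint i 1 y ∈ box := facePoint_mem_box.2 ⟨right_mem_Icc.2 zero_le_one, hy.1⟩
    have hbt : facePoint i t y ∈ box := facePoint_mem_box.2 ⟨Ioo_subset_Icc_self t.2, hy.1⟩
    refine ⟨hy.1, hbt, ?_⟩
    have hle : facePoint i t y ≤ facePoint i 1 y := by
      rw [Pi.le_def]
      refine i.forall_iff_succAbove.2 ⟨?_, fun j => ?_⟩ <;> simp [facePoint, t.2.2.le]
    have h3 : q < W (facePoint i 1 y) := hy.2
    show s < W (facePoint i t y)
    linarith [hs.2, hanti _ hb1 _ hbt hle]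
  exact ⟨_, M, hred, (hvol s (by linarith [hs.1]) (by linarith [hs.2])).trans_le (min_le_right _ _),
    hM, fun i => ⟨hlo i, hup i⟩⟩

/-- Stability of reduced sets gives stability of faces. -/
theorem faceSpec_of_stable (hL : LevelSpec) {V : ℝ} (h0 : 0 ≤ V) (h1 : V ≤ 1)
    (hev : ∀ᶠ W in 𝓝 V, ReducedBoundAt W) (hst : StableSpec V) : FaceSpec V := by
  intro p q hp hpq hq η hη
  obtain ⟨δs, hδs, hstab⟩ := hst η hη
  obtain ⟨δ, hδ, hlev⟩ := level_set hL h0 h1 hev hp hpq hq hδs
  refine ⟨δ, hδ, fun L w hw hsd hA hQ hE => ?_⟩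
  obtain ⟨D, M, hD, hvol, hM, hends⟩ := hlev L w hw hsd hA hQ hE
  obtain ⟨S, hSne, hSper, hSend⟩ := hstab D M hD hvol hM
  refine ⟨S, hSne, hSper, fun i => ?_⟩
  obtain ⟨e1, e2⟩ := abs_lt.1 (hSend i)
  exact ⟨by linarith [(hends i).1], by linarith [(hends i).2]⟩

end Vale.Agent.P232.Rigid
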