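import Vale.Agent.P232.Rigid.Spec

/-!
# P232 rigidity M1b: a good level in a given interval of levels
-/

open MeasureTheory Set Filter
open scoped ENNReal NNReal Real Topology

noncomputable section

namespace Vale.Agent.P232.Rigid

/-- The ramp functional at level `s`. -/
def rampEnergy (w : R3 → ℝ) (n : ℕ) (s : ℝ) : ℝ≥0∞ := ∫⁻ x in box, ENNReal.ofReal
  (((n : ℝ) + 1) * rampDeriv (((n : ℝ) + 1) * (w x - s)) * gradNorm w x)

variable {w : R3 → ℝ} {L : ℝ≥0}

theorem measurable_rampEnergy (hw : LipschitzWith L w) (n : ℕ) : Measurable (rampEnergy w n) :=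
  (((measurable_const.mul (continuous_rampDeriv.measurable.comp (measurable_const.mul
    ((hw.continuous.measurable.comp measurable_snd).sub measurable_fst)))).mul
    ((measurable_gradNorm w).comp measurable_snd)).ennreal_ofReal :
      Measurable fun p : ℝ × R3 => ENNReal.ofReal
        (((n : ℝ) + 1) * rampDeriv (((n : ℝ) + 1) * (w p.2 - p.1)) *
          gradNorm w p.2)).lintegral_prod_right'

theorem lintegral_rampEnergy (hw : LipschitzWith L w) (n : ℕ) :
    ∫⁻ s, rampEnergy w n s = ENNReal.ofReal (∫ x in box, gradNorm w x) := by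
  have hIint : IntegrableOn (gradNorm w) box := integrableOn_box (measurable_gradNorm w) (3 * L)
    fun x _ => by rw [abs_of_nonneg (gradNorm_nonneg w x)]; exact gradNorm_le hw x
  rw [ofReal_integral_eq_lintegral_ofReal hIint (ae_of_all _ (gradNorm_nonneg w))]
  simp only [rampEnergy]
  rw [lintegral_lintegral_swap]
  · refine lintegral_congr fun x => ?_
    simp only [ENNReal.ofReal_mul' (gradNorm_nonneg w x)]
    rw [lintegral_mul_const' _ _ ENNReal.ofReal_ne_top, lintegral_rampDeriv, one_mul]
  · exact ((measurable_const.mul (continuous_rampDeriv.measurable.comp (measurable_const.mul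
      ((hw.continuous.measurable.comp measurable_snd).sub measurable_fst)))).mul
      ((measurable_gradNorm w).comp measurable_snd)).ennreal_ofReal.aemeasurable

/-- A level is reduced with any bound on the liminf of its ramp functionals. -/
theorem reduced_of_liminf (hw : LipschitzWith L w)
    (hanti : ∀ x ∈ box, ∀ y ∈ box, y ≤ x → w x ≤ w y) {s M : ℝ} (hM : 0 ≤ M)
    (hs : liminf (fun n => rampEnergy w n s) atTop ≤ ENNReal.ofReal M) :
    IsReduced (box ∩ {x | s < w x}) M := by
  refine ⟨inter_subset_left,
    measurableSet_box.inter (measurableSet_lt measurable_const hw.continuous.measurable),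
    fun x hx y hy hyx => ⟨hy, lt_of_lt_of_le hx.2 (hanti x hx.1 y hy hyx)⟩, fun X hX hb => ?_⟩
  set c : R3 → ℝ := fun x => if s < w x then 1 else 0 with hc
  have hset : MeasurableSet {x | s < w x} :=
    measurableSet_lt measurable_const hw.continuous.measurable
  have hA : Tendsto (fun n => ∫ x in box, ramp n s (w x) * divergence X x) atTop
      (𝓝 (∫ x in box ∩ {x | s < w x}, divergence X x)) := by
    obtain ⟨B, hB⟩ := isCompact_Icc.exists_bound_of_continuousOn
      ((continuous_divergence hX).continuousOn (s := Icc (0 : R3) 1))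
    have : ∫ x in box ∩ {x | s < w x}, divergence X x = ∫ x in box, c x * divergence X x := by
      rw [← setIntegral_indicator hset]
      refine integral_congr_ae (ae_of_all _ fun x => ?_)
      by_cases h : s < w x <;> simp [hc, h]
    rw [this]
    refine tendsto_integral_of_dominated_convergence (fun _ => B) (fun n => ?_)
      (integrableOn_const (by simp [volume_box])) (fun n => ?_)
      (ae_of_all _ fun x => (tendsto_ramp s (w x)).mul_const _)
    · exact (((contDiff_ramp n s).continuous.comp hw.continuous).mul
        (continuous_divergence hX)).aestronglyMeasurable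
    · refine ae_restrict_of_forall_mem measurableSet_box fun x hx => ?_
      rw [norm_mul, Real.norm_of_nonneg (ramp_mem_Icc n s _).1]
      exact (mul_le_of_le_one_left (norm_nonneg _) (ramp_mem_Icc n s _).2).trans (hB x hx)
  have hF : ∀ (i : Fin 3) (a : ℝ), a ∈ Icc (0 : ℝ) 1 →
      Tendsto (fun n => ∫ y in square, ramp n s (w (facePoint i a y)) * X i (facePoint i a y)) atTop
        (𝓝 (∫ y in square ∩ facePoint i a ⁻¹' (box ∩ {x | s < w x}), X i (facePoint i a y))) := by
    intro i a ha
    have hcont := continuous_facePoint' i a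
    have hmeas : MeasurableSet (facePoint i a ⁻¹' (box ∩ {x | s < w x})) :=
      (measurableSet_box.inter hset).preimage hcont.measurable
    have : ∫ y in square ∩ facePoint i a ⁻¹' (box ∩ {x | s < w x}), X i (facePoint i a y)
        = ∫ y in square, c (facePoint i a y) * X i (facePoint i a y) := by
      rw [← setIntegral_indicator hmeas]
      refine setIntegral_congr_fun measurableSet_square fun y hy => ?_
      have hbx : facePoint i a y ∈ box := facePoint_mem_box.2 ⟨ha, hy⟩
      by_cases h : s < w (facePoint i a y) <;> simp [hc, h, hbx]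
    rw [this]
    refine tendsto_integral_of_dominated_convergence (fun _ => 1) (fun n => ?_)
      (integrableOn_const (by simp [volume_square])) (fun n => ?_)
      (ae_of_all _ fun y => (tendsto_ramp s (w _)).mul_const _)
    · exact (((contDiff_ramp n s).continuous.comp (hw.continuous.comp hcont)).mul
        ((hX i).continuous.comp hcont)).aestronglyMeasurable
    · refine ae_restrict_of_forall_mem measurableSet_square fun y hy => ?_
      rw [norm_mul, Real.norm_of_nonneg (ramp_mem_Icc n s _).1, Real.norm_eq_abs]
      refine (mul_le_of_le_one_left (abs_nonneg _) (ramp_mem_Icc n s _).2).trans ?_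
      refine abs_le_one_iff_mul_self_le_one.2 ?_
      rw [← sq]
      exact (Finset.single_le_sum (fun j _ => sq_nonneg (X j (facePoint i a y)))
        (Finset.mem_univ i)).trans (hb _ (facePoint_mem_box.2 ⟨ha, hy⟩))
  have hfl : Tendsto (fun n => ∑ i,
      ((∫ y in square, ramp n s (w (facePoint i 1 y)) * X i (facePoint i 1 y)) -
        ∫ y in square, ramp n s (w (facePoint i 0 y)) * X i (facePoint i 0 y))) atTop
      (𝓝 (flux (box ∩ {x | s < w x}) X)) :=
    tendsto_finsetSum _ fun i _ =>
      (hF i 1 (right_mem_Icc.2 zero_le_one)).sub (hF i 0 (left_mem_Icc.2 zero_le_one))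
  have hle : ENNReal.ofReal ((∫ x in box ∩ {x | s < w x}, divergence X x) -
      flux (box ∩ {x | s < w x}) X) ≤ ENNReal.ofReal M := by
    refine le_trans ?_ hs
    rw [← ((ENNReal.continuous_ofReal.tendsto _).comp (hA.sub hfl)).liminf_eq]
    exact liminf_le_liminf (Eventually.of_forall fun n => ramp_ineq hw n s hX hb)
  have := (ENNReal.ofReal_le_ofReal_iff hM).1 hle
  linarith

/-- M1b: a good level in a given interval of levels. -/
theorem levelSel : LevelSpec := by
  intro L w hw _ hanti δ J p q hδ hδp hpq hqδ hJ hlow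
  set I := ∫ x in box, gradNorm w x with hI
  set φ : ℝ → ℝ≥0∞ := fun s => liminf (fun n => rampEnergy w n s) atTop with hφ
  have hφm : Measurable φ := Measurable.liminf fun n => measurable_rampEnergy hw n
  have htot : ∫⁻ s, φ s ≤ ENNReal.ofReal I := by
    refine (lintegral_liminf_le fun n => measurable_rampEnergy hw n).trans ?_
    simp only [lintegral_rampEnergy hw, liminf_const, le_refl, ← hI]
  have hbelow : ∀ s ∈ Ioo δ (1 - δ), ENNReal.ofReal J ≤ φ s := by
    intro s hs
    by_cases h : φ s = ⊤
    · simp [h]
    · rw [← ENNReal.ofReal_toReal h]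
      exact ENNReal.ofReal_le_ofReal (hlow s hs _ (reduced_of_liminf hw hanti ENNReal.toReal_nonneg
        (le_of_eq (ENNReal.ofReal_toReal h).symm)))
  -- the levels outside `(p, q)`
  set S : Set ℝ := Ioo δ p ∪ Ioo q (1 - δ) with hS
  have hSvol : volume S = ENNReal.ofReal (1 - 2 * δ - (q - p)) := by
    rw [hS, measure_union (Set.disjoint_left.2 fun t h1 h2 => by linarith [h1.2, h2.1])
      measurableSet_Ioo, Real.volume_Ioo, Real.volume_Ioo,
      ← ENNReal.ofReal_add (by linarith) (by linarith)]
    ring_nf
  have hJS : ENNReal.ofReal (J * (1 - 2 * δ - (q - p))) ≤ ∫⁻ s in S, φ s := by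
    rw [ENNReal.ofReal_mul hJ, ← hSvol, ← setLIntegral_const]
    refine setLIntegral_mono hφm fun s hs => hbelow s ?_
    rcases hs with h | h
    · exact ⟨h.1, by linarith [h.2]⟩
    · exact ⟨by linarith [h.1], h.2⟩
  have hdisj : Disjoint S (Ioo p q) := Set.disjoint_left.2 fun t h1 h2 => by
    rcases h1 with h | h <;> linarith [h.1, h.2, h2.1, h2.2]
  have hsum : ENNReal.ofReal (J * (1 - 2 * δ - (q - p))) + ∫⁻ s in Ioo p q, φ s ≤
      ENNReal.ofReal I := by
    refine (add_le_add_left hJS _).trans ?_
    rw [← lintegral_union measurableSet_Ioo hdisj]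
    exact (setLIntegral_le_lintegral _ _).trans htot
  have hI0 : 0 ≤ I := setIntegral_nonneg measurableSet_box fun x _ => gradNorm_nonneg w x
  have hJI : J * (1 - 2 * δ - (q - p)) ≤ I :=
    (ENNReal.ofReal_le_ofReal_iff hI0).1 (le_self_add.trans hsum)
  set M := (I - J * (1 - 2 * δ - (q - p))) / (q - p) with hM
  obtain ⟨s, hs, hsle⟩ := exists_le_setLAverage (μ := volume) (s := Ioo p q) (f := φ)
    (by rw [Real.volume_Ioo]; exact (ENNReal.ofReal_pos.2 (by linarith)).ne')
    (by rw [Real.volume_Ioo]; exact ENNReal.ofReal_ne_top) hφm.aemeasurable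
  refine ⟨s, hs, reduced_of_liminf hw hanti (div_nonneg (by linarith) (by linarith)) ?_⟩
  refine hsle.trans ?_
  rw [setLAverage_eq, Real.volume_Ioo, ENNReal.ofReal_div_of_pos (by linarith)]
  refine ENNReal.div_le_div_right (ENNReal.le_of_add_le_add_left
    (a := ENNReal.ofReal (J * (1 - 2 * δ - (q - p)))) ENNReal.ofReal_ne_top ?_) _
  rw [← ENNReal.ofReal_add (mul_nonneg hJ (by linarith)) (by linarith), add_sub_cancel]
  exact hsum

end Vale.Agent.P232.Rigid
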