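import Vale.Agent.P232.Rigid.Spec

/-!
# P232 rigidity M1a: symmetrisation in two axes, then in the third

The maximiser of `∫ weight · v` on the closure of a class stable under polarisation in some of the
axes is symmetric decreasing in those axes. Integrals against weights invariant under those
polarisations, and ranges along the axis of a one-axis symmetrisation, survive the closure.
-/

open MeasureTheory Set Filter
open scoped ENNReal NNReal Real Topology

noncomputable section

namespace Vale.Agent.P232.Rigid

variable {L : ℝ≥0}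

/-- Symmetric decreasing in the distance to `0` in the coordinate `i`. -/
def SymmAxis (i : Fin 3) (v : R3 → ℝ) : Prop :=
  ∀ (x : R3) (s t : ℝ), |s| ≤ |t| → |t| ≤ 1 / 2 →
    v (Function.update x i t) ≤ v (Function.update x i s)

theorem symmAxis_of_fixed {v : R3 → ℝ} (hv : v ∈ lipClass L) {i : Fin 3}
    (h : ∀ a : ℝ, a ∈ Ioo (0 : ℝ) (1 / 2) → ∀ x, 0 < side i a x → v (refl i a x) ≤ v x) :
    SymmAxis i v := by
  have strict : ∀ (x : R3) (s t : ℝ), |s| < |t| → |t| ≤ 1 / 2 →
      v (Function.update x i t) ≤ v (Function.update x i s) := by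
    intro x s t hst ht
    rcases le_or_gt 0 t with h0 | h0
    · rw [abs_of_nonneg h0] at hst ht
      have hs := abs_lt.1 hst
      have := h ((s + t) / 2) ⟨by linarith, by linarith⟩ (Function.update x i s) (by
        simp only [side, Function.update_self]
        exact Real.sin_pos_of_pos_of_lt_pi (by nlinarith [Real.pi_pos]) (by nlinarith [Real.pi_pos]))
      refine le_of_eq_of_le ?_ this
      congr 1
      funext j
      by_cases hj : j = i
      · subst hj; simp [refl_apply]; ring
      · simp [refl_apply, hj]
    · rw [abs_of_neg h0] at hst ht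
      have hs := abs_lt.1 hst
      have := h ((s + t) / 2 + 1 / 2) ⟨by linarith, by linarith⟩ (Function.update x i s) (by
        simp only [side, Function.update_self]
        exact Real.sin_pos_of_pos_of_lt_pi (by nlinarith [Real.pi_pos]) (by nlinarith [Real.pi_pos]))
      refine le_of_eq_of_le ?_ this
      rw [← hv.2.1 (Function.update x i t) i]
      congr 1
      funext j
      by_cases hj : j = i
      · subst hj; simp [refl_apply, unit_apply]; ring
      · simp [refl_apply, unit_apply, hj]
  intro x s t hst ht
  rcases hst.lt_or_eq with hlt | heq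
  · exact strict x s t hlt ht
  · rcases eq_or_ne s 0 with hs0 | hs0
    · have ht0 : t = 0 := abs_eq_zero.1 (by rw [← heq, hs0, abs_zero])
      rw [hs0, ht0]
    · have hc : Continuous fun r : ℝ => v (Function.update x i (r * s)) :=
        hv.1.continuous.comp (continuous_const.update i (continuous_id.mul continuous_const))
      have hto := (hc.tendsto' 1 (v (Function.update x i s)) (by simp)).comp
        (show Tendsto (fun n : ℕ => (1 : ℝ) - 1 / ((n : ℝ) + 1)) atTop (𝓝 1) by
          simpa using (tendsto_const_nhds (x := (1 : ℝ))).sub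
            (tendsto_one_div_add_atTop_nhds_zero_nat (𝕜 := ℝ)))
      refine ge_of_tendsto' hto fun n => strict x _ t ?_ ht
      have h1 : 0 < 1 / ((n : ℝ) + 1) := by positivity
      have h2 : 1 / ((n : ℝ) + 1) ≤ 1 := by
        rw [div_le_one (by positivity)]; linarith [Nat.cast_nonneg (α := ℝ) n]
      rw [← heq, abs_mul, abs_of_nonneg (by linarith)]
      exact mul_lt_of_lt_one_left (abs_pos.2 hs0) (by linarith)

theorem le_refl_of_isMax {v : R3 → ℝ} (hv : v ∈ lipClass L) {i : Fin 3} {a : ℝ}
    (ha : a ∈ Ioo (0 : ℝ) (1 / 2))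
    (hle : ∫ x in cell, weight x * polarise i a v x ≤ ∫ x in cell, weight x * v x)
    {x : R3} (hx : 0 < side i a x) : v (refl i a x) ≤ v x := by
  have hsin : 0 < Real.sin (2 * π * a) := Real.sin_pos_of_pos_of_lt_pi
    (by nlinarith [Real.pi_pos, ha.1]) (by nlinarith [Real.pi_pos, ha.2])
  have hPv := polarise_mem hv i a
  set G := fun z => (polarise i a v z - v z) * (2 * Real.sin (2 * π * a) * side i a z) with hG
  have hcont : Continuous G := by
    have := hPv.1.continuous
    have := hv.1.continuous
    have := continuous_side i a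
    fun_prop
  have hzero : ∫ z in cell, G z = 0 :=
    le_antisymm (by rw [hG, ← two_mul_gain hv]; linarith)
      (setIntegral_nonneg measurableSet_cell fun z _ => gain_integrand_nonneg hv i hsin.le z)
  have hae := (integral_eq_zero_iff_of_nonneg (fun z => gain_integrand_nonneg hv i hsin.le z)
    (integrableOn_cell_of_continuous hcont)).1 hzero
  have hper : IsPeriodicFun G := fun z j => by
    simp only [hG]
    rw [hPv.2.1 z j, hv.2.1 z j, side_periodic i a z j]
  obtain ⟨y, hy, hxy⟩ := hper.exists_cell x
  have hclos : cell ⊆ closure (interior cell) := by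
    rw [cell, interior_pi_set finite_univ, closure_pi_set]
    exact pi_mono fun j _ => by
      rw [interior_Ico, closure_Ioo (zero_ne_one' ℝ)]; exact Ico_subset_Icc_self
  have hzero' : G x = 0 := hxy.trans (Measure.eqOn_of_ae_eq (μ := volume) hae hcont.continuousOn
    continuousOn_const hclos hy)
  rcases mul_eq_zero.1 hzero' with h | h
  · rw [polarise, if_pos hx.le] at h
    exact (le_max_right _ _).trans_eq (sub_eq_zero.1 h)
  · exact absurd h (mul_pos (by positivity) hx).ne'

theorem integral_mul_comp_polarise {v h : R3 → ℝ} (hv : v ∈ lipClass L) (hh : Continuous h)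
    (hhp : IsPeriodicFun h) {i : Fin 3} {a : ℝ} (hinv : ∀ x, h (refl i a x) = h x) {φ : ℝ → ℝ}
    (hφ : Continuous φ) :
    ∫ x in cell, h x * φ (polarise i a v x) = ∫ x in cell, h x * φ (v x) := by
  have hc := fun {w : R3 → ℝ} (hw : w ∈ lipClass L) =>
    setIntegral_add_refl (hhp.mul (hw.2.1.comp φ))
      (integrableOn_cell_of_continuous (hh.mul (hφ.comp hw.1.continuous))) i a
      (integrableOn_cell_of_continuous ((hh.comp (continuous_refl i a)).mul
        (hφ.comp (hw.1.continuous.comp (continuous_refl i a)))))
  have h1 := hc (polarise_mem hv i a)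
  have h2 := hc hv
  simp only [hinv] at h1 h2
  have h3 : ∫ x in cell, (h x * φ (polarise i a v x) + h x * φ (polarise i a v (refl i a x)))
      = ∫ x in cell, (h x * φ (v x) + h x * φ (v (refl i a x))) := by
    refine integral_congr_ae (ae_of_all _ fun x => ?_)
    rcases polarise_pair hv.2.1 i a x with h' | h' <;> (simp only [h'.1, h'.2]; try ring)
  linarith

/-- The maximiser in a class stable under polarisation in the axes `K`. -/
theorem exists_symm_axes {u : R3 → ℝ} (hu : u ∈ lipClass L) (K : Finset (Fin 3))
    (P : (R3 → ℝ) → Prop) (hP0 : P u)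
    (hP : ∀ w ∈ lipClass L, P w → ∀ i ∈ K, ∀ a ∈ Ioo (0 : ℝ) (1 / 2), P (polarise i a w)) :
    ∃ v ∈ lipClass L, v ∈ closure {w ∈ lipClass L | P w} ∧ (∀ i ∈ K, SymmAxis i v) ∧
      ∫ x in cell, gradNorm v x ≤ ∫ x in cell, gradNorm u x := by
  set M := ∫ x in cell, gradNorm u x
  set S := {w ∈ lipClass L | P w ∧ ∫ x in cell, gradNorm w x ≤ M}
  have hsub : closure S ⊆ lipClass L := closure_minimal (fun w hw => hw.1) (isClosed_lipClass L)
  have hne : (closure S).Nonempty := ⟨u, subset_closure ⟨hu, hP0, le_rfl⟩⟩
  obtain ⟨v, hv, hmax⟩ := ((isCompact_lipClass L).of_isClosed_subset isClosed_closure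
    hsub).exists_isMaxOn hne
      ((continuousOn_integral_comp (L := L) continuous_weight (φ := fun t => t) continuous_id).mono
        hsub)
  refine ⟨v, hsub hv,
    closure_mono (show S ⊆ {w ∈ lipClass L | P w} from fun w hw => ⟨hw.1, hw.2.1⟩) hv,
    fun i hi => symmAxis_of_fixed (hsub hv) fun a ha x hx => ?_, ?_⟩
  · refine le_refl_of_isMax (hsub hv) ha (hmax ?_) hx
    refine map_mem_closure (f := polarise i a) (continuous_polarise i a) hv fun w hw => ?_
    exact ⟨polarise_mem hw.1 i a, hP w hw.1 hw.2.1 i hi a ha,
      (integral_gradNorm_polarise hw.1 i a).trans_le hw.2.2⟩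
  · refine gradient_le_of_lipschitz (hsub hv).1 (hsub hv).2.1 (B := 1) (fun x => ?_) fun X hX => ?_
    · rw [abs_of_nonneg ((hsub hv).2.2 x).1]; exact ((hsub hv).2.2 x).2
    · have := (closure_minimal
        (t := lipClass L ∩ (fun w => ∫ x in cell, divergence X x * w x) ⁻¹' Iic M)
        (fun w hw => ⟨hw.1, le_trans (le_of_eq (by simp only [mul_comm]))
          ((integral_mul_divergence_le hw.1.1 hw.1.2.1 hX).trans hw.2.2)⟩)
        ((continuousOn_integral_comp (continuous_divergence hX.smooth) (φ := fun t => t)
          continuous_id).preimage_isClosed_of_isClosed (isClosed_lipClass L) isClosed_Iic) hv).2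
      simpa [mul_comm] using this

/-! ## Plane integrals -/

/-- A point of the torus may be evaluated in the closed cube. -/
theorem exists_close {v : R3 → ℝ} {S : Set (R3 → ℝ)} (hS : S ⊆ lipClass L) (hv : v ∈ closure S)
    {ε : ℝ} (hε : 0 < ε) : ∃ w ∈ S, ∀ x, |w x - v x| ≤ ε := by
  have hvL : v ∈ lipClass L := closure_minimal hS (isClosed_lipClass L) hv
  have : NeBot (𝓝[S] v) := mem_closure_iff_nhdsWithin_neBot.1 hv
  obtain ⟨w, hw, hwS⟩ := (((eventually_close hvL hε).filter_mono (nhdsWithin_mono v hS)).and
    self_mem_nhdsWithin).exists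
  refine ⟨w, hwS, fun x => ?_⟩
  have hper : IsPeriodicFun fun z => |w z - v z| := fun z j => by
    show |w (z + unit j) - v (z + unit j)| = _
    rw [(hS hwS).2.1 z j, hvL.2.1 z j]
  obtain ⟨y, hy, hxy⟩ := hper.exists_cell x
  rw [hxy]
  exact hw y (cell_subset_box hy)

theorem continuous_planeInt {F : R3 → ℝ} (hF : Continuous F) (d : Fin 3) :
    Continuous (planeInt F d) :=
  continuous_parametric_integral_of_continuous
    (f := fun t y => F (facePoint d t y)) (hF.comp (continuous_facePoint d)) isCompact_Icc

theorem facePoint_add_one (d : Fin 3) (t : ℝ) (y : R2) :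
    facePoint d (t + 1) y = facePoint d t y + unit d := by
  funext l
  rcases Fin.eq_self_or_eq_succAbove d l with rfl | ⟨k, rfl⟩
  · simp [facePoint, unit]
  · simp [facePoint, unit, Fin.succAbove_ne]

theorem planeInt_periodic {F : R3 → ℝ} (hF : IsPeriodicFun F) (d : Fin 3) :
    Function.Periodic (planeInt F d) 1 := fun t => by
  simp only [planeInt, facePoint_add_one, hF _ d]

theorem integral_cell_eq_planeInt_comp {F : R3 → ℝ} (hF : Continuous F) {g : ℝ → ℝ} (hg : Continuous g)
    (d : Fin 3) :
    ∫ x in cell, g (x d) * F x = ∫ t in Icc (0 : ℝ) 1, g t * planeInt F d t := by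
  have hcell : (cell : Set R3) =ᵐ[volume] box := Measure.univ_pi_Ico_ae_eq_Icc
  have hc : Continuous fun x : R3 => g (x d) * F x := (hg.comp (continuous_apply d)).mul hF
  rw [setIntegral_congr_set hcell,
    integral_box_eq (hc.continuousOn.integrableOn_compact isCompact_Icc) d]
  simp only [facePoint, Fin.insertNth_apply_same]
  have hp : Continuous fun p : R2 × ℝ => g p.2 * F (facePoint d p.2 p.1) :=
    (hg.comp continuous_snd).mul (hF.comp ((continuous_facePoint d).comp continuous_swap))
  rw [integral_integral_swap (f := fun (y : R2) (t : ℝ) => g t * F (Fin.insertNth d t y))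
    (by
      rw [Measure.prod_restrict]
      exact hp.continuousOn.integrableOn_compact (isCompact_Icc.prod isCompact_Icc))]
  simp only [integral_const_mul]
  rfl

theorem planeInt_eq_of_integral {F G : R3 → ℝ} (hF : Continuous F) (hG : Continuous G)
    (hFp : IsPeriodicFun F) (hGp : IsPeriodicFun G) {d : Fin 3}
    (h : ∀ g : ℝ → ℝ, Continuous g → Function.Periodic g 1 →
      ∫ x in cell, g (x d) * F x = ∫ x in cell, g (x d) * G x) (t : ℝ) :
    planeInt F d t = planeInt G d t := by
  set D := fun s => planeInt F d s - planeInt G d s with hD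
  have hDc : Continuous D := (continuous_planeInt hF d).sub (continuous_planeInt hG d)
  have hDp : Function.Periodic D 1 := fun s => by
    simp only [hD, planeInt_periodic hFp d s, planeInt_periodic hGp d s]
  have h' := h D hDc hDp
  rw [integral_cell_eq_planeInt_comp hF hDc, integral_cell_eq_planeInt_comp hG hDc, ← sub_eq_zero,
    ← integral_sub (f := fun s => D s * planeInt F d s) (g := fun s => D s * planeInt G d s)
      ((hDc.mul (continuous_planeInt hF d)).continuousOn.integrableOn_compact isCompact_Icc)
      ((hDc.mul (continuous_planeInt hG d)).continuousOn.integrableOn_compact isCompact_Icc)] at h'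
  simp only [← mul_sub] at h'
  have hzero : ∀ᵐ s ∂volume.restrict (Icc (0 : ℝ) 1), D s * D s = 0 :=
    (integral_eq_zero_iff_of_nonneg (fun s => mul_self_nonneg (D s))
      ((hDc.mul hDc).continuousOn.integrableOn_compact isCompact_Icc)).1 h'
  have hall := Measure.eqOn_Icc_of_ae_eq (μ := volume) zero_ne_one
    (f := fun s => D s * D s) (g := fun _ => 0) hzero (hDc.mul hDc).continuousOn continuousOn_const
  obtain ⟨s, hs, hts⟩ := hDp.exists_mem_Ico₀ one_pos t
  have hz := hall (Ico_subset_Icc_self hs)
  exact sub_eq_zero.1 (hts.trans (mul_self_eq_zero.1 hz))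

/-- Integrals against weights invariant in the axes `K` are those of `u`. -/
def SameIntegrals (K : Finset (Fin 3)) (u w : R3 → ℝ) : Prop :=
  ∀ (h : R3 → ℝ) (φ : ℝ → ℝ), Continuous h → IsPeriodicFun h → (∀ i ∈ K, ∀ a x, h (refl i a x) = h x) →
    Continuous φ →
    ∫ x in cell, h x * φ (w x) = ∫ x in cell, h x * φ (u x)

theorem SameIntegrals.polarise {K : Finset (Fin 3)} {u w : R3 → ℝ} (hw : w ∈ lipClass L)
    (h : SameIntegrals K u w) {i : Fin 3} (hi : i ∈ K) (a : ℝ) :
    SameIntegrals K u (polarise i a w) := fun g φ hg hgp hinv hφ =>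
  (integral_mul_comp_polarise hw hg hgp (hinv i hi a) hφ).trans (h g φ hg hgp hinv hφ)

theorem SameIntegrals.of_mem_closure {K : Finset (Fin 3)} {u v : R3 → ℝ} {S : Set (R3 → ℝ)}
    (hS : S ⊆ lipClass L) (hv : v ∈ closure S) (h : ∀ w ∈ S, SameIntegrals K u w) :
    SameIntegrals K u v := fun g φ hg hgp hinv hφ =>
  (closure_minimal
    (t := lipClass L ∩ (fun w => ∫ x in cell, g x * φ (w x)) ⁻¹' {∫ x in cell, g x * φ (u x)})
    (fun w hw => ⟨hS hw, h w hw g φ hg hgp hinv hφ⟩)
    ((continuousOn_integral_comp hg hφ).preimage_isClosed_of_isClosed (isClosed_lipClass L)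
      isClosed_singleton) hv).2

theorem SameIntegrals.planeInt_eq {K : Finset (Fin 3)} {u v : R3 → ℝ} (hu : u ∈ lipClass L)
    (hv : v ∈ lipClass L) (h : SameIntegrals K u v) {d : Fin 3} (hd : d ∉ K) {φ : ℝ → ℝ}
    (hφ : Continuous φ) (t : ℝ) :
    planeInt (fun x => φ (v x)) d t = planeInt (fun x => φ (u x)) d t := by
  refine planeInt_eq_of_integral (hφ.comp hv.1.continuous) (hφ.comp hu.1.continuous)
    (hv.2.1.comp φ) (hu.2.1.comp φ) (fun g hg hgp => h _ φ (hg.comp (continuous_apply d)) ?_ ?_ hφ) t
  · intro x j
    show g ((x + unit j) d) = g (x d)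
    by_cases hj : d = j
    · simp [unit_apply, hj, hgp _]
    · simp [unit_apply, hj]
  · intro i hi a x
    have : d ≠ i := fun e => hd (e ▸ hi)
    simp [refl_apply, this]

/-! ## Lines -/

theorem polarise_symmAxis {w : R3 → ℝ} {i d : Fin 3} (hid : i ≠ d) (h : SymmAxis i w) (a : ℝ) :
    SymmAxis i (polarise d a w) := fun x s t hst ht => by
  have hside : side d a (Function.update x i t) = side d a (Function.update x i s) := by
    simp [side, Function.update_of_ne hid.symm]
  have href : ∀ r, refl d a (Function.update x i r) = Function.update (refl d a x) i r := fun r => by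
    funext l
    by_cases hl : l = i
    · subst hl; simp [refl_apply, hid]
    · by_cases hld : l = d
      · subst hld; simp [refl_apply, hl]
      · simp [refl_apply, hl, hld]
  simp only [polarise, hside, href]
  split_ifs
  · exact max_le_max (h x s t hst ht) (h _ s t hst ht)
  · exact min_le_min (h x s t hst ht) (h _ s t hst ht)

theorem refl_update (d : Fin 3) (a : ℝ) (x : R3) (t : ℝ) :
    refl d a (Function.update x d t) = Function.update x d (2 * a - t) := by
  funext l
  by_cases hl : l = d
  · subst hl; simp [refl_apply]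
  · simp [refl_apply, hl]

theorem range_line_polarise {w : R3 → ℝ} (hp : IsPeriodicFun w) (d : Fin 3) (a : ℝ) (x : R3) :
    (range fun t => polarise d a w (Function.update x d t)) =
      range fun t => w (Function.update x d t) := by
  refine subset_antisymm ?_ ?_ <;> rintro _ ⟨t, rfl⟩
  · rcases polarise_pair hp d a (Function.update x d t) with h | h <;> simp only [h.1]
    · exact ⟨t, rfl⟩
    · exact ⟨2 * a - t, by simp [refl_update]⟩
  · rcases polarise_pair hp d a (Function.update x d t) with h | h
    · exact ⟨t, h.1⟩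
    · exact ⟨2 * a - t, by rw [refl_update] at h; exact h.2⟩

theorem isClosed_range_line {v : R3 → ℝ} (hv : v ∈ lipClass L) (d : Fin 3) (x : R3) :
    IsClosed (range fun t => v (Function.update x d t)) := by
  have hp : Function.Periodic (fun t => v (Function.update x d t)) 1 := fun t => by
    show v (Function.update x d (t + 1)) = _
    rw [show Function.update x d (t + 1) = Function.update x d t + unit d by
      funext l; by_cases hl : l = d
      · subst hl; simp [unit]
      · simp [unit, hl]]
    exact hv.2.1 _ d
  exact (hp.compact_of_continuous one_ne_zero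
    (hv.1.continuous.comp (continuous_const.update d continuous_id))).isClosed

theorem range_line_of_mem_closure {u v : R3 → ℝ} {S : Set (R3 → ℝ)} (hS : S ⊆ lipClass L)
    (hu : u ∈ lipClass L) (hv : v ∈ closure S) {d : Fin 3} (x : R3)
    (h : ∀ w ∈ S, (range fun t => w (Function.update x d t)) =
      range fun t => u (Function.update x d t)) :
    (range fun t => v (Function.update x d t)) = range fun t => u (Function.update x d t) := by
  refine subset_antisymm ?_ ?_ <;> rintro _ ⟨t, rfl⟩
  · refine (isClosed_range_line hu d x).closure_subset (Metric.mem_closure_iff.2 fun ε hε => ?_)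
    obtain ⟨w, hw, hwv⟩ := exists_close hS hv (half_pos hε)
    refine ⟨w (Function.update x d t), h w hw ▸ mem_range_self t, ?_⟩
    rw [Real.dist_eq, abs_sub_comm]
    exact (hwv _).trans_lt (half_lt_self hε)
  · refine (isClosed_range_line (closure_minimal hS (isClosed_lipClass L) hv) d x).closure_subset
      (Metric.mem_closure_iff.2 fun ε hε => ?_)
    obtain ⟨w, hw, hwv⟩ := exists_close hS hv (half_pos hε)
    obtain ⟨s, hs⟩ := (h w hw).symm ▸ mem_range_self (f := fun t => u (Function.update x d t)) t
    refine ⟨v (Function.update x d s), mem_range_self s, ?_⟩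
    simp only at hs ⊢
    rw [← hs, Real.dist_eq]
    exact (hwv _).trans_lt (half_lt_self hε)

/-! ## Invariant axes and spread of the marginals -/

/-- `w` does not depend on the coordinate `e`. -/
def LineInvariant (e : Fin 3) (w : R3 → ℝ) : Prop :=
  ∀ (x : R3) (t : ℝ), w (Function.update x e t) = w x

theorem lineInvariant_polarise {e : Fin 3} {w : R3 → ℝ} (h : LineInvariant e w) (i : Fin 3)
    (a : ℝ) : LineInvariant e (polarise i a w) := fun x t => by
  rcases eq_or_ne i e with rfl | hie
  · have hfix : ∀ y, polarise i a w y = w y := fun y => by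
      have : w (refl i a y) = w y := by
        rw [show refl i a y = Function.update y i (2 * a - y i) from by
          rw [← refl_update, Function.update_eq_self]]
        exact h y _
      simp [Vale.Agent.P232.polarise, this]
    rw [hfix, hfix]
    exact h x t
  · have hside : side i a (Function.update x e t) = side i a x := by
      simp [side, Function.update_of_ne hie]
    have href : refl i a (Function.update x e t) = Function.update (refl i a x) e t := by
      funext l
      by_cases hl : l = e
      · subst hl; simp [refl_apply, hie.symm]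
      · by_cases hli : l = i
        · subst hli; simp [refl_apply, hl]
        · simp [refl_apply, hl, hli]
    simp only [Vale.Agent.P232.polarise, hside, href, h x t, h (refl i a x) t]

theorem planeInt_polarise_of_ne {v : R3 → ℝ} (hv : v ∈ lipClass L) {φ : ℝ → ℝ} (hφ : Continuous φ)
    {i e : Fin 3} (hie : e ≠ i) (a t : ℝ) :
    planeInt (fun x => φ (polarise i a v x)) e t = planeInt (fun x => φ (v x)) e t := by
  refine planeInt_eq_of_integral (hφ.comp (polarise_mem hv i a).1.continuous)
    (hφ.comp hv.1.continuous) ((polarise_mem hv i a).2.1.comp φ) (hv.2.1.comp φ) (fun g hg hgp =>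
      integral_mul_comp_polarise hv (hg.comp (continuous_apply e)) ?_ (fun x => ?_) hφ) t
  · intro x j
    show g ((x + unit j) e) = g (x e)
    by_cases hj : e = j
    · simp [unit_apply, hj, hgp _]
    · simp [unit_apply, hj]
  · simp [refl_apply, hie]

theorem refl_facePoint (e : Fin 3) (a t : ℝ) (y : R2) :
    refl e a (facePoint e t y) = facePoint e (2 * a - t) y := by
  funext l
  rcases Fin.eq_self_or_eq_succAbove e l with rfl | ⟨k, rfl⟩
  · simp [facePoint, refl_apply]
  · simp [facePoint, refl_apply, Fin.succAbove_ne]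

/-- Polarisation spreads a pair of slice integrals of an increasing function. -/
theorem planeInt_sq_polarise {v : R3 → ℝ} (hv : v ∈ lipClass L) {φ : ℝ → ℝ} (hφ : Continuous φ)
    (hm : Monotone φ) (e : Fin 3) (a t : ℝ) :
    planeInt (fun x => φ (v x)) e t ^ 2 + planeInt (fun x => φ (v x)) e (2 * a - t) ^ 2 ≤
      planeInt (fun x => φ (polarise e a v x)) e t ^ 2 +
        planeInt (fun x => φ (polarise e a v x)) e (2 * a - t) ^ 2 := by
  have hi : ∀ {w : R3 → ℝ}, w ∈ lipClass L → ∀ r,
      IntegrableOn (fun y => φ (w (facePoint e r y))) square := fun hw r =>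
    (hφ.comp (hw.1.continuous.comp (continuous_facePoint' e r))).continuousOn.integrableOn_compact
      isCompact_Icc
  have hP := polarise_mem hv e a
  have hsum : planeInt (fun x => φ (polarise e a v x)) e t +
        planeInt (fun x => φ (polarise e a v x)) e (2 * a - t) =
      planeInt (fun x => φ (v x)) e t + planeInt (fun x => φ (v x)) e (2 * a - t) := by
    simp only [planeInt]
    rw [← integral_add (hi hP t) (hi hP _), ← integral_add (hi hv t) (hi hv _)]
    refine integral_congr_ae (ae_of_all _ fun y => ?_)
    have h := polarise_pair hv.2.1 e a (facePoint e t y)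
    rw [refl_facePoint] at h
    rcases h with h | h <;> (simp only [h.1, h.2]; try ring)
  have hside : ∀ r (y : R2), side e a (facePoint e r y) = Real.sin (2 * π * (a - r)) := fun r y => by
    simp [side, facePoint]
  have hbig : ∀ r, 0 ≤ Real.sin (2 * π * (a - r)) →
      planeInt (fun x => φ (v x)) e r ≤ planeInt (fun x => φ (polarise e a v x)) e r ∧
      planeInt (fun x => φ (v x)) e (2 * a - r) ≤ planeInt (fun x => φ (polarise e a v x)) e r := by
    intro r hr
    simp only [planeInt]
    constructor <;> refine setIntegral_mono (hi hv _) (hi hP _) fun y => hm ?_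
    · simp [Vale.Agent.P232.polarise, hside, hr]
    · simp [Vale.Agent.P232.polarise, hside, hr, refl_facePoint]
  rcases le_total 0 (Real.sin (2 * π * (a - t))) with hs | hs
  · obtain ⟨h1, h2⟩ := hbig t hs
    rw [eq_sub_of_add_eq' hsum]
    nlinarith [mul_nonneg (sub_nonneg.2 h1) (sub_nonneg.2 h2)]
  · obtain ⟨h1, h2⟩ := hbig (2 * a - t) (by
      rw [show 2 * π * (a - (2 * a - t)) = -(2 * π * (a - t)) by ring, Real.sin_neg]
      linarith)
    rw [show 2 * a - (2 * a - t) = t by ring] at h2
    rw [eq_sub_of_add_eq hsum]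
    nlinarith [mul_nonneg (sub_nonneg.2 h1) (sub_nonneg.2 h2)]

theorem marginalSq_polarise {v : R3 → ℝ} (hv : v ∈ lipClass L) {φ : ℝ → ℝ} (hφ : Continuous φ)
    (hm : Monotone φ) (i e : Fin 3) (a : ℝ) :
    ∫ t in (0 : ℝ)..1, planeInt (fun x => φ (v x)) e t ^ 2 ≤
      ∫ t in (0 : ℝ)..1, planeInt (fun x => φ (polarise i a v x)) e t ^ 2 := by
  rcases eq_or_ne e i with rfl | hie
  swap
  · simp only [planeInt_polarise_of_ne hv hφ hie]
    rfl
  set A := fun t => planeInt (fun x => φ (v x)) e t ^ 2 with hA
  set B := fun t => planeInt (fun x => φ (polarise e a v x)) e t ^ 2 with hB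
  have hAc : Continuous A := (continuous_planeInt (hφ.comp hv.1.continuous) e).pow 2
  have hBc : Continuous B := (continuous_planeInt (hφ.comp (polarise_mem hv e a).1.continuous) e).pow 2
  have hsymm : ∀ F : ℝ → ℝ, Continuous F → Function.Periodic F 1 →
      ∫ t in (0 : ℝ)..1, (F t + F (2 * a - t)) = 2 * ∫ t in (0 : ℝ)..1, F t := by
    intro F hF hFp
    have hF' : Continuous fun t => F (2 * a - t) := by fun_prop
    rw [intervalIntegral.integral_add (hF.intervalIntegrable _ _) (hF'.intervalIntegrable _ _),
      intervalIntegral.integral_comp_sub_left F (2 * a)]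
    have h := hFp.intervalIntegral_add_eq (2 * a - 1) 0
    rw [zero_add, sub_add_cancel] at h
    rw [sub_zero, h]
    ring
  have hAp : Function.Periodic A 1 := fun t => by
    simp only [hA, planeInt_periodic (F := fun x => φ (v x)) (hv.2.1.comp φ) e t]
  have hBp : Function.Periodic B 1 := fun t => by
    simp only [hB, planeInt_periodic (F := fun x => φ (polarise e a v x))
      ((polarise_mem hv e a).2.1.comp φ) e t]
  have hA2 : Continuous fun t => A t + A (2 * a - t) := by fun_prop
  have hB2 : Continuous fun t => B t + B (2 * a - t) := by fun_prop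
  have := intervalIntegral.integral_mono_on zero_le_one
    (hA2.intervalIntegrable (μ := volume) 0 1) (hB2.intervalIntegrable (μ := volume) 0 1)
    fun t _ => planeInt_sq_polarise hv hφ hm e a t
  rw [hsymm A hAc hAp, hsymm B hBc hBp] at this
  linarith

/-- Axes of invariance are kept and the marginals are spread. -/
def Spread (u w : R3 → ℝ) : Prop :=
  (∀ e, LineInvariant e u → LineInvariant e w) ∧
    ∀ (e : Fin 3) (φ : ℝ → ℝ), Continuous φ → Monotone φ →
      ∫ t in (0 : ℝ)..1, planeInt (fun x => φ (u x)) e t ^ 2 ≤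
        ∫ t in (0 : ℝ)..1, planeInt (fun x => φ (w x)) e t ^ 2

theorem spread_polarise {u w : R3 → ℝ} (hw : w ∈ lipClass L) (h : Spread u w) (i : Fin 3) (a : ℝ) :
    Spread u (polarise i a w) :=
  ⟨fun e he => lineInvariant_polarise (h.1 e he) i a,
    fun e φ hφ hm => (h.2 e φ hφ hm).trans (marginalSq_polarise hw hφ hm i e a)⟩

theorem Spread.of_mem_closure {u v : R3 → ℝ} {S : Set (R3 → ℝ)} (hS : S ⊆ lipClass L)
    (hv : v ∈ closure S) (h : ∀ w ∈ S, Spread u w) : Spread u v := by
  refine ⟨fun e he x t => ?_, fun e φ hφ hm => le_of_forall_pos_le_add fun ε hε => ?_⟩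
  · exact closure_minimal (fun w hw => (h w hw).1 e he x t)
      (isClosed_eq (continuous_apply _) (continuous_apply _)) hv
  have hvL : v ∈ lipClass L := closure_minimal hS (isClosed_lipClass L) hv
  obtain ⟨B, hB⟩ := (isCompact_Icc (a := (0 : ℝ)) (b := 1)).exists_bound_of_continuousOn
    hφ.continuousOn
  have hB0 : 0 ≤ B := (norm_nonneg _).trans (hB 0 (left_mem_Icc.2 zero_le_one))
  obtain ⟨η, hη, hη'⟩ := Metric.uniformContinuousOn_iff.1
    ((isCompact_Icc (a := (0 : ℝ)) (b := 1)).uniformContinuousOn_of_continuous hφ.continuousOn)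
    (ε / (2 * B + 1)) (by positivity)
  obtain ⟨w, hw, hwv⟩ := exists_close hS hv (half_pos hη)
  refine ((h w hw).2 e φ hφ hm).trans ?_
  have hsq : volume.real square = 1 := by simp [square, measureReal_def, Real.volume_Icc_pi]
  have hfin : volume square < ⊤ := isCompact_Icc.measure_lt_top
  have hb : ∀ {f : R3 → ℝ}, f ∈ lipClass L → ∀ t, |planeInt (fun x => φ (f x)) e t| ≤ B := by
    intro f hf t
    have := norm_setIntegral_le_of_norm_le_const (μ := volume) (C := B) hfin
      (f := fun y => φ (f (facePoint e t y))) fun y _ => hB _ (hf.2.2 _)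
    rwa [hsq, mul_one, Real.norm_eq_abs] at this
  have hd : ∀ t, |planeInt (fun x => φ (w x)) e t - planeInt (fun x => φ (v x)) e t| ≤
      ε / (2 * B + 1) := by
    intro t
    have hi : ∀ {f : R3 → ℝ}, f ∈ lipClass L →
        IntegrableOn (fun y => φ (f (facePoint e t y))) square := fun hf =>
      (hφ.comp (hf.1.continuous.comp (continuous_facePoint' e t))).continuousOn.integrableOn_compact
        isCompact_Icc
    simp only [planeInt]
    rw [← integral_sub (hi (hS hw)) (hi hvL), ← Real.norm_eq_abs]
    refine (norm_setIntegral_le_of_norm_le_const hfin fun y _ => ?_).trans_eq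
      (by rw [hsq, mul_one])
    rw [← dist_eq_norm]
    exact (hη' _ ((hS hw).2.2 _) _ (hvL.2.2 _)
      (by rw [Real.dist_eq]; linarith [hwv (facePoint e t y)])).le
  have hci : ∀ {f : R3 → ℝ}, f ∈ lipClass L →
      IntervalIntegrable (fun t => planeInt (fun x => φ (f x)) e t ^ 2) volume 0 1 := fun hf =>
    ((continuous_planeInt (hφ.comp hf.1.continuous) e).pow 2).intervalIntegrable _ _
  calc ∫ t in (0 : ℝ)..1, planeInt (fun x => φ (w x)) e t ^ 2
      ≤ ∫ t in (0 : ℝ)..1, (planeInt (fun x => φ (v x)) e t ^ 2 + ε) := by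
        refine intervalIntegral.integral_mono_on zero_le_one (hci (hS hw))
          ((hci hvL).add intervalIntegrable_const) fun t _ => ?_
        have h1 := hb (hS hw) t
        have h2 := hb hvL t
        have h3 := abs_le.1 (hd t)
        have h4 : ε / (2 * B + 1) * (2 * B) ≤ ε := by
          rw [div_mul_eq_mul_div, div_le_iff₀ (by positivity)]; nlinarith
        set p := planeInt (fun x => φ (w x)) e t
        set q := planeInt (fun x => φ (v x)) e t
        have h5 : |p + q| ≤ 2 * B := (abs_add_le _ _).trans (by linarith)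
        have h6 : |p - q| * |p + q| ≤ ε / (2 * B + 1) * (2 * B) :=
          mul_le_mul (hd t) h5 (abs_nonneg _) (by positivity)
        rw [← abs_mul] at h6
        nlinarith [le_abs_self ((p - q) * (p + q))]
    _ = (∫ t in (0 : ℝ)..1, planeInt (fun x => φ (v x)) e t ^ 2) + ε := by
        rw [intervalIntegral.integral_add (hci hvL) intervalIntegrable_const,
          intervalIntegral.integral_const]
        simp

/-- M1a with the invariant axes and the spread of the marginals. -/
theorem exists_partial_symm {u : R3 → ℝ} (hu : u ∈ lipClass L) (d : Fin 3) :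
    ∃ v ∈ lipClass L, ∃ w ∈ lipClass L, SymmExcept d v ∧ IsSymmDecreasing w ∧
      (∀ φ : ℝ → ℝ, Continuous φ → ∀ t,
        planeInt (fun x => φ (v x)) d t = planeInt (fun x => φ (u x)) d t) ∧
      (∫ x in cell, gradNorm v x) ≤ (∫ x in cell, gradNorm u x) ∧
      (∫ x in cell, gradNorm w x) ≤ (∫ x in cell, gradNorm v x) ∧
      (∀ i, i ≠ d → ∀ φ : ℝ → ℝ, Continuous φ → ∀ t,
        planeInt (fun x => φ (w x)) i t = planeInt (fun x => φ (v x)) i t) ∧
      Spread u w ∧
      ∀ x, (range fun t => w (Function.update x d t)) = range fun t => v (Function.update x d t) := by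
  set K := Finset.univ.erase d with hK
  obtain ⟨v, hv, hvS, hvsym, hvgrad⟩ := exists_symm_axes hu K
    (fun w => SameIntegrals K u w ∧ Spread u w)
    ⟨fun _ _ _ _ _ _ => rfl, fun _ h => h, fun _ _ _ _ => le_rfl⟩
    (fun w hw h i hi a _ => ⟨h.1.polarise hw hi a, spread_polarise hw h.2 i a⟩)
  have hvint : SameIntegrals K u v :=
    SameIntegrals.of_mem_closure (fun w hw => hw.1) hvS fun w hw => hw.2.1
  have hvspread : Spread u v :=
    Spread.of_mem_closure (fun w hw => hw.1) hvS fun w hw => hw.2.2
  have hsym : SymmExcept d v := fun i hi => hvsym i (Finset.mem_erase.2 ⟨hi, Finset.mem_univ i⟩)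
  set P : (R3 → ℝ) → Prop := fun w => SameIntegrals {d} v w ∧ SymmExcept d w ∧ Spread u w ∧
    ∀ x, (range fun t => w (Function.update x d t)) = range fun t => v (Function.update x d t)
    with hPdef
  obtain ⟨w, hw, hwS, hwsym, hwgrad⟩ := exists_symm_axes hv {d} P
    ⟨fun _ _ _ _ _ _ => rfl, hsym, hvspread, fun _ => rfl⟩ (by
      intro w hw ⟨h1, h2, h3, h4⟩ i hi a _
      obtain rfl := Finset.mem_singleton.1 hi
      exact ⟨h1.polarise hw (Finset.mem_singleton_self i) a,
        fun j hj => polarise_symmAxis hj (h2 j hj) a, spread_polarise hw h3 i a,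
        fun x => (range_line_polarise hw.2.1 i a x).trans (h4 x)⟩)
  have hsub : {w ∈ lipClass L | P w} ⊆ lipClass L := fun w hw => hw.1
  have hwint : SameIntegrals {d} v w :=
    SameIntegrals.of_mem_closure hsub hwS fun w hw => hw.2.1
  refine ⟨v, hv, w, hw, hsym, fun i x s t hst ht => ?_, fun φ hφ t => ?_, hvgrad, hwgrad,
    fun i hi φ hφ t => ?_, Spread.of_mem_closure hsub hwS fun f hf => hf.2.2.2.1, fun x => ?_⟩
  · rcases eq_or_ne i d with rfl | hi
    · exact hwsym i (Finset.mem_singleton_self i) x s t hst ht
    · refine closure_minimal (t := {f : R3 → ℝ |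
        f (Function.update x i t) ≤ f (Function.update x i s)})
        (fun f hf => hf.2.2.1 i hi x s t hst ht) ?_ hwS
      exact isClosed_le (continuous_apply _) (continuous_apply _)
  · exact hvint.planeInt_eq hu hv (Finset.notMem_erase d _) hφ t
  · exact hwint.planeInt_eq hv hw (by simpa using hi) hφ t
  · exact range_line_of_mem_closure hsub hv hwS x fun f hf => hf.2.2.2.2 x

/-- **M1a.** -/
theorem partialSymm : PartialSpec := by
  intro L u hu d
  obtain ⟨v, hv, w, hw, h1, h2, h3, h4, h5, h6, h7, h8⟩ := exists_partial_symm hu d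
  exact ⟨v, hv, w, hw, h1, h2, h3, h4, h5, h6, h7.1, h7.2, h8⟩

end Vale.Agent.P232.Rigid
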