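import Vale.Agent.P232.UpperBound

/-!
# P232 rigidity: sets with the marginals of a ball, tube or slab

A coordinate subtorus neighbourhood is a sublevel set of a sum of one-variable functions, so it is
determined up to a null set by its volume and its marginals along those coordinates.
-/

open MeasureTheory Set
open scoped Real

noncomputable section

namespace Vale.Agent.P232

/-- The neighbourhood of radius `R` of a translated coordinate subtorus. -/
def regionSet (S : Finset (Fin 3)) (c : R3) (R : ℝ) : Set R3 := {x | subtorusDist S (x - c) < R}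

theorem isTorusSet_regionSet (S : Finset (Fin 3)) (c : R3) (R : ℝ) :
    IsTorusSet (regionSet S c R) := by
  refine ⟨((continuous_subtorusDist S).comp (continuous_id.sub continuous_const)).measurable
    measurableSet_Iio, fun x i => ?_⟩
  simp only [regionSet, mem_ofPred_eq]
  rw [show x + unit i - c = x - c + unit i by abel, subtorusDist_periodic S]

theorem mem_regionSet_iff {S : Finset (Fin 3)} {c : R3} {R : ℝ} (hR : 0 < R) (x : R3) :
    x ∈ regionSet S c R ↔ ∑ i ∈ S, intDist (x i - c i) ^ 2 < R ^ 2 := by
  simp [regionSet, subtorusDist_eq, Real.sqrt_lt' hR]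

theorem intDist_sq_le_one (t : ℝ) : intDist t ^ 2 ≤ 1 := by
  have h := abs_sub_round t
  simp only [intDist, sq_abs]
  nlinarith [abs_le.1 h]

/-- The bathtub principle in the cell: a measurable set with the volume of `{F < a}` and the same
integral of `F` is that set up to a null set. -/
theorem ae_eq_of_integral_eq {E : Set R3} {F : R3 → ℝ} {a : ℝ} (hE : MeasurableSet E)
    (hF : Measurable F) (hFi : IntegrableOn F cell)
    (hvol : torusVolume E = torusVolume {x | F x < a})
    (hint : ∫ x in cell ∩ E, F x = ∫ x in cell ∩ {x | F x < a}, F x) :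
    (cell ∩ E : Set R3) =ᵐ[volume] (cell ∩ {x | F x < a} : Set R3) := by
  set B : Set R3 := {x | F x < a} with hB
  have hBm : MeasurableSet B := hF measurableSet_Iio
  have : IsFiniteMeasure (volume.restrict cell) :=
    isFiniteMeasure_restrict.2 volume_cell_ne_top
  set f : R3 → ℝ := fun x => (F x - a) * (E.indicator 1 x - B.indicator 1 x) with hf
  have hf0 : ∀ x, 0 ≤ f x := fun x => by
    by_cases hxE : x ∈ E <;> by_cases hxB : x ∈ B <;> simp [hf, hxE, hxB] <;>
      simp only [hB, mem_ofPred_eq, not_lt] at hxB <;> linarith
  have hG : IntegrableOn (fun x => F x - a) cell := hFi.sub (integrable_const a)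
  have hfeq : f = fun x => E.indicator (fun y => F y - a) x - B.indicator (fun y => F y - a) x :=
    funext fun x => by by_cases hxE : x ∈ E <;> by_cases hxB : x ∈ B <;> simp [hf, hxE, hxB]
  have hfi : IntegrableOn f cell := by
    rw [hfeq]; exact (hG.indicator hE).sub (hG.indicator hBm)
  have hsplit : ∀ s : Set R3, ∫ x in cell ∩ s, (F x - a) =
      (∫ x in cell ∩ s, F x) - a * torusVolume s := fun s => by
    rw [integral_sub (hFi.mono_set inter_subset_left).integrable
      (integrableOn_const (measure_ne_top_of_subset inter_subset_left volume_cell_ne_top)).integrable,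
      setIntegral_const, torusVolume, smul_eq_mul, mul_comm]
  have hfz : ∫ x in cell, f x = 0 := by
    rw [hfeq, integral_sub (hG.indicator hE).integrable (hG.indicator hBm).integrable,
      setIntegral_indicator hE, setIntegral_indicator hBm, hsplit, hsplit, hvol, hint, sub_self]
  have hae : ∀ᵐ x ∂volume.restrict cell, f x = 0 :=
    (integral_eq_zero_iff_of_nonneg hf0 hfi).1 hfz
  rw [ae_restrict_iff' measurableSet_cell] at hae
  have hBE : volume (cell ∩ (B \ E)) = 0 := by
    refine measure_mono_null (fun x hx => ?_) (ae_iff.1 hae)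
    simp only [mem_ofPred_eq, Classical.not_imp]
    refine ⟨hx.1, ?_⟩
    have h : F x < a := hx.2.1
    simp [hf, hx.2.1, hx.2.2, sub_eq_zero, h.ne']
  have hsub : (cell ∩ B : Set R3) ≤ᵐ[volume] (cell ∩ E : Set R3) := by
    rw [ae_le_set]
    refine measure_mono_null (fun x hx => ?_) hBE
    exact ⟨hx.1.1, hx.1.2, fun h => hx.2 ⟨hx.1.1, h⟩⟩
  refine (ae_eq_of_ae_subset_of_measure_ge hsub ?_ (measurableSet_cell.inter hBm).nullMeasurableSet
    (measure_ne_top_of_subset inter_subset_left volume_cell_ne_top)).symm
  exact ((measureReal_eq_measureReal_iff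
    (measure_ne_top_of_subset inter_subset_left volume_cell_ne_top)
    (measure_ne_top_of_subset inter_subset_left volume_cell_ne_top)).1 hvol).le

/-- **Marginals determine the candidates.** -/
theorem regionSet_of_marginals {E : Set R3} {S : Finset (Fin 3)} {c : R3} {R : ℝ} (hR : 0 < R)
    (hE : IsTorusSet E) (hvol : torusVolume E = torusVolume (regionSet S c R))
    (hmarg : ∀ i ∈ S, ∀ h : ℝ → ℝ, Continuous h →
      ∫ x in cell ∩ E, h (x i) = ∫ x in cell ∩ regionSet S c R, h (x i)) :
    (cell ∩ E : Set R3) =ᵐ[volume] (cell ∩ regionSet S c R : Set R3) := by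
  set F : R3 → ℝ := fun x => ∑ i ∈ S, intDist (x i - c i) ^ 2 with hF
  have hid : Continuous intDist :=
    (LipschitzWith.of_dist_le_mul (K := 1) fun s t => by
      simpa [Real.dist_eq] using abs_intDist_sub s t).continuous
  have hh : ∀ i, Continuous fun t : ℝ => intDist (t - c i) ^ 2 := fun i =>
    (hid.comp (continuous_id.sub continuous_const)).pow 2
  have hterm : ∀ i, Continuous fun x : R3 => intDist (x i - c i) ^ 2 := fun i =>
    (hh i).comp (continuous_apply i)
  have hFc : Continuous F := continuous_finsetSum _ fun i _ => hterm i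
  have hset : regionSet S c R = {x | F x < R ^ 2} := ext fun x => mem_regionSet_iff hR x
  have hint : ∀ i, IntegrableOn (fun x : R3 => intDist (x i - c i) ^ 2) cell := fun i =>
    integrableOn_cell_of_continuous (hterm i)
  rw [hset] at hvol hmarg ⊢
  refine ae_eq_of_integral_eq hE.measurable hFc.measurable
    (integrableOn_cell_of_continuous hFc) hvol ?_
  rw [hF, integral_finsetSum _ fun i _ => ((hint i).mono_set inter_subset_left).integrable,
    integral_finsetSum _ fun i _ => ((hint i).mono_set inter_subset_left).integrable]
  exact Finset.sum_congr rfl fun i hi => hmarg i hi _ (hh i)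

end Vale.Agent.P232
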