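import Vale.Agent.P232.Rigid.Spec
import Vale.Agent.P232.Rigid.Bathtub
import Vale.Agent.P232.Cases

/-!
# P232 rigidity: the marginals determine the set

The marginals of the models are computed by Fubini; the bathtub principle does the rest.
-/

open MeasureTheory Set Filter
open scoped ENNReal NNReal Real Topology

noncomputable section

namespace Vale.Agent.P232.Rigid

theorem continuous_intDist : Continuous intDist :=
  (LipschitzWith.of_dist_le_mul (K := 1) fun s t => by
    simpa [Real.dist_eq] using abs_intDist_sub s t).continuous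

/-- `1` on negative numbers. -/
def negOne (z : ℝ) : ℝ := if z < 0 then 1 else 0

theorem negOne_mem (z : ℝ) : negOne z ∈ Icc (0 : ℝ) 1 := by
  unfold negOne; split_ifs <;> norm_num

theorem measurable_negOne : Measurable negOne :=
  Measurable.ite measurableSet_Iio measurable_const measurable_const

/-- A circle integral of a periodic function, centred. -/
theorem integral_shift {f : ℝ → ℝ} (hf : Function.Periodic f 1) (c : ℝ) :
    ∫ s in (0 : ℝ)..1, f (s - c) = ∫ s in (-(1 / 2) : ℝ)..1 / 2, f s := by
  rw [intervalIntegral.integral_comp_sub_right]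
  have := hf.intervalIntegral_add_eq (0 - c) (-(1 / 2))
  rw [show 0 - c + 1 = 1 - c by ring, show (-(1 / 2) : ℝ) + 1 = 1 / 2 by ring] at this
  exact this

/-- The length of a symmetric arc of the circle. -/
theorem integral_negOne {r : ℝ} (hr : r < 1 / 4) (c : ℝ) :
    ∫ s in (0 : ℝ)..1, negOne (intDist (s - c) ^ 2 - r) = 2 * √(max 0 r) := by
  rw [integral_shift (f := fun s => negOne (intDist s ^ 2 - r))
    (fun s => by simp only [intDist_add_one]) c]
  set ρ := √(max 0 r)
  have hρ0 : 0 ≤ ρ := Real.sqrt_nonneg _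
  have hρ : ρ < 1 / 2 := by
    rw [Real.sqrt_lt' (by norm_num)]
    exact max_lt (by norm_num) (by linarith)
  have e : ∀ s ∈ Icc (-(1 / 2) : ℝ) (1 / 2),
      negOne (intDist s ^ 2 - r) = (Ioo (-ρ) ρ).indicator (fun _ => (1 : ℝ)) s := fun s hs => by
    rw [intDist_eq_abs (abs_le.2 hs), sq_abs]
    have key : s ^ 2 < r ↔ |s| < ρ := by
      rw [Real.lt_sqrt (abs_nonneg s), sq_abs, lt_max_iff]
      constructor
      · exact Or.inr
      · rintro (h | h)
        exacts [absurd h (sq_nonneg s).not_gt, h]
    by_cases h : s ∈ Ioo (-ρ) ρ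
    · rw [indicator_of_mem h, negOne, if_pos (sub_neg.2 (key.2 (abs_lt.2 h)))]
    · rw [indicator_of_notMem h, negOne, if_neg fun hh => h (abs_lt.1 (key.1 (sub_neg.1 hh)))]
  rw [intervalIntegral.integral_congr (fun s hs => e s (by rwa [uIcc_of_le (by norm_num)] at hs)),
    intervalIntegral.integral_of_le (by norm_num), setIntegral_indicator measurableSet_Ioo,
    setIntegral_const, smul_eq_mul, mul_one,
    show Ioc (-(1 / 2) : ℝ) (1 / 2) ∩ Ioo (-ρ) ρ = Ioo (-ρ) ρ from
      inter_eq_right.2 fun s hs => ⟨by linarith [hs.1], by linarith [hs.2]⟩,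
    Real.volume_real_Ioo, sub_neg_eq_add, max_eq_left (by linarith)]
  ring

/-- The area of a disc of the square torus. -/
theorem integral_half_chord {r : ℝ} (hr : r < 1 / 4) (c : ℝ) :
    ∫ a in (0 : ℝ)..1, 2 * √(max 0 (r - intDist (a - c) ^ 2)) = π * max 0 r := by
  rw [integral_shift (f := fun a => 2 * √(max 0 (r - intDist a ^ 2)))
    (fun a => by simp only [intDist_add_one]) c]
  set g : ℝ → ℝ := fun a => 2 * √(max 0 (r - a ^ 2))
  have hI : ∀ a b, IntervalIntegrable g volume a b := fun a b => by
    apply Continuous.intervalIntegrable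
    fun_prop
  have e : ∫ a in (-(1 / 2) : ℝ)..1 / 2, 2 * √(max 0 (r - intDist a ^ 2)) =
      ∫ a in (-(1 / 2) : ℝ)..1 / 2, g a := by
    refine intervalIntegral.integral_congr fun a ha => ?_
    rw [uIcc_of_le (by norm_num)] at ha
    simp only [g, intDist_eq_abs (abs_le.2 ha), sq_abs]
  rw [e]
  rcases le_or_gt r 0 with h | h
  · have : g = fun _ => 0 := by
      funext a
      simp [g, max_eq_left (by nlinarith : r - a ^ 2 ≤ 0)]
    simp [this, max_eq_left h]
  set ρ := √r with hρdef
  have hρ : 0 < ρ := Real.sqrt_pos.2 h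
  have hρ2 : ρ ^ 2 = r := Real.sq_sqrt h.le
  have hρh : ρ < 1 / 2 := by rw [hρdef, Real.sqrt_lt' (by norm_num)]; linarith
  have h0 : ∀ a, ρ ≤ |a| → g a = 0 := fun a ha => by
    have : r - a ^ 2 ≤ 0 := by nlinarith [sq_abs a, abs_nonneg a]
    simp [g, max_eq_left this]
  rw [← intervalIntegral.integral_add_adjacent_intervals (hI _ (-ρ)) (hI (-ρ) _),
    ← intervalIntegral.integral_add_adjacent_intervals (hI (-ρ) ρ) (hI ρ _),
    intervalIntegral.integral_congr (a := -(1 / 2)) (g := fun _ => (0 : ℝ)) fun a ha => h0 a ?_,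
    intervalIntegral.integral_congr (a := ρ) (g := fun _ => (0 : ℝ)) fun a ha => h0 a ?_,
    intervalIntegral.integral_zero, intervalIntegral.integral_zero, zero_add, add_zero]
  · have h1 := intervalIntegral.integral_comp_mul_left (a := -1) (b := 1) g hρ.ne'
    have h2 : ∫ u in (-1 : ℝ)..1, g (ρ * u) = ∫ u in (-1 : ℝ)..1, 2 * ρ * √(1 - u ^ 2) := by
      refine intervalIntegral.integral_congr fun u hu => ?_
      rw [uIcc_of_le (by norm_num)] at hu
      have hu2 : u ^ 2 ≤ 1 := (sq_le_one_iff_abs_le_one u).2 (abs_le.2 hu)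
      simp only [g]
      rw [max_eq_right (by nlinarith),
        show r - (ρ * u) ^ 2 = ρ ^ 2 * (1 - u ^ 2) by rw [mul_pow, hρ2]; ring,
        Real.sqrt_mul (sq_nonneg ρ), Real.sqrt_sq hρ.le, mul_assoc]
    rw [h2, intervalIntegral.integral_const_mul, integral_sqrt_one_sub_sq, mul_one, mul_neg_one,
      smul_eq_mul, inv_mul_eq_div, eq_div_iff hρ.ne'] at h1
    rw [← h1, max_eq_right h.le, ← hρ2]
    ring
  · rw [uIcc_of_le (by linarith)] at ha
    exact le_trans ha.1 (le_abs_self a)
  · rw [uIcc_of_le (by linarith)] at ha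
    exact le_trans (by linarith [ha.2]) (neg_le_abs a)

/-- Fubini on the square. -/
theorem integral_square {g : ℝ × ℝ → ℝ} (hg : Measurable g) (h : ∀ p, g p ∈ Icc (0 : ℝ) 1) :
    ∫ y in square, g (y 0, y 1) = ∫ a in (0 : ℝ)..1, ∫ b in (0 : ℝ)..1, g (a, b) := by
  set e := MeasurableEquiv.finTwoArrow (α := ℝ) with he
  have hpre : e ⁻¹' (Icc (0 : ℝ) 1 ×ˢ Icc (0 : ℝ) 1) = square := by
    ext y
    simp [e, square, Pi.le_def, Fin.forall_fin_two, and_assoc, and_left_comm]
  rw [← hpre]
  show ∫ y in e ⁻¹' _, g (e y) = _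
  rw [(volume_preserving_finTwoArrow ℝ).setIntegral_preimage_emb e.measurableEmbedding g,
    Measure.volume_eq_prod, setIntegral_prod, intervalIntegral.integral_of_le zero_le_one,
    integral_Icc_eq_integral_Ioc]
  · refine setIntegral_congr_fun measurableSet_Ioc fun a _ => ?_
    rw [intervalIntegral.integral_of_le zero_le_one, integral_Icc_eq_integral_Ioc]
  · exact IntegrableOn.of_bound (isCompact_Icc.prod isCompact_Icc).measure_lt_top
      hg.aestronglyMeasurable 1 (Eventually.of_forall fun p => by
        rw [Real.norm_of_nonneg (h p).1]; exact (h p).2)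

/-- The marginals of the models. -/
theorem marginal_shapeSet {S : Finset (Fin 3)} {c : R3} {R : ℝ} (hR : 0 < R) (hR2 : R < 1 / 2)
    {d : Fin 3} (hd : d ∈ S) (t : ℝ) :
    marginal (shapeSet S c R) d t = shapeMarginal S.card R (t - c d) := by
  set r := R ^ 2 - intDist (t - c d) ^ 2 with hr
  have hr4 : r < 1 / 4 := by nlinarith [sq_nonneg (intDist (t - c d))]
  set e₀ := d.succAbove 0
  set e₁ := d.succAbove 1
  set k₀ : ℝ → ℝ := fun a => if e₀ ∈ S then intDist (a - c e₀) ^ 2 else 0
  set k₁ : ℝ → ℝ := fun b => if e₁ ∈ S then intDist (b - c e₁) ^ 2 else 0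
  have hk₀ : Continuous k₀ := by
    simp only [k₀]; split_ifs
    exacts [(continuous_intDist.comp (continuous_id.sub continuous_const)).pow 2, continuous_const]
  have hk₁ : Continuous k₁ := by
    simp only [k₁]; split_ifs
    exacts [(continuous_intDist.comp (continuous_id.sub continuous_const)).pow 2, continuous_const]
  have hpt : ∀ y : R2, (shapeSet S c R).indicator (fun _ => (1 : ℝ)) (facePoint d t y) =
      negOne (k₀ (y 0) + k₁ (y 1) - r) := fun y => by
    have hsum : ∑ i ∈ S, intDist (facePoint d t y i - c i) ^ 2 =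
        intDist (t - c d) ^ 2 + (k₀ (y 0) + k₁ (y 1)) := by
      have h := Fin.sum_univ_succAbove
        (fun i => if i ∈ S then intDist (facePoint d t y i - c i) ^ 2 else 0) d
      rw [Finset.sum_ite_mem, Finset.univ_inter] at h
      rw [h, if_pos hd, facePoint_apply_self, Fin.sum_univ_two, facePoint_apply_succAbove,
        facePoint_apply_succAbove]
    have hmem : facePoint d t y ∈ shapeSet S c R ↔ k₀ (y 0) + k₁ (y 1) - r < 0 := by
      show facePoint d t y ∈ regionSet S c R ↔ _
      rw [mem_regionSet_iff hR, hsum, hr]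
      constructor <;> intro h <;> linarith
    by_cases h : facePoint d t y ∈ shapeSet S c R
    · rw [indicator_of_mem h, negOne, if_pos (hmem.1 h)]
    · rw [indicator_of_notMem h, negOne, if_neg fun hh => h (hmem.2 hh)]
  have hcard : S.card = 1 + ((if e₀ ∈ S then 1 else 0) + (if e₁ ∈ S then 1 else 0)) := by
    have h1 := Fin.sum_univ_succAbove (fun i => if i ∈ S then (1 : ℕ) else 0) d
    rw [Finset.sum_boole, Finset.filter_mem_eq_inter, Finset.univ_inter, Nat.cast_id,
      Fin.sum_univ_two, if_pos hd] at h1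
    exact h1
  simp only [marginal, planeInt, hpt]
  rw [integral_square (g := fun p => negOne (k₀ p.1 + k₁ p.2 - r))
    (measurable_negOne.comp
      (((hk₀.comp continuous_fst).add (hk₁.comp continuous_snd)).sub continuous_const).measurable)
    (fun p => negOne_mem _), hcard]
  by_cases h0 : e₀ ∈ S <;> by_cases h1 : e₁ ∈ S <;>
    simp only [k₀, k₁, h0, h1, if_true, if_false, zero_add, add_zero] <;>
    simp only [shapeMarginal, Nat.reduceAdd, Nat.reduceEqDiff, if_true, if_false,
      intervalIntegral.integral_const, sub_zero, one_smul, zero_sub]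
  · rw [← integral_half_chord hr4 (c e₀)]
    refine intervalIntegral.integral_congr fun a _ => ?_
    rw [← integral_negOne (r := r - intDist (a - c e₀) ^ 2)
      (by nlinarith [sq_nonneg (intDist (a - c e₀))]) (c e₁)]
    refine intervalIntegral.integral_congr fun b _ => ?_
    congr 1
    ring
  · exact integral_negOne hr4 (c e₀)
  · exact integral_negOne hr4 (c e₁)
  · have hn : 0 ≤ intDist (t - c d) := abs_nonneg _
    unfold negOne
    by_cases h : intDist (t - c d) < R
    · rw [if_pos h, if_pos (by rw [hr]; nlinarith)]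
    · rw [if_neg h, if_neg (by rw [hr]; nlinarith [not_lt.1 h])]

/-- Integrals along one coordinate through the marginal. -/
theorem integral_cell_eq {E : Set R3} (hE : MeasurableSet E) {h : ℝ → ℝ} (hh : Continuous h)
    (i : Fin 3) :
    ∫ x in cell ∩ E, h (x i) = ∫ t in Icc (0 : ℝ) 1, h t * marginal E i t := by
  set F : R3 → ℝ := E.indicator fun x => h (x i)
  have hbox : (cell : Set R3) =ᵐ[volume] box := Measure.univ_pi_Ico_ae_eq_Icc
  obtain ⟨C, hC⟩ := isCompact_Icc.exists_bound_of_continuousOn
    (hh.continuousOn (s := Icc (0 : ℝ) 1))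
  have hFi : IntegrableOn F box := by
    have : IntegrableOn (fun x : R3 => h (x i)) box :=
      (hh.comp (continuous_apply i)).continuousOn.integrableOn_compact isCompact_Icc
    exact this.indicator hE
  set e := (MeasurableEquiv.piFinSuccAbove (fun _ : Fin 3 => ℝ) i).symm
  have hmp : MeasurePreserving e (volume.prod volume) volume :=
    (volume_preserving_piFinSuccAbove (fun _ : Fin 3 => ℝ) i).symm _
  have happ : ∀ p : ℝ × R2, e p = facePoint i p.1 p.2 := fun p => rfl
  have hpre : e ⁻¹' box = Icc (0 : ℝ) 1 ×ˢ square := by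
    ext p
    simp only [mem_preimage, happ, mem_prod]
    exact facePoint_mem_box
  have hint : Integrable (fun p : ℝ × R2 => F (e p))
      ((volume.restrict (Icc (0 : ℝ) 1)).prod (volume.restrict square)) := by
    rw [Measure.prod_restrict, ← hpre]
    exact (hmp.integrableOn_comp_preimage e.measurableEmbedding).2 hFi
  rw [← setIntegral_indicator hE, setIntegral_congr_set hbox,
    ← hmp.setIntegral_preimage_emb e.measurableEmbedding F box, hpre, ← Measure.prod_restrict,
    integral_prod _ hint]
  refine integral_congr_ae (Eventually.of_forall fun t => ?_)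
  simp only [marginal, planeInt, happ, F]
  rw [← integral_const_mul]
  refine integral_congr_ae (Eventually.of_forall fun y => ?_)
  by_cases hy : facePoint i t y ∈ E
  · simp [indicator_of_mem hy, facePoint_apply_self]
  · simp [indicator_of_notMem hy]

/-- **M5.** -/
theorem shape : ShapeSpec := by
  intro E S c V hE hS hV hV2 _ hvol hmarg
  set R := shapeRadius S.card V
  have hpi := Real.pi_gt_three
  have hcard : S.card = 1 ∨ S.card = 2 ∨ S.card = 3 := by
    have := S.card_le_univ
    have := hS.card_pos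
    simp only [Fintype.card_fin] at *
    omega
  have hR : 0 < R ∧ R < 1 / 2 := by
    rcases hcard with h | h | h <;>
      simp only [R, shapeRadius, h, Nat.reduceEqDiff, if_true, if_false]
    · exact ⟨by linarith, by linarith⟩
    · refine ⟨Real.sqrt_pos.2 (by positivity), ?_⟩
      rw [Real.sqrt_lt' (by norm_num), div_lt_iff₀ Real.pi_pos]
      nlinarith
    · refine ⟨Real.rpow_pos_of_pos (by positivity) _, ?_⟩
      have hp : ((3 * V / (4 * π)) ^ ((1 : ℝ) / 3)) ^ 3 = 3 * V / (4 * π) := by
        rw [← Real.rpow_natCast, ← Real.rpow_mul (by positivity)]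
        norm_num
      refine lt_of_pow_lt_pow_left₀ 3 (by norm_num) ?_
      rw [hp, div_lt_iff₀ (by positivity)]
      nlinarith
  have hB := isTorusSet_regionSet S c R
  have hkey : ∀ i ∈ S, ∀ h : ℝ → ℝ, Continuous h →
      ∫ x in cell ∩ E, h (x i) = ∫ x in cell ∩ regionSet S c R, h (x i) := fun i hi h hh => by
    rw [integral_cell_eq hE.measurable hh, integral_cell_eq hB.measurable hh]
    refine integral_congr_ae (ae_restrict_of_ae ((hmarg i hi).mono fun t ht => ?_))
    show h t * marginal E i t = h t * marginal (shapeSet S c R) i t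
    rw [ht, marginal_shapeSet hR.1 hR.2 hi]
  have hvE : torusVolume E = torusVolume (regionSet S c R) := by
    obtain ⟨i, hi⟩ := hS
    simpa [torusVolume] using hkey i hi (fun _ => 1) continuous_const
  have hae := regionSet_of_marginals hR.1 hE hvE hkey
  rw [ae_eq_set] at hae
  set N : Set R3 := {x | ¬(x ∈ E ↔ x ∈ shapeSet S c R)}
  have hper : IsPeriodicFun fun x => x ∈ N := fun x j => by
    simp only [N, mem_ofPred_eq, hE.periodic x j]
    exact congrArg Not (propext (iff_congr Iff.rfl (hB.periodic x j)))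
  have hN : volume (cell ∩ N) = 0 := by
    refine measure_mono_null (fun x ⟨hx, hxN⟩ => ?_) (measure_union_null hae.1 hae.2)
    by_cases hxE : x ∈ E
    · exact Or.inl ⟨⟨hx, hxE⟩, fun h => hxN (iff_of_true hxE h.2)⟩
    · refine Or.inr ⟨⟨hx, ?_⟩, fun h => hxE h.2⟩
      by_contra hxB
      exact hxN (iff_of_false hxE hxB)
  refine ae_iff.2 (measure_mono_null (t := ⋃ k : Fin 3 → ℤ,
    (fun x : R3 => x + fun l => (k l : ℝ)) ⁻¹' (cell ∩ N)) (fun x hx => ?_) ?_)
  · refine mem_iUnion.2 ⟨fun l => -⌊x l⌋, mem_univ_pi.2 fun l => ?_, ?_⟩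
    · simp only [Pi.add_apply, Int.cast_neg, ← sub_eq_add_neg]
      exact ⟨sub_nonneg.2 (Int.floor_le _), by linarith [Int.lt_floor_add_one (x l)]⟩
    · exact (iff_of_eq (hper.add_int x fun l => -⌊x l⌋)).2 hx
  · refine measure_iUnion_null fun k => ?_
    rw [measure_preimage_add_right]
    exact hN

end Vale.Agent.P232.Rigid
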