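import Vale.Agent.P232.Rigid.SideLimit

/-!
# P232 rigidity M2b: a minimiser gives side data across every transverse axis
-/

open MeasureTheory Set Filter
open scoped ENNReal NNReal Real Topology

noncomputable section

namespace Vale.Agent.P232.Rigid

/-- `1` above `δ`, `0` below `δ / 2`. -/
def hiCut (δ r : ℝ) : ℝ := max 0 (min 1 (2 * r / δ - 1))

/-- `1` above `1 - δ / 2`, `0` below `1 - δ`. -/
def loCut (δ r : ℝ) : ℝ := max 0 (min 1 ((r - (1 - δ)) / (δ / 2)))

theorem continuous_hiCut (δ : ℝ) : Continuous (hiCut δ) := by unfold hiCut; fun_prop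

theorem continuous_loCut (δ : ℝ) : Continuous (loCut δ) := by unfold loCut; fun_prop

theorem hiCut_mem (δ r : ℝ) : hiCut δ r ∈ Icc (0 : ℝ) 1 :=
  ⟨le_max_left _ _, max_le zero_le_one (min_le_left _ _)⟩

theorem loCut_mem (δ r : ℝ) : loCut δ r ∈ Icc (0 : ℝ) 1 :=
  ⟨le_max_left _ _, max_le zero_le_one (min_le_left _ _)⟩

theorem hiCut_of_gt {δ r : ℝ} (hδ : 0 < δ) (h : δ < r) : 1 ≤ hiCut δ r := by
  refine le_max_of_le_right (le_min le_rfl ?_)
  rw [le_sub_iff_add_le, le_div_iff₀ hδ]
  linarith

theorem hiCut_of_le {δ r : ℝ} (hδ : 0 < δ) (h : r ≤ δ / 2) : hiCut δ r ≤ 0 := by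
  refine max_le le_rfl ((min_le_right _ _).trans ?_)
  rw [sub_nonpos, div_le_one hδ]
  linarith

theorem loCut_of_gt {δ r : ℝ} (hδ : 0 < δ) (h : 1 - δ / 2 < r) : 1 ≤ loCut δ r := by
  refine le_max_of_le_right (le_min le_rfl ?_)
  rw [one_le_div (half_pos hδ)]
  linarith

theorem loCut_of_le {δ r : ℝ} (hδ : 0 < δ) (h : r ≤ 1 - δ) : loCut δ r ≤ 0 :=
  max_le le_rfl ((min_le_right _ _).trans (div_nonpos_of_nonpos_of_nonneg (by linarith) (by linarith)))

theorem abs_mul_one_sub_sub {a b : ℝ} (ha : a ∈ Icc (0 : ℝ) 1) (hb : b ∈ Icc (0 : ℝ) 1) :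
    |a * (1 - a) - b * (1 - b)| ≤ |a - b| := by
  rw [show a * (1 - a) - b * (1 - b) = (a - b) * (1 - a - b) by ring, abs_mul]
  exact mul_le_of_le_one_right (abs_nonneg _)
    (abs_le.2 ⟨by linarith [ha.2, hb.2], by linarith [ha.1, hb.1]⟩)

theorem sqrt_le_div_add {z e : ℝ} (hz : 0 ≤ z) (he : 0 < e) : Real.sqrt z ≤ z / e + e := by
  rcases le_total (Real.sqrt z) e with h | h
  · exact h.trans (le_add_of_nonneg_left (div_nonneg hz he.le))
  · refine le_trans ?_ (le_add_of_nonneg_right he.le)
    rw [le_div_iff₀ he]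
    nlinarith [Real.sq_sqrt hz, Real.sqrt_nonneg z]

theorem ball_len_le {x y : ℝ} :
    Real.sqrt (π * min x (1 - x)) ≤ Real.sqrt (π * min y (1 - y)) + Real.sqrt (π * |x - y|) := by
  have h : min x (1 - x) ≤ min y (1 - y) + |x - y| := by
    have h1 := le_abs_self (x - y)
    have h2 := neg_le_abs (x - y)
    rcases le_total y (1 - y) with h | h
    · rw [min_eq_left h]; linarith [min_le_left x (1 - x)]
    · rw [min_eq_right h]; linarith [min_le_right x (1 - x)]
  refine (Real.sqrt_le_sqrt (mul_le_mul_of_nonneg_left h Real.pi_pos.le)).trans ?_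
  rw [mul_add]
  set a := π * min y (1 - y)
  set b := π * |x - y|
  have hb : 0 ≤ b := by positivity
  rw [Real.sqrt_le_iff]
  refine ⟨by positivity, ?_⟩
  rcases le_or_gt 0 a with ha | ha
  · nlinarith [Real.sq_sqrt ha, Real.sq_sqrt hb, Real.sqrt_nonneg a, Real.sqrt_nonneg b]
  · rw [Real.sqrt_eq_zero_of_nonpos ha.le, zero_add, Real.sq_sqrt hb]; linarith

theorem axes_cases : ∀ (S : Finset (Fin 3)) (d : Fin 3), d ∈ S → ∃ i j, d ≠ i ∧ d ≠ j ∧ i ≠ j ∧
    ((S.card = 3 ∧ i ∈ S ∧ j ∈ S) ∨ (S.card = 2 ∧ i ∈ S ∧ j ∉ S) ∨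
      (S.card = 1 ∧ i ∉ S ∧ j ∉ S)) := by
  decide

theorem ae_of_periodic_ae {p : ℝ → Prop} (hp : ∀ (t : ℝ) (k : ℤ), p (t + k) → p t)
    (h : ∀ᵐ t : ℝ, t ∈ Ioc (0 : ℝ) 1 → p t) : ∀ᵐ t : ℝ, p t := by
  have hall : ∀ᵐ t : ℝ, ∀ k : ℤ, t + (k : ℝ) ∈ Ioc (0 : ℝ) 1 → p (t + k) :=
    ae_all_iff.2 fun k => (measurePreserving_add_right volume (k : ℝ)).quasiMeasurePreserving.ae h
  filter_upwards [hall] with t ht
  refine hp t (1 - ⌈t⌉) (ht _ ?_)
  push_cast
  constructor <;> linarith [Int.le_ceil t, Int.ceil_lt_add_one t]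

namespace Approx

variable {V : ℝ} {E : Set R3} (D : Approx V E)

/-- The trace of a cut of `v` on the plane `x i = 1/2`, line by line across `d`. -/
def trace (n : ℕ) (d i : Fin 3) (φ : ℝ → ℝ) (t : ℝ) : ℝ :=
  planeInt (sliceFun (fun x => φ (D.v n d x)) i (1 / 2)) d t

/-- The error of the plane `x d = t`. -/
def planeErr (n : ℕ) (d : Fin 3) (δ t : ℝ) : ℝ :=
  |planeInt (D.u n) d t - marginal E d t| + D.defect n d t / δ

theorem planeErr_nonneg (n : ℕ) (d : Fin 3) {δ : ℝ} (hδ : 0 < δ) (t : ℝ) :
    0 ≤ D.planeErr n d δ t :=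
  add_nonneg (abs_nonneg _) (div_nonneg (D.defect_nonneg n d t) hδ.le)

theorem intervalIntegrable_planeErr (n : ℕ) (d : Fin 3) (δ : ℝ) :
    IntervalIntegrable (D.planeErr n d δ) volume 0 1 :=
  ((intervalIntegrable_planeInt (D.mem_u n).1.continuous.measurable
    (fun x => abs_le_one_of_mem ((D.mem_u n).2.2 x)) d 0 1).sub
      (D.intervalIntegrable_marginal d)).abs.add ((D.intervalIntegrable_defect n d).div_const δ)

theorem tendsto_planeErr (d : Fin 3) {δ : ℝ} (hδ : 0 < δ) :
    Tendsto (fun n => ∫ t in (0 : ℝ)..1, D.planeErr n d δ t) atTop (𝓝 0) := by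
  have hg : Tendsto (fun n => D.err n + D.err n / δ) atTop (𝓝 0) := by
    simpa [err] using D.err_tendsto.add (D.err_tendsto.div_const δ)
  refine squeeze_zero (fun n => intervalIntegral.integral_nonneg zero_le_one fun t _ =>
    D.planeErr_nonneg n d hδ t) (fun n => ?_) hg
  simp only [planeErr]
  rw [intervalIntegral.integral_add ((intervalIntegrable_planeInt (D.mem_u n).1.continuous.measurable
      (fun x => abs_le_one_of_mem ((D.mem_u n).2.2 x)) d 0 1).sub
        (D.intervalIntegrable_marginal d)).abs ((D.intervalIntegrable_defect n d).div_const δ),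
    intervalIntegral.integral_div]
  exact add_le_add (D.plane_err_u n d) (div_le_div_of_nonneg_right (D.integral_defect n d) hδ.le)

variable {φ : ℝ → ℝ}

theorem trace_mem (hφ : ∀ r, φ r ∈ Icc (0 : ℝ) 1) (n : ℕ) (d i : Fin 3) (t : ℝ) :
    D.trace n d i φ t ∈ Icc (0 : ℝ) 1 :=
  planeInt_mem (fun _ => hφ _) d t

theorem intervalIntegrable_trace (hc : Continuous φ) (hφ : ∀ r, φ r ∈ Icc (0 : ℝ) 1) (n : ℕ)
    (d i : Fin 3) : IntervalIntegrable (D.trace n d i φ) volume 0 1 :=
  intervalIntegrable_planeInt
    (measurable_sliceFun (hc.comp (D.mem_v n d).1.continuous).measurable i _)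
    (fun _ => abs_le_one_of_mem (hφ _)) d 0 1

theorem integral_trace (hc : Continuous φ) (hφ : ∀ r, φ r ∈ Icc (0 : ℝ) 1) (n : ℕ) {d i : Fin 3}
    (hid : i ≠ d) : ∫ t in (0 : ℝ)..1, D.trace n d i φ t =
      ∫ y in square, φ (half (D.w n d) (facePoint i 1 y)) := by
  rw [← planeInt_face (D.mem_w n d) (D.symm_w n d) hc i, D.plane_w n d i hid φ hc]
  exact integral_planeInt_sliceFun (f := fun x => φ (D.v n d x))
    (hc.comp (D.mem_v n d).1.continuous).measurable (fun _ => abs_le_one_of_mem (hφ _)) d i _

theorem trace_eq_square (hc : Continuous φ) (hφ : ∀ r, φ r ∈ Icc (0 : ℝ) 1) (n : ℕ) {d i : Fin 3}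
    (hid : i ≠ d) (t : ℝ) : D.trace n d i φ t =
      ∫ y in square, φ (half (sliceFun (D.v n d) d t) (facePoint i 1 y)) := by
  have hg := lipClass_sliceFun (D.mem_v n d) d t
  have hm : Measurable fun x => φ (D.v n d x) := (hc.comp (D.mem_v n d).1.continuous).measurable
  rw [← planeInt_face hg (isSymmDecreasing_sliceFun (D.symm_v n d) t) hc i, trace,
    ← integral_cell_sliceFun (measurable_sliceFun hm i _) (fun _ => abs_le_one_of_mem (hφ _)) d t,
    ← integral_cell_sliceFun (f := fun x => φ (sliceFun (D.v n d) d t x))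
      (hc.comp hg.1.continuous).measurable (fun _ => abs_le_one_of_mem (hφ _)) i (1 / 2)]
  congr 1
  funext x
  simp only [sliceFun]
  rw [Function.update_comm hid.symm]

theorem integral_trace_hi {δ : ℝ} (hδ : 0 < δ) (n : ℕ) {d i : Fin 3} (hid : i ≠ d) :
    ∫ t in (0 : ℝ)..1, D.trace n d i (hiCut δ) t ≤ faceArea (D.w n d) i (δ / 2) := by
  rw [D.integral_trace (continuous_hiCut δ) (hiCut_mem δ) n hid]
  have hw := lipClass_half (D.mem_w n d)
  exact integral_le_measureReal_lt measurableSet_square (by simp [volume_square])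
    (hw.1.continuous.measurable.comp (continuous_facePoint' i 1).measurable)
    ((continuous_hiCut δ).comp (hw.1.continuous.comp
      (continuous_facePoint' i 1))).continuousOn.integrableOn_Icc
    (fun r => (hiCut_mem δ r).2) fun r hr => hiCut_of_le hδ hr

theorem le_integral_trace_lo {δ : ℝ} (hδ : 0 < δ) (n : ℕ) {d i : Fin 3} (hid : i ≠ d) :
    faceArea (D.w n d) i (1 - δ / 2) ≤ ∫ t in (0 : ℝ)..1, D.trace n d i (loCut δ) t := by
  rw [D.integral_trace (continuous_loCut δ) (loCut_mem δ) n hid]
  have hw := lipClass_half (D.mem_w n d)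
  exact measureReal_lt_le_integral measurableSet_square (by simp [volume_square])
    (hw.1.continuous.measurable.comp (continuous_facePoint' i 1).measurable)
    ((continuous_loCut δ).comp (hw.1.continuous.comp
      (continuous_facePoint' i 1))).continuousOn.integrableOn_Icc
    (fun r => (loCut_mem δ r).1) fun r hr => loCut_of_gt hδ hr

theorem slice_bound (hS : SliceSpec) (n : ℕ) {d i j : Fin 3} (hdi : d ≠ i) (hdj : d ≠ j)
    (hij : i ≠ j) {δ : ℝ} (hδ : 0 < δ) (hδ2 : δ < 1 / 2) :
    ∀ᵐ t : ℝ, ∃ A a b : ℝ, |A - marginal E d t| ≤ D.planeErr n d δ t ∧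
      D.trace n d i (loCut δ) t ≤ a ∧ a ≤ D.trace n d i (hiCut δ) t ∧
      D.trace n d j (loCut δ) t ≤ b ∧ b ≤ D.trace n d j (hiCut δ) t ∧
      A ∈ Icc (0 : ℝ) 1 ∧ a ≤ A ∧ b ≤ A ∧ A * (1 - A) ≤ (A - a) + (A - b) ∧
      2 * (1 - 2 * δ) * (Real.sqrt (π * min A (1 - A)) - Real.sqrt (π * (a + b))) ≤
        planeInt (gradPerp d (D.v n d)) d t ∧
      (0 < b → 2 * (1 - 2 * δ) * (1 - a) ≤ planeInt (gradPerp d (D.v n d)) d t) := by
  filter_upwards [integral_gradNorm_sliceFun (D.mem_v n d) d] with t ht
  have hg := lipClass_sliceFun (D.mem_v n d) d t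
  have hsd := isSymmDecreasing_sliceFun (D.symm_v n d) t
  obtain ⟨hWL, hW01⟩ := lipClass_half hg
  set W := half (sliceFun (D.v n d) d t) with hWdef
  have hind : ∀ x s, W (Function.update x d s) = W x := fun x s => by
    simp only [hWdef, half]
    rw [show (1 / 2 : ℝ) • Function.update x d s =
        Function.update ((1 / 2 : ℝ) • x) d ((1 / 2) * s) from ?_, sliceFun_update]
    funext l
    by_cases h : l = d
    · subst h; simp
    · simp [h]
  obtain ⟨A, a, b, hA1, hA2, ha1, ha2, hb1, hb2, haA, hbA, hAA, hball, -, hband⟩ :=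
    hS _ W d i j hdi hdj hij hWL hW01 (half_antitone hsd) hind δ hδ hδ2
  rw [hWdef, integral_gradNorm_half hg hsd, ht] at hball hband
  have hlev : ∀ s, δ ≤ s → s ≤ 1 - δ → |volume.real (box ∩ {x | s < W x}) - planeInt (D.u n) d t| ≤
      D.defect n d t / δ := by
    intro s h1 h2
    have h := abs_level_sub_integral (μ := volume) (K := box) (by simp [volume_box])
      hWL.continuous.measurable hW01 hδ h1 h2
    rw [integral_box_half_comp hg hsd (φ := fun r => r) continuous_id,
      integral_box_half_comp hg hsd (φ := fun r => r * (1 - r)) (by fun_prop)] at h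
    have e : ∀ (ψ : ℝ → ℝ), Continuous ψ → ∫ x in cell, ψ (sliceFun (D.v n d) d t x) =
        planeInt (fun x => ψ (D.u n x)) d t := fun ψ hψ => by
      obtain ⟨C, hC⟩ := ((D.mem_v n d).2.1.comp ψ).exists_bound (hψ.comp (D.mem_v n d).1.continuous)
      rw [← D.plane_v n d ψ hψ t]
      exact integral_cell_sliceFun (f := fun x => ψ (D.v n d x))
        (hψ.comp (D.mem_v n d).1.continuous).measurable hC d t
    rw [e (fun r => r) continuous_id, e (fun r => r * (1 - r)) (by fun_prop)] at h
    exact h
  have l1 := abs_le.1 (hlev δ le_rfl (by linarith))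
  have l2 := abs_le.1 (hlev (1 - δ) (by linarith) le_rfl)
  have hface : ∀ (k : Fin 3) (c : ℝ),
      Measurable fun y => W (facePoint k c y) := fun k c =>
    hWL.continuous.measurable.comp (continuous_facePoint' k c).measurable
  have hiB : ∀ k, k ≠ d →
      volume.real (square ∩ {y | δ < W (facePoint k 1 y)}) ≤ D.trace n d k (hiCut δ) t := fun k hk => by
    rw [D.trace_eq_square (continuous_hiCut δ) (hiCut_mem δ) n hk t]
    exact measureReal_lt_le_integral measurableSet_square (by simp [volume_square]) (hface k 1)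
      ((continuous_hiCut δ).comp (hWL.continuous.comp
        (continuous_facePoint' k 1))).continuousOn.integrableOn_Icc
      (fun r => (hiCut_mem δ r).1) fun r hr => hiCut_of_gt hδ hr
  have loB : ∀ k, k ≠ d →
      D.trace n d k (loCut δ) t ≤ volume.real (square ∩ {y | 1 - δ < W (facePoint k 1 y)}) :=
    fun k hk => by
    rw [D.trace_eq_square (continuous_loCut δ) (loCut_mem δ) n hk t]
    exact integral_le_measureReal_lt measurableSet_square (by simp [volume_square]) (hface k 1)
      ((continuous_loCut δ).comp (hWL.continuous.comp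
        (continuous_facePoint' k 1))).continuousOn.integrableOn_Icc
      (fun r => (loCut_mem δ r).2) fun r hr => loCut_of_le hδ hr
  have hA01 : A ∈ Icc (0 : ℝ) 1 := ⟨measureReal_nonneg.trans hA1, hA2.trans (by
    refine (measureReal_mono inter_subset_left (by simp [volume_box])).trans ?_
    simp [measureReal_def, volume_box])⟩
  refine ⟨A, a, b, ?_, (loB i hdi.symm).trans ha1, ha2.trans (hiB i hdi.symm),
    (loB j hdj.symm).trans hb1, hb2.trans (hiB j hdj.symm), hA01, haA, hbA, hAA, ?_, fun h => ?_⟩
  · simp only [planeErr]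
    refine (abs_sub_le A (planeInt (D.u n) d t) _).trans ?_
    rw [add_comm]
    refine add_le_add le_rfl (abs_le.2 ⟨?_, ?_⟩) <;> linarith
  · rw [le_div_iff₀ (by linarith)] at hball; linarith
  · have := hband h
    rw [le_div_iff₀ (by linarith)] at this
    linarith

/-- From slicewise lower bounds to the two global inequalities. -/
theorem global_of_slices {d : Fin 3} {g : ℝ → ℝ}
    (hface : ∀ s, 0 < s → s < 1 → Tendsto (fun n => faceArea (D.w n d) d s) atTop (𝓝 0))
    (hgm : Measurable g) (hg : ∀ t, g t ∈ Icc (0 : ℝ) 3)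
    (hΛ : ∀ δ ε : ℝ, 0 < δ → δ < 1 / 2 → 0 < ε → ∃ h : ℕ → ℝ → ℝ,
      (∀ n, IntervalIntegrable (h n) volume 0 1) ∧ (∀ n t, 0 ≤ h n t) ∧
      Tendsto (fun n => ∫ t in (0 : ℝ)..1, h n t) atTop (𝓝 0) ∧
      ∀ n, ∀ᵐ t : ℝ, (1 - 2 * δ) * g t ≤ planeInt (gradPerp d (D.v n d)) d t + h n t + ε) :
    (∀ c σ : ℝ → ℝ, Continuous c → ContDiff ℝ 1 σ → Function.Periodic c 1 → Function.Periodic σ 1 →
      (∀ t, 0 ≤ c t) → (∀ t, c t ^ 2 + σ t ^ 2 ≤ 1) →
        ∫ t in (0 : ℝ)..1, (c t * g t + deriv σ t * marginal E d t) ≤ candidate V) ∧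
    ∀ c s : ℝ, 0 ≤ c → 0 ≤ s → c ^ 2 + s ^ 2 ≤ 1 →
      c * (∫ t in (0 : ℝ)..1, g t) + s * (2 * V) ≤ candidate V := by
  have hgi : IntervalIntegrable g volume 0 1 := intervalIntegrable_of_bdd hgm 3 (fun t => by
    rw [abs_of_nonneg (hg t).1]; exact (hg t).2) 0 1
  have hg2 : (∫ t in (0 : ℝ)..1, g t) ∈ Icc (0 : ℝ) 3 :=
    ⟨intervalIntegral.integral_nonneg zero_le_one fun t _ => (hg t).1,
      le_trans (intervalIntegral.integral_mono_on zero_le_one hgi intervalIntegrable_const
        fun t _ => (hg t).2) (by simp)⟩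
  have hFi : ∀ n, IntervalIntegrable (planeInt (gradPerp d (D.v n d)) d) volume 0 1 := fun n =>
    intervalIntegrable_planeInt (measurable_gradPerp d _) (abs_gradPerp_le (D.mem_v n d).1 d) d 0 1
  constructor
  · intro c σ hc hσ _ hσp hc0 hcσ
    have hc1 : ∀ t, c t ≤ 1 := fun t => by nlinarith [hcσ t, sq_nonneg (σ t), hc0 t]
    have hdσ := hσ.continuous_deriv le_rfl
    obtain ⟨K, hK⟩ := (isCompact_Icc (a := (0 : ℝ)) (b := 1)).exists_bound_of_continuousOn
      hdσ.continuousOn
    have hcg : IntervalIntegrable (fun t => c t * g t) volume 0 1 := hgi.continuousOn_mul hc.continuousOn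
    have hsA : IntervalIntegrable (fun t => deriv σ t * marginal E d t) volume 0 1 :=
      (D.intervalIntegrable_marginal d).continuousOn_mul hdσ.continuousOn
    rw [intervalIntegral.integral_add hcg hsA]
    have hX : (∫ t in (0 : ℝ)..1, c t * g t) ∈ Icc (0 : ℝ) 3 :=
      ⟨intervalIntegral.integral_nonneg zero_le_one fun t _ => mul_nonneg (hc0 t) (hg t).1,
        (intervalIntegral.integral_mono_on zero_le_one hcg hgi fun t _ =>
          mul_le_of_le_one_left (hg t).1 (hc1 t)).trans hg2.2⟩
    refine le_of_forall_pos_le_add fun η hη => ?_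
    set ε := min (1 / 4) (η / 8) with hεdef
    have hε : 0 < ε := lt_min (by norm_num) (by positivity)
    have hε5 : ε ≤ η / 8 := min_le_right _ _
    obtain ⟨h, hhi, hh0, hhlim, hh⟩ := hΛ ε ε hε (by linarith [min_le_left (1 / 4 : ℝ) (η / 8)]) hε
    have key : ∀ n, (1 - 2 * ε) * (∫ t in (0 : ℝ)..1, c t * g t) +
        (∫ t in (0 : ℝ)..1, deriv σ t * marginal E d t) ≤
        candidate V + ε + ((∫ t in (0 : ℝ)..1, h n t) + K * D.err n) := by
      intro n
      have hBi : IntervalIntegrable (planeInt (D.v n d) d) volume 0 1 :=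
        intervalIntegrable_planeInt (D.mem_v n d).1.continuous.measurable
          (fun x => abs_le_one_of_mem ((D.mem_v n d).2.2 x)) d 0 1
      have hcal := (calib_le (D.mem_v n d) d hc hσ hσp hcσ).trans (D.energy_v n d)
      have hcF : IntervalIntegrable (fun t => c t * planeInt (gradPerp d (D.v n d)) d t) volume 0 1 :=
        (hFi n).continuousOn_mul hc.continuousOn
      have hsB : IntervalIntegrable (fun t => deriv σ t * planeInt (D.v n d) d t) volume 0 1 :=
        hBi.continuousOn_mul hdσ.continuousOn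
      rw [intervalIntegral.integral_add hcF hsB] at hcal
      have h1 : (1 - 2 * ε) * (∫ t in (0 : ℝ)..1, c t * g t) ≤
          (∫ t in (0 : ℝ)..1, c t * planeInt (gradPerp d (D.v n d)) d t) +
            ((∫ t in (0 : ℝ)..1, h n t) + ε) := by
        have e1 : (∫ t in (0 : ℝ)..1, c t * planeInt (gradPerp d (D.v n d)) d t) +
            ((∫ t in (0 : ℝ)..1, h n t) + ε) =
            ∫ t in (0 : ℝ)..1, (c t * planeInt (gradPerp d (D.v n d)) d t + (h n t + ε)) := by
          rw [intervalIntegral.integral_add hcF ((hhi n).add intervalIntegrable_const),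
            intervalIntegral.integral_add (hhi n) intervalIntegrable_const]
          simp
        rw [e1, ← intervalIntegral.integral_const_mul]
        refine intervalIntegral.integral_mono_ae zero_le_one (hcg.const_mul _)
          (hcF.add ((hhi n).add intervalIntegrable_const)) ?_
        filter_upwards [hh n] with t ht
        have h2 := mul_le_mul_of_nonneg_left ht (hc0 t)
        have h3 : c t * (h n t + ε) ≤ h n t + ε :=
          mul_le_of_le_one_left (by linarith [hh0 n t]) (hc1 t)
        linarith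
      have h2 : (∫ t in (0 : ℝ)..1, deriv σ t * marginal E d t) -
          (∫ t in (0 : ℝ)..1, deriv σ t * planeInt (D.v n d) d t) ≤ K * D.err n := by
        rw [← intervalIntegral.integral_sub hsA hsB]
        have hui : IntervalIntegrable (planeInt (D.u n) d) volume 0 1 :=
          intervalIntegrable_planeInt (D.mem_u n).1.continuous.measurable
            (fun x => abs_le_one_of_mem ((D.mem_u n).2.2 x)) d 0 1
        refine le_trans (intervalIntegral.integral_mono_on zero_le_one (hsA.sub hsB)
          ((hui.sub (D.intervalIntegrable_marginal d)).abs.const_mul K) fun t ht => ?_) ?_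
        · have hK' : |deriv σ t| ≤ K := hK t ht
          have he : planeInt (D.v n d) d t = planeInt (D.u n) d t :=
            D.plane_v n d (fun r => r) continuous_id t
          show deriv σ t * marginal E d t - deriv σ t * planeInt (D.v n d) d t ≤ _
          rw [he, ← mul_sub]
          refine (le_abs_self _).trans ?_
          rw [abs_mul, abs_sub_comm]
          exact mul_le_mul_of_nonneg_right hK' (abs_nonneg _)
        · rw [intervalIntegral.integral_const_mul]
          exact mul_le_mul_of_nonneg_left (D.plane_err_u n d)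
            ((norm_nonneg _).trans (hK 0 (left_mem_Icc.2 zero_le_one)))
      linarith
    have hlim : Tendsto (fun n => candidate V + ε + ((∫ t in (0 : ℝ)..1, h n t) + K * D.err n)) atTop
        (𝓝 (candidate V + ε)) := by
      simpa [err] using (hhlim.add (D.err_tendsto.const_mul K)).const_add (candidate V + ε)
    have := ge_of_tendsto' hlim key
    nlinarith [hX.1, hX.2]
  · intro c s hc hs hcs
    have hc1 : c ≤ 1 := by nlinarith
    have hs1 : s ≤ 1 := by nlinarith
    refine le_of_forall_pos_le_add fun η hη => ?_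
    set ε := min (1 / 4) (η / 10) with hεdef
    have hε : 0 < ε := lt_min (by norm_num) (by positivity)
    have hε4 : ε ≤ 1 / 4 := min_le_left _ _
    have hε7 : ε ≤ η / 10 := min_le_right _ _
    obtain ⟨h, hhi, hh0, hhlim, hh⟩ := hΛ ε ε hε (by linarith) hε
    have key : ∀ n, c * (1 - 2 * ε) * (∫ t in (0 : ℝ)..1, g t) + s * (2 * (V - ε)) ≤
        candidate V + ε + ((∫ t in (0 : ℝ)..1, h n t) +
          2 * (D.err n + faceArea (D.w n d) d ε)) := by
      intro n
      obtain ⟨hwL, hwp, hw01⟩ := D.mem_w n d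
      have hW := lipClass_half (D.mem_w n d)
      have hvert := (vert_le (D.mem_v n d) d hcs).trans (D.energy_v n d)
      have h1 : (1 - 2 * ε) * (∫ t in (0 : ℝ)..1, g t) ≤
          (∫ t in (0 : ℝ)..1, planeInt (gradPerp d (D.v n d)) d t) +
            ((∫ t in (0 : ℝ)..1, h n t) + ε) := by
        have e1 : (∫ t in (0 : ℝ)..1, planeInt (gradPerp d (D.v n d)) d t) +
            ((∫ t in (0 : ℝ)..1, h n t) + ε) =
            ∫ t in (0 : ℝ)..1, (planeInt (gradPerp d (D.v n d)) d t + h n t + ε) := by
          rw [intervalIntegral.integral_add ((hFi n).add (hhi n)) intervalIntegrable_const,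
            intervalIntegral.integral_add (hFi n) (hhi n)]
          simp
          ring
        rw [e1, ← intervalIntegral.integral_const_mul]
        exact intervalIntegral.integral_mono_ae zero_le_one (hgi.const_mul _)
          (((hFi n).add (hhi n)).add intervalIntegrable_const) (hh n)
      have hm : Measurable (D.w n d) := hwL.continuous.measurable
      have hwb : ∀ x, |D.w n d x| ≤ 1 := fun x => abs_le_one_of_mem (hw01 x)
      have i0 : IntegrableOn (fun y => D.w n d (facePoint d 0 y)) square :=
        integrableOn_plane hm 1 hwb d 0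
      have i2 : IntegrableOn (fun y => D.w n d (facePoint d (1 / 2) y)) square :=
        integrableOn_plane hm 1 hwb d (1 / 2)
      have hT : 2 * (planeInt (D.w n d) d 0 - planeInt (D.w n d) d (1 / 2)) ≤
          ∫ x in cell, |pd d (D.v n d) x| := by
        simp only [planeInt]
        rw [← integral_sub i0 i2]
        refine lines_le (D.mem_v n d) d (i0.sub i2) fun y => ?_
        have hr := D.range_w n d (facePoint d 0 y)
        obtain ⟨a, ha⟩ : D.w n d (Function.update (facePoint d 0 y) d 0) ∈
            range fun r => D.v n d (Function.update (facePoint d 0 y) d r) := hr ▸ mem_range_self _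
        obtain ⟨b, hb⟩ : D.w n d (Function.update (facePoint d 0 y) d (1 / 2)) ∈
            range fun r => D.v n d (Function.update (facePoint d 0 y) d r) := hr ▸ mem_range_self _
        simp only [facePoint_update] at ha hb
        exact ⟨a, b, by rw [ha, hb]; exact le_abs_self _⟩
      have hmax : V - D.err n ≤ planeInt (D.w n d) d 0 := by
        have e := D.integral_comp_w n d (φ := fun r => r) continuous_id
        have h3 : (∫ x in cell, D.w n d x) ≤ planeInt (D.w n d) d 0 := by
          rw [integral_cell_eq_planeInt hm hwb d]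
          refine le_trans (intervalIntegral.integral_mono_on zero_le_one
            (intervalIntegrable_planeInt hm hwb d 0 1) intervalIntegrable_const
            fun t _ => planeInt_mono hm hm hwb hwb (t' := 0) fun y => ?_) (by simp)
          have := (IsSymmDecreasing.between (D.symm_w n d) hwp (facePoint d 0 y) d t).2
          rwa [facePoint_update, facePoint_update] at this
        linarith [(abs_le.1 (D.abs_integral_sub n)).1]
      have hmin : planeInt (D.w n d) d (1 / 2) ≤ ε + faceArea (D.w n d) d ε := by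
        have e := planeInt_face (D.mem_w n d) (D.symm_w n d) (φ := fun r => r) continuous_id d
        rw [show planeInt (D.w n d) d (1 / 2) = planeInt (fun x => D.w n d x) d (1 / 2) from rfl, e]
        have hc' : Continuous fun r : ℝ => min 1 (r - ε) := by fun_prop
        have hWf : Continuous fun y => half (D.w n d) (facePoint d 1 y) :=
          hW.1.continuous.comp (continuous_facePoint' d 1)
        have hcon : IntegrableOn (fun _ : R2 => ε) square := integrableOn_const (by simp [volume_square])
        calc ∫ y in square, half (D.w n d) (facePoint d 1 y)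
            ≤ ∫ y in square, (min 1 (half (D.w n d) (facePoint d 1 y) - ε) + ε) := by
              refine setIntegral_mono_on hWf.continuousOn.integrableOn_Icc
                ((hc'.comp hWf).continuousOn.integrableOn_Icc.add hcon) measurableSet_square
                fun y _ => ?_
              rcases min_choice (1 : ℝ) (half (D.w n d) (facePoint d 1 y) - ε) with h | h <;> rw [h] <;>
                linarith [(hW.2 (facePoint d 1 y)).2]
          _ ≤ faceArea (D.w n d) d ε + ε := by
              rw [integral_add (μ := volume.restrict square)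
                (f := fun y => min 1 (half (D.w n d) (facePoint d 1 y) - ε)) (g := fun _ => ε)
                (hc'.comp hWf).continuousOn.integrableOn_Icc hcon]
              refine add_le_add (integral_le_measureReal_lt (s := ε) measurableSet_square
                (by simp [volume_square]) hWf.measurable (φ := fun r => min 1 (r - ε))
                (hc'.comp hWf).continuousOn.integrableOn_Icc
                (fun r => min_le_left _ _) fun r hr => (min_le_right _ _).trans (by linarith))
                (le_of_eq ?_)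
              rw [setIntegral_const, measureReal_def, volume_square]
              simp
          _ = ε + faceArea (D.w n d) d ε := add_comm _ _
      have hI0 : 0 ≤ ∫ t in (0 : ℝ)..1, h n t :=
        intervalIntegral.integral_nonneg zero_le_one fun t _ => hh0 n t
      have k1 := mul_le_mul_of_nonneg_left h1 hc
      have k2 : s * (2 * (V - ε)) - 2 * (D.err n + faceArea (D.w n d) d ε) ≤
          s * ∫ x in cell, |pd d (D.v n d) x| := by
        have k3 := mul_le_mul_of_nonneg_left
          (show 2 * (V - ε) - 2 * (D.err n + faceArea (D.w n d) d ε) ≤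
            ∫ x in cell, |pd d (D.v n d) x| by linarith) hs
        have k4 : s * (2 * (D.err n + faceArea (D.w n d) d ε)) ≤
            2 * (D.err n + faceArea (D.w n d) d ε) := by
          refine mul_le_of_le_one_left ?_ hs1
          linarith [D.err_nonneg n, show 0 ≤ faceArea (D.w n d) d ε from measureReal_nonneg]
        linarith
      have k5 : c * ((∫ t in (0 : ℝ)..1, h n t) + ε) ≤ (∫ t in (0 : ℝ)..1, h n t) + ε :=
        mul_le_of_le_one_left (by linarith) hc1
      linarith
    have hlim : Tendsto (fun n => candidate V + ε + ((∫ t in (0 : ℝ)..1, h n t) +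
        2 * (D.err n + faceArea (D.w n d) d ε))) atTop (𝓝 (candidate V + ε)) := by
      simpa [err] using (hhlim.add ((D.err_tendsto.add (hface ε hε (by linarith))).const_mul 2)).const_add
        (candidate V + ε)
    have := ge_of_tendsto' hlim key
    have k6 : c * ε * (∫ t in (0 : ℝ)..1, g t) ≤ 3 * ε := by
      calc c * ε * (∫ t in (0 : ℝ)..1, g t) ≤ 1 * ε * 3 :=
            mul_le_mul (mul_le_mul_of_nonneg_right hc1 hε.le) hg2.2 hg2.1 (by positivity)
        _ = 3 * ε := by ring
    have k7 : s * ε ≤ ε := mul_le_of_le_one_left hε.le hs1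
    linarith

/-! ## The three kinds -/

theorem measurable_shapeLen (n : ℕ) : Measurable (shapeLen n) := by
  unfold shapeLen
  split_ifs
  · fun_prop
  · exact Measurable.ite measurableSet_Ioi measurable_const measurable_const
  · fun_prop

theorem tendsto_trace_hi {d i : Fin 3} (hid : i ≠ d) {δ : ℝ} (hδ : 0 < δ)
    (hf : Tendsto (fun n => faceArea (D.w n d) i (δ / 2)) atTop (𝓝 0)) :
    Tendsto (fun n => ∫ t in (0 : ℝ)..1, D.trace n d i (hiCut δ) t) atTop (𝓝 0) :=
  squeeze_zero (fun n => intervalIntegral.integral_nonneg zero_le_one fun t _ =>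
    (D.trace_mem (hiCut_mem δ) n d i t).1) (fun n => D.integral_trace_hi hδ n hid) hf

theorem tendsto_trace_lo (hS : SliceSpec) {d i j : Fin 3} (hdi : d ≠ i) (hdj : d ≠ j) (hij : i ≠ j)
    {δ : ℝ} (hδ : 0 < δ) (hδ2 : δ < 1 / 2)
    (hf : Tendsto (fun n => faceArea (D.w n d) j (1 - δ / 2)) atTop (𝓝 V)) :
    Tendsto (fun n => ∫ t in (0 : ℝ)..1, |marginal E d t - D.trace n d j (loCut δ) t|) atTop (𝓝 0) := by
  have hlim : Tendsto (fun n => V - faceArea (D.w n d) j (1 - δ / 2) +
      2 * ∫ t in (0 : ℝ)..1, D.planeErr n d δ t) atTop (𝓝 0) := by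
    simpa using (hf.const_sub V).add ((D.tendsto_planeErr d hδ).const_mul 2)
  refine squeeze_zero (fun n => intervalIntegral.integral_nonneg zero_le_one fun t _ => abs_nonneg _)
    (fun n => ?_) hlim
  have iA := D.intervalIntegrable_marginal d
  have iT := D.intervalIntegrable_trace (continuous_loCut δ) (loCut_mem δ) n d j
  have iE := D.intervalIntegrable_planeErr n d δ
  refine le_trans (intervalIntegral.integral_mono_ae zero_le_one (iA.sub iT).abs
    ((iA.sub iT).add (iE.const_mul 2)) ?_) ?_
  · filter_upwards [D.slice_bound hS n hdi hdj hij hδ hδ2] with t hsb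
    obtain ⟨A, a, b, h1, -, -, hb, -, -, -, hbA, -⟩ := hsb
    have h2 := abs_le.1 h1
    rw [abs_le]
    constructor <;> linarith [D.planeErr_nonneg n d hδ t]
  · rw [intervalIntegral.integral_add (iA.sub iT) (iE.const_mul 2),
      intervalIntegral.integral_sub iA iT, intervalIntegral.integral_const_mul, D.mass d]
    linarith [D.le_integral_trace_lo hδ n hdj.symm]

theorem ball_slices (hS : SliceSpec) {d i j : Fin 3} (hdi : d ≠ i) (hdj : d ≠ j) (hij : i ≠ j)
    (hi : ∀ s, 0 < s → s < 1 → Tendsto (fun n => faceArea (D.w n d) i s) atTop (𝓝 0))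
    (hj : ∀ s, 0 < s → s < 1 → Tendsto (fun n => faceArea (D.w n d) j s) atTop (𝓝 0))
    {δ ε : ℝ} (hδ : 0 < δ) (hδ2 : δ < 1 / 2) (hε : 0 < ε) :
    ∃ h : ℕ → ℝ → ℝ, (∀ n, IntervalIntegrable (h n) volume 0 1) ∧ (∀ n t, 0 ≤ h n t) ∧
      Tendsto (fun n => ∫ t in (0 : ℝ)..1, h n t) atTop (𝓝 0) ∧
      ∀ n, ∀ᵐ t : ℝ, (1 - 2 * δ) * shapeLen 3 (marginal E d t) ≤
        planeInt (gradPerp d (D.v n d)) d t + h n t + ε := by
  set T : ℕ → Fin 3 → ℝ → ℝ := fun n k => D.trace n d k (hiCut δ) with hT
  have iT : ∀ n k, IntervalIntegrable (T n k) volume 0 1 := fun n k =>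
    D.intervalIntegrable_trace (continuous_hiCut δ) (hiCut_mem δ) n d k
  refine ⟨fun n t => 8 * π / ε * (T n i t + T n j t + D.planeErr n d δ t),
    fun n => (((iT n i).add (iT n j)).add (D.intervalIntegrable_planeErr n d δ)).const_mul _,
    fun n t => mul_nonneg (by positivity) (add_nonneg (add_nonneg (D.trace_mem (hiCut_mem δ) n d i t).1
      (D.trace_mem (hiCut_mem δ) n d j t).1) (D.planeErr_nonneg n d hδ t)), ?_, fun n => ?_⟩
  · have := (((D.tendsto_trace_hi hdi.symm hδ (hi _ (half_pos hδ) (by linarith))).add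
      (D.tendsto_trace_hi hdj.symm hδ (hj _ (half_pos hδ) (by linarith)))).add
        (D.tendsto_planeErr d hδ)).const_mul (8 * π / ε)
    simp only [add_zero, mul_zero] at this
    refine this.congr fun n => ?_
    rw [intervalIntegral.integral_const_mul, intervalIntegral.integral_add ((iT n i).add (iT n j))
      (D.intervalIntegrable_planeErr n d δ), intervalIntegral.integral_add (iT n i) (iT n j)]
  · filter_upwards [D.slice_bound hS n hdi hdj hij hδ hδ2] with t hsb
    obtain ⟨A, a, b, h1, ha0, ha, hb0, hb, -, -, -, -, hball, -⟩ := hsb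
    have hF := hball
    have hTi := (D.trace_mem (hiCut_mem δ) n d i t).1
    have hTj := (D.trace_mem (hiCut_mem δ) n d j t).1
    have hk := D.planeErr_nonneg n d hδ t
    have ha' : 0 ≤ a := le_trans (D.trace_mem (loCut_mem δ) n d i t).1 ha0
    have hb' : 0 ≤ b := le_trans (D.trace_mem (loCut_mem δ) n d j t).1 hb0
    have h2 := ball_len_le (x := marginal E d t) (y := A)
    have h4 : Real.sqrt (π * |marginal E d t - A|) ≤ π * D.planeErr n d δ t / (ε / 4) + ε / 4 := by
      refine le_trans (Real.sqrt_le_sqrt (mul_le_mul_of_nonneg_left ?_ Real.pi_pos.le))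
        (sqrt_le_div_add (by positivity) (by positivity))
      rwa [abs_sub_comm]
    have h5 : Real.sqrt (π * (a + b)) ≤ π * (T n i t + T n j t) / (ε / 4) + ε / 4 :=
      le_trans (Real.sqrt_le_sqrt (mul_le_mul_of_nonneg_left (add_le_add ha hb) Real.pi_pos.le))
        (sqrt_le_div_add (mul_nonneg Real.pi_pos.le (add_nonneg hTi hTj)) (by positivity))
    have hδ' : 0 ≤ 1 - 2 * δ := by linarith
    have h6 := mul_le_mul_of_nonneg_left h2 (show 0 ≤ 2 * (1 - 2 * δ) by linarith)
    have h7 : (1 - 2 * δ) * (2 * (Real.sqrt (π * |marginal E d t - A|) + Real.sqrt (π * (a + b)))) ≤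
        2 * (Real.sqrt (π * |marginal E d t - A|) + Real.sqrt (π * (a + b))) :=
      mul_le_of_le_one_left (by positivity) (by linarith)
    have h8 : 8 * π / ε * (T n i t + T n j t + D.planeErr n d δ t) =
        2 * (π * D.planeErr n d δ t / (ε / 4) + π * (T n i t + T n j t) / (ε / 4)) := by
      field_simp; ring
    simp only [shapeLen, if_true]
    linarith

theorem tube_slices (hS : SliceSpec) {d i j : Fin 3} (hdi : d ≠ i) (hdj : d ≠ j) (hij : i ≠ j)
    (hi : ∀ s, 0 < s → s < 1 → Tendsto (fun n => faceArea (D.w n d) i s) atTop (𝓝 0))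
    (hj : ∀ s, 0 < s → s < 1 → Tendsto (fun n => faceArea (D.w n d) j s) atTop (𝓝 V))
    {η δ ε : ℝ} (hη : 0 < η) (hδ : 0 < δ) (hδ2 : δ < 1 / 2) (hε : 0 < ε) :
    ∃ h : ℕ → ℝ → ℝ, (∀ n, IntervalIntegrable (h n) volume 0 1) ∧ (∀ n t, 0 ≤ h n t) ∧
      Tendsto (fun n => ∫ t in (0 : ℝ)..1, h n t) atTop (𝓝 0) ∧
      ∀ n, ∀ᵐ t : ℝ, (1 - 2 * δ) * (2 * min 1 (marginal E d t / η)) ≤
        planeInt (gradPerp d (D.v n d)) d t + h n t + ε := by
  set T : ℕ → ℝ → ℝ := fun n => D.trace n d i (hiCut δ) with hT
  set B : ℕ → ℝ → ℝ := fun n t => |marginal E d t - D.trace n d j (loCut δ) t| with hB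
  have iT : ∀ n, IntervalIntegrable (T n) volume 0 1 := fun n =>
    D.intervalIntegrable_trace (continuous_hiCut δ) (hiCut_mem δ) n d i
  have iB : ∀ n, IntervalIntegrable (B n) volume 0 1 := fun n =>
    ((D.intervalIntegrable_marginal d).sub
      (D.intervalIntegrable_trace (continuous_loCut δ) (loCut_mem δ) n d j)).abs
  refine ⟨fun n t => (2 + 2 / η) * (T n t + B n t + D.planeErr n d δ t),
    fun n => (((iT n).add (iB n)).add (D.intervalIntegrable_planeErr n d δ)).const_mul _,
    fun n t => mul_nonneg (by positivity) (add_nonneg (add_nonneg (D.trace_mem (hiCut_mem δ) n d i t).1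
      (abs_nonneg _)) (D.planeErr_nonneg n d hδ t)), ?_, fun n => ?_⟩
  · have := (((D.tendsto_trace_hi hdi.symm hδ (hi _ (half_pos hδ) (by linarith))).add
      (D.tendsto_trace_lo hS hdi hdj hij hδ hδ2 (hj _ (by linarith) (by linarith)))).add
        (D.tendsto_planeErr d hδ)).const_mul (2 + 2 / η)
    simp only [add_zero, mul_zero] at this
    refine this.congr fun n => ?_
    rw [intervalIntegral.integral_const_mul, intervalIntegral.integral_add ((iT n).add (iB n))
      (D.intervalIntegrable_planeErr n d δ), intervalIntegral.integral_add (iT n) (iB n)]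
  · filter_upwards [D.slice_bound hS n hdi hdj hij hδ hδ2] with t hsb
    obtain ⟨A, a, b, h1, -, ha, hb0, -, hA01, -, hbA, -, -, hband⟩ := hsb
    have hTi : 0 ≤ T n t := (D.trace_mem (hiCut_mem δ) n d i t).1
    have hk := D.planeErr_nonneg n d hδ t
    have hB0 : 0 ≤ B n t := abs_nonneg _
    have hA := (marginal_mem (E := E) d t).1
    have hδ' : 0 ≤ 1 - 2 * δ := by linarith
    have hF : 0 ≤ planeInt (gradPerp d (D.v n d)) d t := planeInt_nonneg (gradPerp_nonneg d _) d t
    have hX : (2 + 2 / η) * (T n t + B n t + D.planeErr n d δ t) =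
        2 * (T n t + B n t + D.planeErr n d δ t) + 2 * ((T n t + B n t + D.planeErr n d δ t) / η) := by
      ring
    have hX0 : 0 ≤ (T n t + B n t + D.planeErr n d δ t) / η := by positivity
    have hmin0 : 0 ≤ min 1 (marginal E d t / η) := le_min zero_le_one (by positivity)
    rcases le_or_gt b 0 with hb | hb
    · have h2 : marginal E d t ≤ T n t + B n t + D.planeErr n d δ t := by
        have h3 : D.trace n d j (loCut δ) t ≤ 0 := hb0.trans hb
        linarith [le_abs_self (marginal E d t - D.trace n d j (loCut δ) t)]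
      have h3 : min 1 (marginal E d t / η) ≤ (T n t + B n t + D.planeErr n d δ t) / η :=
        (min_le_right _ _).trans (div_le_div_of_nonneg_right h2 hη.le)
      have h4 : (1 - 2 * δ) * (2 * min 1 (marginal E d t / η)) ≤ 2 * min 1 (marginal E d t / η) :=
        mul_le_of_le_one_left (by linarith) (by linarith)
      linarith
    · have h4 : (1 - 2 * δ) * (2 * min 1 (marginal E d t / η)) ≤ (1 - 2 * δ) * 2 :=
        mul_le_mul_of_nonneg_left (by linarith [min_le_left 1 (marginal E d t / η)]) hδ'
      have h5 := hband hb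
      have h6 : (1 - 2 * δ) * (2 * T n t) ≤ 2 * T n t := mul_le_of_le_one_left (by linarith) (by linarith)
      have h7 : (1 - 2 * δ) * (2 * a) ≤ (1 - 2 * δ) * (2 * T n t) :=
        mul_le_mul_of_nonneg_left (by linarith) hδ'
      linarith

theorem slab_zero_one (hS : SliceSpec) {d i j : Fin 3} (hdi : d ≠ i) (hdj : d ≠ j) (hij : i ≠ j)
    (hi : ∀ s, 0 < s → s < 1 → Tendsto (fun n => faceArea (D.w n d) i s) atTop (𝓝 V))
    (hj : ∀ s, 0 < s → s < 1 → Tendsto (fun n => faceArea (D.w n d) j s) atTop (𝓝 V)) :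
    ∀ᵐ t : ℝ, marginal E d t * (1 - marginal E d t) = 0 := by
  set δ : ℝ := 1 / 4 with hδdef
  have hδ : 0 < δ := by norm_num
  have hδ2 : δ < 1 / 2 := by norm_num
  set B : Fin 3 → ℕ → ℝ → ℝ := fun k n t => |marginal E d t - D.trace n d k (loCut δ) t| with hB
  have iB : ∀ k n, IntervalIntegrable (B k n) volume 0 1 := fun k n =>
    ((D.intervalIntegrable_marginal d).sub
      (D.intervalIntegrable_trace (continuous_loCut δ) (loCut_mem δ) n d k)).abs
  have iE := fun n => D.intervalIntegrable_planeErr n d δ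
  have iQ : IntervalIntegrable (fun t => marginal E d t * (1 - marginal E d t)) volume 0 1 :=
    intervalIntegrable_of_bdd ((D.measurable_marginal d).mul (measurable_const.sub
      (D.measurable_marginal d))) 1 (fun t => abs_le_one_of_mem (mul_one_sub_mem (marginal_mem d t))) 0 1
  have key : ∀ n, (∫ t in (0 : ℝ)..1, marginal E d t * (1 - marginal E d t)) ≤
      (∫ t in (0 : ℝ)..1, B i n t) + (∫ t in (0 : ℝ)..1, B j n t) +
        3 * ∫ t in (0 : ℝ)..1, D.planeErr n d δ t := by
    intro n
    rw [← intervalIntegral.integral_add (iB i n) (iB j n), ← intervalIntegral.integral_const_mul,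
      ← intervalIntegral.integral_add ((iB i n).add (iB j n)) ((iE n).const_mul 3)]
    refine intervalIntegral.integral_mono_ae zero_le_one iQ
      (((iB i n).add (iB j n)).add ((iE n).const_mul 3)) ?_
    filter_upwards [D.slice_bound hS n hdi hdj hij hδ hδ2] with t hsb
    obtain ⟨A, a, b, h1, ha, -, hb, -, hA01, -, -, hAA, -⟩ := hsb
    have h2 := abs_le.1 h1
    have h3 := (abs_le.1 (abs_mul_one_sub_sub (marginal_mem (E := E) d t) hA01)).2
    rw [abs_sub_comm] at h3
    simp only [hB]
    linarith [le_abs_self (marginal E d t - D.trace n d i (loCut δ) t),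
      le_abs_self (marginal E d t - D.trace n d j (loCut δ) t)]
  have hlim : Tendsto (fun n => (∫ t in (0 : ℝ)..1, B i n t) + (∫ t in (0 : ℝ)..1, B j n t) +
      3 * ∫ t in (0 : ℝ)..1, D.planeErr n d δ t) atTop (𝓝 0) := by
    simpa [hB] using ((D.tendsto_trace_lo hS hdj hdi hij.symm hδ hδ2
      (hi _ (by norm_num) (by norm_num))).add
      (D.tendsto_trace_lo hS hdi hdj hij hδ hδ2 (hj _ (by norm_num) (by norm_num)))).add
      ((D.tendsto_planeErr d hδ).const_mul 3)
  have hzero : (∫ t in (0 : ℝ)..1, marginal E d t * (1 - marginal E d t)) = 0 :=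
    le_antisymm (ge_of_tendsto' hlim key) (intervalIntegral.integral_nonneg zero_le_one
      fun t _ => (mul_one_sub_mem (marginal_mem d t)).1)
  rw [intervalIntegral.integral_of_le zero_le_one] at hzero
  have hz := (ae_restrict_iff' measurableSet_Ioc).1
    ((integral_eq_zero_iff_of_nonneg (fun t => (mul_one_sub_mem (marginal_mem d t)).1) iQ.1).1 hzero)
  refine ae_of_periodic_ae (fun t k h => ?_) hz
  have hper : marginal E d (t + k) = marginal E d t := by
    have := (D.marginal_periodic d).int_mul k t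
    rwa [mul_one] at this
  simpa [hper] using h

include D in
theorem sideData (hP : PartialSpec) (hL : LevelSpec) (hS : SliceSpec) (h0 : 0 < V) (h1 : V ≤ 1 / 2)
    (hev : ∀ᶠ W in 𝓝 V, ReducedBoundAt W) (hst : FaceSpec V) {d : Fin 3}
    (hd : d ∈ transAxes E V) : SideData (transAxes E V).card V (marginal E d) := by
  have hV1 : V ≤ 1 := by linarith
  have hface : ∀ k s, 0 < s → s < 1 →
      Tendsto (fun n => faceArea (D.w n d) k s) atTop (𝓝 (endVal E V k)) :=
    fun k s hs hs1 => D.face_tendsto hP hL h0 hV1 hev hst d k hs hs1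
  have ev0 : ∀ {k}, k ∈ transAxes E V →
      ∀ s, 0 < s → s < 1 → Tendsto (fun n => faceArea (D.w n d) k s) atTop (𝓝 0) :=
    fun {k} hk s hs hs1 => by simpa [endVal, hk] using hface k s hs hs1
  have evV : ∀ {k}, k ∉ transAxes E V →
      ∀ s, 0 < s → s < 1 → Tendsto (fun n => faceArea (D.w n d) k s) atTop (𝓝 V) :=
    fun {k} hk s hs hs1 => by simpa [endVal, hk] using hface k s hs hs1
  have hfd : ∀ s, 0 < s → s < 1 → Tendsto (fun n => faceArea (D.w n d) d s) atTop (𝓝 0) :=
    ev0 hd
  have hm := D.measurable_marginal d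
  have hmem := marginal_mem (E := E) d
  obtain ⟨i, j, hdi, hdj, hij, hcase⟩ := axes_cases _ d hd
  refine ⟨hm, D.marginal_periodic d, hmem, D.mass d, ?lin, ?vert, ?zo⟩
  case zo =>
    intro hcard
    rcases hcase with ⟨h3, -⟩ | ⟨h2, -⟩ | ⟨-, hi, hj⟩
    · omega
    · omega
    · exact D.slab_zero_one hS hdi hdj hij (evV hi) (evV hj)
  all_goals rcases hcase with ⟨h3, hi, hj⟩ | ⟨h2, hi, hj⟩ | ⟨h1', -, -⟩
  -- ball and slab
  case lin.inl | vert.inl =>
    have hb := D.global_of_slices (g := fun t => shapeLen 3 (marginal E d t)) hfd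
      ((measurable_shapeLen 3).comp hm) (fun t => ?_)
      fun δ ε hδ hδ2 hε => D.ball_slices hS hdi hdj hij (ev0 hi) (ev0 hj) hδ hδ2 hε
    · rw [h3]
      first
        | exact hb.1
        | exact hb.2
    · simp only [shapeLen, if_true]
      refine ⟨by positivity, ?_⟩
      have h5 : π * min (marginal E d t) (1 - marginal E d t) ≤ (3 / 2) ^ 2 := by
        have : min (marginal E d t) (1 - marginal E d t) ≤ 1 / 2 := by
          rcases le_total (marginal E d t) (1 / 2) with h | h
          · exact (min_le_left _ _).trans h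
          · exact (min_le_right _ _).trans (by linarith)
        nlinarith [Real.pi_le_four, Real.pi_pos]
      linarith [(Real.sqrt_le_iff (x := π * min (marginal E d t) (1 - marginal E d t))).2
        ⟨by norm_num, h5⟩]
  case lin.inr.inr | vert.inr.inr =>
    have hb := D.global_of_slices (g := fun t => shapeLen 1 (marginal E d t)) hfd
      ((measurable_shapeLen 1).comp hm) (fun t => by simp [shapeLen])
      fun δ ε hδ hδ2 hε => ⟨fun _ _ => 0, fun _ => intervalIntegrable_const, fun _ _ => le_rfl,
        by simp, fun n => ae_of_all _ fun t => by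
          simp only [shapeLen, OfNat.one_ne_ofNat, if_false, mul_zero, add_zero]
          linarith [planeInt_nonneg (gradPerp_nonneg d (D.v n d)) d t]⟩
    rw [h1']
    first
      | exact hb.1
      | exact hb.2
  all_goals
    have hη : ∀ η : ℝ, 0 < η → _ := fun η hη =>
      D.global_of_slices (g := fun t => 2 * min 1 (marginal E d t / η)) hfd
        (measurable_const.mul (measurable_const.min (hm.div_const η)))
        (fun t => ⟨mul_nonneg zero_le_two (le_min zero_le_one (div_nonneg (hmem t).1 hη.le)),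
          by linarith [min_le_left 1 (marginal E d t / η)]⟩)
        fun δ ε hδ hδ2 hε => D.tube_slices hS hdi hdj hij (ev0 hi) (evV hj)
          hη hδ hδ2 hε
    set G : ℕ → ℝ → ℝ := fun m t => 2 * min 1 (marginal E d t / (1 / ((m : ℝ) + 1))) with hG
    have hGm : ∀ m, Measurable (G m) := fun m =>
      measurable_const.mul (measurable_const.min (hm.div_const _))
    have hG2 : ∀ m t, |G m t| ≤ 2 := fun m t => by
      simp only [hG]
      rw [abs_of_nonneg (mul_nonneg zero_le_two
        (le_min zero_le_one (div_nonneg (hmem t).1 (by positivity))))]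
      linarith [min_le_left 1 (marginal E d t / (1 / ((m : ℝ) + 1)))]
    have hGlim : ∀ t, Tendsto (fun m => G m t) atTop (𝓝 (shapeLen 2 (marginal E d t))) := by
      intro t
      simp only [shapeLen, show (2 : ℕ) ≠ 3 by norm_num, if_false, if_true]
      split_ifs with hp
      · refine tendsto_const_nhds.congr' ?_
        obtain ⟨N, hN⟩ := exists_nat_gt (1 / marginal E d t)
        filter_upwards [eventually_ge_atTop N] with m hm'
        have h1 : 1 / marginal E d t < (m : ℝ) + 1 := by
          have : (N : ℝ) ≤ m := Nat.cast_le.2 hm'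
          linarith
        rw [div_lt_iff₀ hp] at h1
        simp only [hG, div_div_eq_mul_div, div_one]
        rw [min_eq_left (by linarith), mul_one]
      · refine tendsto_const_nhds.congr fun m => ?_
        have h0' : marginal E d t = 0 := le_antisymm (not_lt.1 hp) (hmem t).1
        simp [hG, h0']
    rw [h2]
  case lin.inr.inl =>
    intro c σ hc hσ hcp hσp hc0 hcσ
    obtain ⟨K, hK⟩ := (isCompact_Icc (a := (0 : ℝ)) (b := 1)).exists_bound_of_continuousOn
      (hc.continuousOn)
    obtain ⟨K', hK'⟩ := (isCompact_Icc (a := (0 : ℝ)) (b := 1)).exists_bound_of_continuousOn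
      (hσ.continuous_deriv le_rfl).continuousOn
    refine le_of_tendsto' (intervalIntegral.tendsto_integral_filter_of_dominated_convergence
      (l := atTop) (F := fun m t => c t * G m t + deriv σ t * marginal E d t) (fun _ => K * 2 + K') ?_ ?_
      intervalIntegrable_const ?_) fun m =>
        (hη (1 / ((m : ℝ) + 1)) (by positivity)).1 c σ hc hσ hcp hσp hc0 hcσ
    · exact Eventually.of_forall fun m => ((hc.measurable.mul (hGm m)).add
        ((hσ.continuous_deriv le_rfl).measurable.mul hm)).aestronglyMeasurable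
    · refine Eventually.of_forall fun m => ae_of_all _ fun t ht => ?_
      rw [uIoc_of_le zero_le_one] at ht
      refine (abs_add_le _ _).trans (add_le_add ?_ ?_) <;> rw [abs_mul]
      · exact mul_le_mul (hK t (Ioc_subset_Icc_self ht)) (hG2 m t) (abs_nonneg _)
          ((norm_nonneg _).trans (hK t (Ioc_subset_Icc_self ht)))
      · exact (mul_le_of_le_one_right (abs_nonneg _) (abs_le_one_of_mem (hmem t))).trans
          (hK' t (Ioc_subset_Icc_self ht))
    · exact ae_of_all _ fun t _ => ((hGlim t).const_mul (c t)).add_const _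
  case vert.inr.inl =>
    intro c s hc hs hcs
    refine le_of_tendsto' ((Tendsto.const_mul c
      (intervalIntegral.tendsto_integral_filter_of_dominated_convergence (l := atTop) (F := G) (fun _ => 2)
        (Eventually.of_forall fun m => (hGm m).aestronglyMeasurable)
        (Eventually.of_forall fun m => ae_of_all _ fun t _ => hG2 m t) intervalIntegrable_const
        (ae_of_all _ fun t _ => hGlim t))).add_const (s * (2 * V))) fun m =>
          (hη (1 / ((m : ℝ) + 1)) (by positivity)).2 c s hc hs hcs

end Approx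

/-- A minimiser gives side data across every transverse axis. -/
theorem side (hP : PartialSpec) (hL : LevelSpec) (hS : SliceSpec) : SideSpec := by
  intro V h0 h1 hev hst E hE hV hper
  obtain ⟨D⟩ := exists_approx hP h0.le (by linarith) hE hV hper
  obtain ⟨hne, hsh⟩ := D.trans_shape hP hL h0 (by linarith) hev hst
  exact ⟨transAxes E V, hne, hsh, fun d hd => D.sideData hP hL hS h0 h1 hev hst hd⟩

end Vale.Agent.P232.Rigid
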