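import Vale.Agent.P232.Rigid.Spec
import Vale.Agent.P232.SlicingGlue
import Vale.Agent.P232.Budgets

/-!
# P232 rigidity: one slice, extended constantly

A slice extended constantly along the normal axis is a down set of the box; its length is bounded
by the relative perimeter, so every planar fact applies to it.
-/

open MeasureTheory Set Filter
open scoped ENNReal NNReal Real Topology

noncomputable section

namespace Vale.Agent.P232.Rigid

/-! ## Planar facts -/

theorem shifted_island_le {s : Slice} {l : ℝ} (h : s.Master l) (hu : s.u = 0) :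
    Real.sqrt (π * (s.A - s.w)) ≤ l := by
  have hA : 0 ≤ s.A - s.w := sub_nonneg.2 s.w_le_A
  rcases s.w_le.eq_or_lt with hX | hX
  · have : s.A - s.w = 0 := by linarith [s.A_le_X]
    simpa [this] using h.nonneg
  set p := 1 / (s.X - s.w) with hp
  have hpX : p * s.X + -(p * s.w) = 1 := by
    rw [← sub_eq_add_neg, ← mul_sub, hp, one_div, inv_mul_cancel₀ (sub_pos.2 hX).ne']
  have h1 := h p (-(p * s.w)) (by simp) (by rw [hpX, abs_one])
  simp only [Slice.flux, hu, mul_zero, sub_zero, add_neg_cancel, zero_mul, add_zero] at h1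
  have e : ∀ x, p * x + -(p * s.w) = (x - s.w) / (s.X - s.w) := fun x => by rw [hp]; ring
  simp only [e] at h1
  rw [(Slice.integral_arc hX).1] at h1
  refine (Slice.amgm hA (sub_pos.2 hX)).trans ?_
  rw [hp, one_div_mul_eq_div] at h1
  exact h1

theorem IsHeight.area_ge_wrap {f : ℝ → ℝ} (hf : IsHeight f) (hX : botWidth f = 1) :
    topWidth f + (1 - topWidth f) * rightHeight f ≤ ∫ x in (0 : ℝ)..1, f x := by
  rw [hf.area_eq]
  have hw := IsHeight.topWidth_mem (f := f)
  have hI := hf.intervalIntegrable hw (d := 1) ⟨zero_le_one, le_rfl⟩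
  have := intervalIntegral.integral_mono_on_of_le_Ioo hw.2 intervalIntegrable_const hI
    fun x hx => hf.rightHeight_le ⟨hw.1.trans_lt hx.1, hx.2⟩
  rw [intervalIntegral.integral_const, smul_eq_mul] at this
  rw [hX]
  linarith

theorem sqrt_le_add {x y : ℝ} (hy : 0 ≤ y) :
    Real.sqrt x ≤ Real.sqrt (x - y) + Real.sqrt y := by
  rw [Real.sqrt_le_iff]
  refine ⟨by positivity, ?_⟩
  rcases le_or_gt 0 (x - y) with h | h
  · nlinarith [Real.sq_sqrt h, Real.sq_sqrt hy, Real.sqrt_nonneg (x - y), Real.sqrt_nonneg y]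
  · rw [Real.sqrt_eq_zero_of_nonpos h.le, zero_add, Real.sq_sqrt hy]
    linarith

/-- All the facts about one height function. -/
theorem planar_facts {f : ℝ → ℝ} (hf : IsHeight f) {l : ℝ} (hl : LenGe f l) :
    let A := ∫ x in (0 : ℝ)..1, f x
    let u := rightHeight f
    let w := topWidth f
    u ≤ A ∧ w ≤ A ∧ A * (1 - A) ≤ (A - u) + (A - w) ∧
      Real.sqrt (π * min A (1 - A)) - Real.sqrt (π * (u + w)) ≤ l ∧
      (0 < u → 1 - w ≤ l) ∧ (0 < w → 1 - u ≤ l) := by
  intro A u w
  have hM := hf.master hl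
  have hu0 : 0 ≤ u := hf.slice.u_nonneg
  have hw0 : 0 ≤ w := hf.slice.w_nonneg
  have hwA : w ≤ A := hf.slice.w_le_A
  have huA : u ≤ A := hf.slice.u_le_A
  have hA1 : A ≤ 1 := hf.slice.A_le_X.trans hf.slice.X_le
  have hXu : 0 < u → botWidth f = 1 := fun h => by
    by_contra hne
    exact h.ne' (hf.slice.u_eq (lt_of_le_of_ne hf.slice.X_le hne))
  have hY : 0 < w → leftHeight f = 1 := hf.slice.Y_eq
  have hch : √((botWidth f - w) ^ 2 + (leftHeight f - u) ^ 2) ≤ l := Slice.chord_le hM
  refine ⟨huA, hwA, ?_, ?_, fun h => ?_, fun h => ?_⟩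
  · rcases hu0.eq_or_lt with hu | hu
    · nlinarith
    rcases hw0.eq_or_lt with hw | hw
    · nlinarith
    have hlow : w + (1 - w) * u ≤ A := IsHeight.area_ge_wrap hf (hXu hu)
    have h1 : u ≤ w + (1 - w) * u := by nlinarith
    have h2 : w ≤ w + (1 - w) * u := by nlinarith
    have h3 := mul_le_mul h1 h2 hw.le (hu.le.trans h1)
    have h4 : (w + (1 - w) * u) * (w + (1 - w) * u) ≤ A * A :=
      mul_le_mul hlow hlow (hu.le.trans h1) (hu.le.trans huA)
    linarith
  · have hmin1 : Real.sqrt (π * min A (1 - A)) ≤ Real.sqrt (π * A) :=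
      Real.sqrt_le_sqrt (mul_le_mul_of_nonneg_left (min_le_left _ _) Real.pi_pos.le)
    have hmin2 : Real.sqrt (π * min A (1 - A)) ≤ Real.sqrt (π * (1 - A)) :=
      Real.sqrt_le_sqrt (mul_le_mul_of_nonneg_left (min_le_right _ _) Real.pi_pos.le)
    have hn := Real.sqrt_nonneg (π * (u + w))
    rcases hu0.eq_or_lt with hu | hu
    · have hk : Real.sqrt (π * (A - w)) ≤ l := shifted_island_le hM hu.symm
      have := sqrt_le_add (x := π * A) (mul_nonneg Real.pi_pos.le hw0)
      rw [← mul_sub] at this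
      rw [← hu, zero_add]
      linarith
    rcases hw0.eq_or_lt with hw | hw
    · have hk : Real.sqrt (π * (A - u)) ≤ l := Slice.band_low_le hM hw.symm (hXu hu)
      have := sqrt_le_add (x := π * A) (mul_nonneg Real.pi_pos.le hu0)
      rw [← mul_sub] at this
      rw [← hw, add_zero]
      linarith
    · have hk : Real.sqrt (π * (1 - A)) ≤ l := Slice.cross_le hM (hY hw) (hXu hu)
      linarith
  · refine le_trans (Real.le_sqrt_of_sq_le ?_) hch
    rw [hXu h]
    nlinarith [sq_nonneg (leftHeight f - u)]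
  · refine le_trans (Real.le_sqrt_of_sq_le ?_) hch
    rw [hY h]
    nlinarith [sq_nonneg (botWidth f - w)]

/-! ## Volumes in the square -/

theorem square_slab (l : Fin 2) {h : ℝ} (h0 : 0 ≤ h) (h1 : h ≤ 1) {S : Set R2} :
    (S ⊆ square → (∀ y ∈ S, y l ≤ h) → volume.real S ≤ h) ∧
      (S ⊆ square → (∀ y ∈ square, y l < h → y ∈ S) → h ≤ volume.real S) := by
  have hfin : ∀ T : Set R2, T ⊆ square → volume T ≠ ⊤ := fun T hT =>
    ne_top_of_le_ne_top isCompact_Icc.measure_lt_top.ne (measure_mono hT)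
  have hv : ∀ I : Set ℝ, volume I = ENNReal.ofReal h →
      volume.real (univ.pi fun m => if m = l then I else Icc (0 : ℝ) 1 : Set R2) = h := by
    intro I hI
    rw [measureReal_def, volume_pi_pi, Fin.prod_univ_two]
    fin_cases l <;> simp [hI, h0]
  constructor
  · intro hS hy
    have hsub : S ⊆ univ.pi fun m => if m = l then Icc 0 h else Icc (0 : ℝ) 1 := fun y hyS m _ => by
      dsimp only
      split_ifs with hm
      · subst hm; exact ⟨(hS hyS).1 m, hy y hyS⟩
      · exact ⟨(hS hyS).1 m, (hS hyS).2 m⟩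
    refine (measureReal_mono hsub (hfin _ fun y hy' => ?_)).trans_eq
      (hv _ (by rw [Real.volume_Icc, sub_zero]))
    refine ⟨fun m => ?_, fun m => ?_⟩ <;> have := hy' m (mem_univ _) <;> dsimp only at this <;>
      split_ifs at this <;> simp only [mem_Icc, Pi.zero_apply, Pi.one_apply] at this ⊢ <;> linarith
  · intro hS hy
    refine (hv _ (by rw [Real.volume_Ico, sub_zero])).symm.trans_le
      (measureReal_mono (fun y hy' => hy y ⟨fun m => ?_, fun m => ?_⟩ ?_) (hfin S hS)) <;>
      [have := hy' m (mem_univ _); have := hy' m (mem_univ _); have := hy' l (mem_univ _)]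
    all_goals dsimp only at this
    all_goals split_ifs at this
    all_goals simp only [mem_Icc, mem_Ico, Pi.zero_apply, Pi.one_apply] at this ⊢
    all_goals first | linarith | exact absurd rfl (by assumption)

/-- **M2a.** -/
theorem slice (hLevel : LevelSpec) : SliceSpec := by
  intro L w d i j hdi hdj hij hlip h01 hanti hconst δ hδ hδ'
  obtain ⟨s, ⟨hs, hs'⟩, hD⟩ := hLevel L w hlip h01 hanti δ 0 δ (1 - δ) hδ le_rfl (by linarith)
    le_rfl le_rfl fun s _ M hM => by
      have := hM.bound (fun _ _ => 0) (fun _ => contDiff_const) (fun _ _ => by simp)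
      simpa [divergence, pd, flux] using this
  simp only [zero_mul, sub_zero, show 1 - δ - δ = 1 - 2 * δ by ring] at hD
  set I := (∫ x in box, gradNorm w x) / (1 - 2 * δ)
  set D := box ∩ {x | s < w x} with hDdef
  have hall : ∀ k, k = i ∨ k = j ∨ k = d :=
    (by decide : ∀ a b c : Fin 3, a ≠ b → a ≠ c → b ≠ c → ∀ k, k = b ∨ k = c ∨ k = a)
      d i j hdi hdj hij
  set W : ℝ → ℝ → ℝ := fun a b => w (mkPoint i j a b 0) with hW
  have hWc : ∀ a b c, w (mkPoint i j a b c) = W a b := fun a b c => by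
    rw [hW, ← hconst (mkPoint i j a b c) 0]
    congr 1
    funext k
    rcases hall k with rfl | rfl | rfl
    · simp [mkPoint, hdi.symm]
    · simp [mkPoint, hdj.symm]
    · simp [mkPoint, hdi, hdj]
  have hmem : ∀ {a b c}, a ∈ Icc (0 : ℝ) 1 → b ∈ Icc (0 : ℝ) 1 → c ∈ Icc (0 : ℝ) 1 →
      (mkPoint i j a b c ∈ D ↔ s < W a b) := fun {a b c} ha hb hc => by
    rw [hDdef, mem_inter_iff, mem_ofPred_eq, hWc]
    exact and_iff_right (mkPoint_mem_box ha hb hc)
  set F := heightExt D i j 0 with hF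
  have hFz : ∀ z, heightExt D i j z = F := fun z => by
    funext a
    rw [hF, heightExt, heightExt, height, height]
    congr 2
    ext b
    exact and_congr_right fun hb => by
      rw [hmem (clamp_mem a) hb (clamp_mem z), hmem (clamp_mem a) hb (clamp_mem 0)]
  have hfH : IsHeight F := isHeight_of_antitone (antitone_heightExt hD.down 0)
    (heightExt_mem D i j 0)
  have hlen : Slicing.len F ≤ I := by
    have := (P232.slicing D I hD i j hij (fun _ => 1) (fun _ => 0) continuous_const continuous_const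
      (fun _ => zero_le_one) (fun _ => le_rfl) (fun _ => by norm_num) (1 / 2)
      ⟨by norm_num, by norm_num⟩ (1 / 2) ⟨by norm_num, by norm_num⟩ le_rfl).2
    simpa [hFz] using this
  have hgoal := planar_facts hfH (lenGe_len (antitone_heightExt hD.down 0) (heightExt_mem D i j 0))
  set A := ∫ x in (0 : ℝ)..1, F x
  set u := rightHeight F
  set t := topWidth F
  obtain ⟨huA, htA, hprod, hsq, hu, ht⟩ := hgoal
  have hvol : volume.real D = A := by
    have := boxVolume_eq hD.down hD.subset hD.measurable hij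
    simpa [boxVolume, sliceArea, hFz] using this
  have hfin : ∀ S : Set R3, S ⊆ box → volume S ≠ ⊤ := fun S hS =>
    ne_top_of_le_ne_top (by simp [volume_box]) (measure_mono hS)
  obtain ⟨li, hli⟩ := Fin.exists_succAbove_eq hij.symm
  obtain ⟨lj, hlj⟩ := Fin.exists_succAbove_eq hij
  have hfi : ∀ y : R2, w (facePoint i 1 y) = W 1 (y li) := fun y => by
    have hj : facePoint i 1 y j = y li := by rw [← hli, facePoint_apply_succAbove]
    rw [← mkPoint_self hij hdi hdj hall (facePoint i 1 y), hWc, facePoint_apply_self, hj]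
  have hfj : ∀ y : R2, w (facePoint j 1 y) = W (y lj) 1 := fun y => by
    have hi : facePoint j 1 y i = y lj := by rw [← hlj, facePoint_apply_succAbove]
    rw [← mkPoint_self hij hdi hdj hall (facePoint j 1 y), hWc, facePoint_apply_self, hi]
  have hWcont : Continuous fun p : ℝ × ℝ => W p.1 p.2 := by
    refine hlip.continuous.comp (continuous_pi fun k => ?_)
    unfold mkPoint
    split_ifs <;> fun_prop
  have hFmem : ∀ {a b}, a ∈ Icc (0 : ℝ) 1 → 0 ≤ b → b < F a → s < W a b := fun {a b} ha hb h => by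
    rw [hF, heightExt_of_mem ⟨le_rfl, zero_le_one⟩ ha] at h
    exact (hmem ha ⟨hb, h.le.trans (height_mem D i j 0 a).2⟩ ⟨le_rfl, zero_le_one⟩).1
      (mem_of_lt_height hD.down ha hb ⟨le_rfl, zero_le_one⟩ h)
  have hFge : ∀ {a b}, a ∈ Icc (0 : ℝ) 1 → b ∈ Icc (0 : ℝ) 1 → s < W a b → b ≤ F a :=
    fun {a b} ha hb h => by
    rw [hF, heightExt_of_mem ⟨le_rfl, zero_le_one⟩ ha]
    exact le_height hb ((hmem ha hb ⟨le_rfl, zero_le_one⟩).2 h)
  have hcl : ∀ {a : ℝ}, a ∈ Icc (0 : ℝ) 1 → a ∈ closure (Ioo (0 : ℝ) 1) := fun ha => by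
    rwa [closure_Ioo zero_ne_one]
  have hu1 : u ≤ 1 := huA.trans (hfH.slice.A_le_X.trans hfH.slice.X_le)
  have hu0 : 0 ≤ u := hfH.slice.u_nonneg
  have ht0 : 0 ≤ t := hfH.slice.w_nonneg
  have ht1 : t ≤ 1 := (IsHeight.topWidth_mem (f := F)).2
  refine ⟨A, u, t, ?_, ?_, ?_, ?_, ?_, ?_, huA, htA, hprod, hsq.trans hlen,
    fun h => (hu h).trans hlen,
    fun h => (ht h).trans hlen⟩
  · rw [← hvol]
    exact measureReal_mono (fun x hx => ⟨hx.1, hs'.trans hx.2⟩) (hfin _ inter_subset_left)
  · rw [← hvol]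
    exact measureReal_mono (fun x hx => ⟨hx.1, hs.trans hx.2⟩) (hfin _ inter_subset_left)
  · refine (square_slab li hu0 hu1).1 inter_subset_left fun y ⟨hy, hyw⟩ => ?_
    simp only [mem_ofPred_eq, hfi] at hyw
    have hb : y li ∈ Icc (0 : ℝ) 1 := ⟨hy.1 li, hy.2 li⟩
    refine le_csInf ((nonempty_Ioo.2 zero_lt_one).image _) ?_
    rintro _ ⟨x, hx, rfl⟩
    exact (hFge ⟨zero_le_one, le_rfl⟩ hb (hs'.trans hyw)).trans
      (antitone_heightExt hD.down 0 hx.2.le)
  · refine (square_slab li hu0 hu1).2 inter_subset_left fun y hy hyu => ⟨hy, ?_⟩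
    simp only [mem_ofPred_eq, hfi]
    refine hs.trans_le ?_
    have h1 : ∀ x ∈ Ioo (0 : ℝ) 1, s ≤ W x (y li) := fun x hx =>
      (hFmem (Ioo_subset_Icc_self hx) (hy.1 li) (hyu.trans_le (hfH.rightHeight_le hx))).le
    exact le_on_closure h1 continuousOn_const
      (hWcont.comp (continuous_id.prodMk continuous_const)).continuousOn (hcl ⟨zero_le_one, le_rfl⟩)
  · refine (square_slab lj ht0 ht1).1 inter_subset_left fun y ⟨hy, hyw⟩ => ?_
    simp only [mem_ofPred_eq, hfj] at hyw
    have ha : y lj ∈ Icc (0 : ℝ) 1 := ⟨hy.1 lj, hy.2 lj⟩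
    refine le_of_forall_lt_imp_le_of_dense fun x hx => ?_
    rcases le_or_gt x 0 with h0 | h0
    · exact h0.trans ht0
    refine le_csSup (IsHeight.bdd _) (mem_insert_of_mem _ ⟨⟨h0, hx.trans_le ha.2⟩, ?_⟩)
    exact (hFge ha ⟨zero_le_one, le_rfl⟩ (hs'.trans hyw)).trans (antitone_heightExt hD.down 0 hx.le)
  · refine (square_slab lj ht0 ht1).2 inter_subset_left fun y hy hyt => ⟨hy, ?_⟩
    simp only [mem_ofPred_eq, hfj]
    refine hs.trans_le ?_
    have hF1 : F (y lj) = 1 := by
      obtain ⟨x, hx, hlt⟩ := exists_lt_of_lt_csSup (insert_nonempty _ _) hyt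
      rcases hx with rfl | hx
      · exact absurd hlt (hy.1 lj).not_gt
      exact le_antisymm (heightExt_mem D i j 0 _).2
        (hx.2.trans (antitone_heightExt hD.down 0 hlt.le))
    have h1 : ∀ b ∈ Ioo (0 : ℝ) 1, s ≤ W (y lj) b := fun b hb =>
      (hFmem ⟨hy.1 lj, hy.2 lj⟩ hb.1.le (hF1 ▸ hb.2)).le
    exact le_on_closure h1 continuousOn_const
      (hWcont.comp (continuous_const.prodMk continuous_id)).continuousOn (hcl ⟨zero_le_one, le_rfl⟩)

end Vale.Agent.P232.Rigid
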