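import Vale.Agent.P232.Rigid.Stable
import Vale.Agent.P232.Rigid.Assembly
import Vale.Agent.P232.Rigid.Partial
import Vale.Agent.P232.Rigid.LevelSel
import Vale.Agent.P232.Rigid.Slice
import Vale.Agent.P232.Rigid.Shape
import Vale.Agent.P232.Rigid.Circle
import Vale.Agent.P232.Rigid.Side
import Vale.Agent.P232.Rigid.FaceStable

/-!
# P232 rigidity: every minimiser below `13/50` and above `37/50`
-/

open MeasureTheory Set Filter
open scoped Real Topology

noncomputable section

namespace Vale.Agent.P232.Rigid

/-- Bound and stability at the smaller volume classify the minimisers. -/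
theorem classifiedAt_of {V : ℝ} (hV : V ∈ Ioo (0 : ℝ) 1)
    (hB : ∀ᶠ W in 𝓝 (min V (1 - V)), ReducedBoundAt W) (hS : StableSpec (min V (1 - V))) :
    ClassifiedAt V :=
  assembly (side partialSymm levelSel (slice levelSel)) circle shape V hV hB
    (faceSpec_of_stable levelSel (le_min hV.1.le (by linarith [hV.2]))
      ((min_le_left _ _).trans hV.2.le) hB hS)

/-- Bound and stability of faces at the smaller volume classify the minimisers. -/
theorem classifiedAt_of_face {V : ℝ} (hV : V ∈ Ioo (0 : ℝ) 1)
    (hB : ∀ᶠ W in 𝓝 (min V (1 - V)), ReducedBoundAt W) (hS : FaceSpec (min V (1 - V))) :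
    ClassifiedAt V :=
  assembly (side partialSymm levelSel (slice levelSel)) circle shape V hV hB hS

/-- Minimisers in the phase 1 range. -/
theorem classified_phase1 {V : ℝ} (hV0 : 0 < V) (hV1 : V < 1) (hV : min V (1 - V) < 13 / 50) :
    ClassifiedAt V := by
  have hm : 0 < min V (1 - V) := lt_min hV0 (by linarith)
  refine classifiedAt_of ⟨hV0, hV1⟩ ?_ (stable_phase1 hm hV)
  filter_upwards [Ioo_mem_nhds hm hV] with W hW
  exact Phase1.bound_of_cover Phase1.Cover.coverSpec W hW.1 (hW.2.trans (by norm_num))
    (Or.inl hW.2.le)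

end Vale.Agent.P232.Rigid
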