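import Vale.Agent.P232.Rigid.SideLimit

/-!
# P232 rigidity: layers of a nearly optimal symmetric function are nearly optimal
-/

open MeasureTheory Set Filter
open scoped ENNReal NNReal Real Topology

noncomputable section

namespace Vale.Agent.P232.Rigid

/-- The layer between the levels `a` and `b`. -/
def clampFun (a b r : ℝ) : ℝ := max 0 (min 1 ((r - a) / (b - a)))

variable {a b : ℝ}

theorem clampFun_mem (a b r : ℝ) : clampFun a b r ∈ Icc (0 : ℝ) 1 :=
  ⟨le_max_left _ _, max_le zero_le_one (min_le_left _ _)⟩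

theorem continuous_clampFun (a b : ℝ) : Continuous (clampFun a b) := by
  unfold clampFun; fun_prop

theorem monotone_clampFun (hab : a < b) : Monotone (clampFun a b) := fun r s h =>
  max_le_max le_rfl (min_le_min le_rfl
    (div_le_div_of_nonneg_right (by linarith) (by linarith)))

theorem clampFun_eq_zero (hab : a < b) {r : ℝ} (h : r ≤ a) : clampFun a b r = 0 :=
  max_eq_left ((min_le_right _ _).trans (div_nonpos_of_nonpos_of_nonneg (by linarith) (by linarith)))

theorem clampFun_eq_one (hab : a < b) {r : ℝ} (h : b ≤ r) : clampFun a b r = 1 := by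
  rw [clampFun, min_eq_left ((one_le_div (by linarith)).2 (by linarith)), max_eq_right zero_le_one]

theorem clampFun_eq_mid (hab : a < b) {r : ℝ} (h1 : a ≤ r) (h2 : r ≤ b) :
    clampFun a b r = (r - a) / (b - a) := by
  rw [clampFun, min_eq_right ((div_le_one (by linarith)).2 (by linarith)),
    max_eq_right (div_nonneg (by linarith) (by linarith))]

theorem clampFun_eq_minmax (hab : a < b) (r : ℝ) :
    clampFun a b r = (min (max r a) b - a) / (b - a) := by
  rcases le_total r a with h | h
  · rw [clampFun_eq_zero hab h, max_eq_right h, min_eq_left hab.le, sub_self, zero_div]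
  · rw [max_eq_left h]
    rcases le_total r b with h' | h'
    · rw [min_eq_left h', clampFun_eq_mid hab h h']
    · rw [min_eq_right h', clampFun_eq_one hab h', div_self (by linarith)]

/-- On `[0,1]` a layer differs from the identity by at most a multiple of `r (1 - r)`. -/
theorem clampFun_sub_le (ha : 0 ≤ a) (hab : a < b) (hb : b ≤ 1) {r : ℝ} (hr : r ∈ Icc (0 : ℝ) 1) :
    |clampFun a b r - r| ≤ 2 * (1 / b + 1 / (1 - a)) * (r * (1 - r)) ∧
      clampFun a b r * (1 - clampFun a b r) ≤ 2 * (1 / b + 1 / (1 - a)) * (r * (1 - r)) := by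
  obtain ⟨hr0, hr1⟩ := hr
  have hb0 : 0 < b := by linarith
  have ha1 : 0 < 1 - a := by linarith
  obtain ⟨c0, c1⟩ := clampFun_mem a b r
  have h1 : clampFun a b r ≤ r / b := by
    rw [le_div_iff₀ hb0]
    rcases le_total r a with h | h
    · rw [clampFun_eq_zero hab h]; linarith
    rcases le_total r b with h' | h'
    · rw [clampFun_eq_mid hab h h', div_mul_eq_mul_div, div_le_iff₀ (by linarith)]
      nlinarith
    · rw [clampFun_eq_one hab h']; linarith
  have h2 : 1 - clampFun a b r ≤ (1 - r) / (1 - a) := by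
    rw [le_div_iff₀ ha1]
    rcases le_total r a with h | h
    · rw [clampFun_eq_zero hab h]; linarith
    rcases le_total r b with h' | h'
    · rw [clampFun_eq_mid hab h h', one_sub_div (by linarith), div_mul_eq_mul_div,
        div_le_iff₀ (by linarith)]
      nlinarith
    · rw [clampFun_eq_one hab h']; linarith
  have hK : 0 ≤ 1 / b + 1 / (1 - a) := by positivity
  have hm : min r (1 - r) ≤ 2 * (r * (1 - r)) := by
    rcases le_total r (1 - r) with h | h
    · rw [min_eq_left h]; nlinarith
    · rw [min_eq_right h]; nlinarith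
  have e1 : r / b ≤ (1 / b + 1 / (1 - a)) * r := by
    have : 0 ≤ r / (1 - a) := by positivity
    rw [show (1 / b + 1 / (1 - a)) * r = r / b + r / (1 - a) by ring]
    linarith
  have e2 : (1 - r) / (1 - a) ≤ (1 / b + 1 / (1 - a)) * (1 - r) := by
    have : 0 ≤ (1 - r) / b := div_nonneg (by linarith) hb0.le
    rw [show (1 / b + 1 / (1 - a)) * (1 - r) = (1 - r) / b + (1 - r) / (1 - a) by ring]
    linarith
  have e3 : r ≤ r / b := by
    rw [le_div_iff₀ hb0]; nlinarith
  have e4 : 1 - r ≤ (1 - r) / (1 - a) := by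
    rw [le_div_iff₀ ha1]; nlinarith
  constructor
  · refine le_trans ?_ (le_of_le_of_eq (mul_le_mul_of_nonneg_left hm hK) (by ring))
    rw [mul_min_of_nonneg _ _ hK, le_min_iff, abs_le, abs_le]
    refine ⟨⟨?_, ?_⟩, ?_, ?_⟩ <;> linarith
  · refine le_trans ?_ (le_of_le_of_eq (mul_le_mul_of_nonneg_left hm hK) (by ring))
    rw [mul_min_of_nonneg _ _ hK, le_min_iff]
    constructor <;> nlinarith

variable {L : ℝ≥0} {w : R3 → ℝ}

theorem symm_clamp (hab : a < b) (hsd : IsSymmDecreasing w) :
    IsSymmDecreasing fun x => clampFun a b (w x) := fun i x s t hst ht =>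
  monotone_clampFun hab (hsd i x s t hst ht)

theorem mem_clamp (hab : a < b) (hw : w ∈ lipClass L) :
    (fun x => clampFun a b (w x)) ∈ lipClass (Real.toNNReal (1 / (b - a)) * L) := by
  refine ⟨?_, fun x i => congrArg (clampFun a b) (hw.2.1 x i), fun x => clampFun_mem a b _⟩
  refine LipschitzWith.comp (f := clampFun a b) ?_ hw.1
  refine (LipschitzWith.const_min (LipschitzWith.of_dist_le_mul fun r s => ?_) 1).const_max 0
  rw [Real.coe_toNNReal _ (by have := sub_pos.2 hab; positivity), Real.dist_eq, Real.dist_eq,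
    ← sub_div, abs_div, abs_of_pos (sub_pos.2 hab), sub_sub_sub_cancel_right]
  exact le_of_eq (by ring)

theorem gradNorm_affine {f : R3 → ℝ} {x : R3} (hf : DifferentiableAt ℝ f x) {c e : ℝ} (hc : 0 ≤ c) :
    gradNorm (fun y => c * (f y - e)) x = c * gradNorm f x := by
  have h : fderiv ℝ (fun y => c * (f y - e)) x = c • fderiv ℝ f x :=
    ((hf.hasFDerivAt.sub_const e).const_mul c).fderiv
  simp only [gradNorm, pd, h, FunLike.coe_smul, Pi.smul_apply, smul_eq_mul, mul_pow,
    ← Finset.mul_sum]
  rw [Real.sqrt_mul (sq_nonneg c), Real.sqrt_sq hc]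

theorem gradNorm_const (c : ℝ) (x : R3) : gradNorm (fun _ : R3 => c) x = 0 := by
  simp [gradNorm, pd]

/-- The three layers share the gradient. -/
theorem energy_layers (ha : 0 < a) (hab : a < b) (hb : b < 1) (hw : w ∈ lipClass L) :
    a * (∫ x in cell, gradNorm (fun y => clampFun 0 a (w y)) x) +
      (b - a) * (∫ x in cell, gradNorm (fun y => clampFun a b (w y)) x) +
      (1 - b) * (∫ x in cell, gradNorm (fun y => clampFun b 1 (w y)) x) =
        ∫ x in cell, gradNorm w x := by
  obtain ⟨hwL, hwp, hw01⟩ := hw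
  set R : R3 → ℝ := fun y => max (w y) a with hR
  set x1 : R3 → ℝ := fun y => min (w y) a with hx1
  set x2 : R3 → ℝ := fun y => min (R y) b with hx2
  set x3 : R3 → ℝ := fun y => max (R y) b with hx3
  have lR : LipschitzWith L R := hwL.max_const a
  have l1 : LipschitzWith L x1 := hwL.min_const a
  have l2 : LipschitzWith L x2 := lR.min_const b
  have l3 : LipschitzWith L x3 := lR.max_const b
  have f1 : (fun y => clampFun 0 a (w y)) = fun y => a⁻¹ * (x1 y - 0) := funext fun y => by
    rw [clampFun_eq_minmax ha, max_eq_left (hw01 y).1, div_eq_inv_mul, sub_zero a]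
  have f2 : (fun y => clampFun a b (w y)) = fun y => (b - a)⁻¹ * (x2 y - a) := funext fun y => by
    rw [clampFun_eq_minmax hab, div_eq_inv_mul]
  have f3 : (fun y => clampFun b 1 (w y)) = fun y => (1 - b)⁻¹ * (x3 y - b) := funext fun y => by
    rw [clampFun_eq_minmax hb, div_eq_inv_mul, min_eq_left (max_le (hw01 y).2 hb.le)]
    show _ = (1 - b)⁻¹ * (max (max (w y) a) b - b)
    rw [max_assoc, max_eq_right hab.le]
  have hae : ∀ᵐ x ∂volume.restrict cell,
      a * gradNorm (fun y => clampFun 0 a (w y)) x +
        (b - a) * gradNorm (fun y => clampFun a b (w y)) x +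
        (1 - b) * gradNorm (fun y => clampFun b 1 (w y)) x = gradNorm w x := by
    refine ae_restrict_of_ae ?_
    filter_upwards [hwL.ae_differentiableAt, lR.ae_differentiableAt, l1.ae_differentiableAt,
      l2.ae_differentiableAt, l3.ae_differentiableAt] with x dw dR d1 d2 d3
    rw [f1, f2, f3, gradNorm_affine d1 (inv_nonneg.2 ha.le),
      gradNorm_affine d2 (inv_nonneg.2 (sub_nonneg.2 hab.le)),
      gradNorm_affine d3 (inv_nonneg.2 (sub_nonneg.2 hb.le)), mul_inv_cancel_left₀ ha.ne',
      mul_inv_cancel_left₀ (sub_pos.2 hab).ne', mul_inv_cancel_left₀ (sub_pos.2 hb).ne']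
    have e1 := gradNorm_max_min dw (differentiableAt_const a) dR d1 EventuallyEq.rfl EventuallyEq.rfl
    have e2 := gradNorm_max_min dR (differentiableAt_const b) d3 d2 EventuallyEq.rfl EventuallyEq.rfl
    rw [gradNorm_const] at e1 e2
    linarith
  have hint : ∀ {p q : ℝ}, p < q → IntegrableOn (gradNorm fun y => clampFun p q (w y)) cell :=
    fun h => integrableOn_gradNorm (mem_clamp h (L := L) (w := w) ⟨hwL, hwp, hw01⟩).1
  rw [← integral_const_mul, ← integral_const_mul, ← integral_const_mul,
    ← integral_add ((hint ha).const_mul _) ((hint hab).const_mul _),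
    ← integral_add (((hint ha).const_mul _).fun_add ((hint hab).const_mul _)) ((hint hb).const_mul _)]
  exact integral_congr_ae hae

/-- The layers of a nearly optimal function are nearly optimal. -/
theorem layer_spec (hP : PartialSpec) {V : ℝ} (h0 : 0 ≤ V) (h1 : V ≤ 1)
    (hev : ∀ᶠ W in 𝓝 V, ReducedBoundAt W) (ha : 0 < a) (hab : a < b) (hb : b < 1) {ε : ℝ}
    (hε : 0 < ε) :
    ∃ δ : ℝ, 0 < δ ∧ ∀ (L : ℝ≥0) (w : R3 → ℝ), w ∈ lipClass L →
      |(∫ x in cell, w x) - V| < δ → (∫ x in cell, w x * (1 - w x)) < δ →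
      (∫ x in cell, gradNorm w x) ≤ candidate V + δ →
        |(∫ x in cell, clampFun a b (w x)) - V| < ε ∧
          (∫ x in cell, clampFun a b (w x) * (1 - clampFun a b (w x))) < ε ∧
          (∫ x in cell, gradNorm (fun y => clampFun a b (w y)) x) ≤ candidate V + ε := by
  have hba : 0 < b - a := sub_pos.2 hab
  obtain ⟨δ₁, hδ₁, hlow⟩ := energy_lower hP h0 h1 hev (η := ε * (b - a) / 2) (by positivity)
  set K := max (2 * (1 / a + 1)) (max (2 * (1 / b + 1 / (1 - a))) (2 * (1 + 1 / (1 - b)))) with hK
  have hK0 : 0 < K := lt_max_of_lt_left (by positivity)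
  set δ := min (min (ε / 2) (ε * (b - a) / 2)) (min δ₁ ε / (2 * (K + 1))) with hδ
  refine ⟨δ, lt_min (lt_min (by positivity) (by positivity))
    (div_pos (lt_min hδ₁ hε) (by positivity)), fun L w hw hA hQ hE => ?_⟩
  have hδK : δ * (2 * (K + 1)) ≤ min δ₁ ε :=
    (le_div_iff₀ (by positivity)).1 (min_le_right _ _)
  have hQ0 : 0 ≤ ∫ x in cell, w x * (1 - w x) := setIntegral_nonneg measurableSet_cell fun x _ =>
    mul_nonneg (hw.2.2 x).1 (sub_nonneg.2 (hw.2.2 x).2)
  have key : ∀ {p q k : ℝ}, 0 ≤ p → p < q → q ≤ 1 → 2 * (1 / q + 1 / (1 - p)) ≤ k → k ≤ K →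
      |(∫ x in cell, clampFun p q (w x)) - V| < min δ₁ ε ∧
        (∫ x in cell, clampFun p q (w x) * (1 - clampFun p q (w x))) < min δ₁ ε := by
    intro p q k hp hpq hq hk hkK
    have hc := (continuous_clampFun p q).comp hw.1.continuous
    have iw : IntegrableOn (fun x => w x * (1 - w x)) cell :=
      integrableOn_cell_of_continuous (hw.1.continuous.mul (continuous_const.sub hw.1.continuous))
    have h2 : 2 * (1 / q + 1 / (1 - p)) * (∫ x in cell, w x * (1 - w x)) ≤ K * δ :=
      mul_le_mul (hk.trans hkK) hQ.le hQ0 hK0.le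
    constructor
    · have h := abs_sub_le (∫ x in cell, clampFun p q (w x)) (∫ x in cell, w x) V
      have h' : |(∫ x in cell, clampFun p q (w x)) - ∫ x in cell, w x| ≤
          2 * (1 / q + 1 / (1 - p)) * ∫ x in cell, w x * (1 - w x) := by
        rw [← integral_sub (integrableOn_cell_of_continuous (f := fun x => clampFun p q (w x)) hc)
          (integrableOn_cell_of_continuous hw.1.continuous), ← integral_const_mul]
        refine (abs_integral_le_integral_abs).trans (setIntegral_mono_on ?_ (iw.const_mul _)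
          measurableSet_cell fun x _ => (clampFun_sub_le hp hpq hq (hw.2.2 x)).1)
        exact integrableOn_cell_of_continuous (hc.sub hw.1.continuous).abs
      nlinarith [lt_min hδ₁ hε]
    · have h' : (∫ x in cell, clampFun p q (w x) * (1 - clampFun p q (w x))) ≤
          2 * (1 / q + 1 / (1 - p)) * ∫ x in cell, w x * (1 - w x) := by
        rw [← integral_const_mul]
        refine setIntegral_mono_on ?_ (iw.const_mul _) measurableSet_cell
          fun x _ => (clampFun_sub_le hp hpq hq (hw.2.2 x)).2
        exact integrableOn_cell_of_continuous (hc.mul (continuous_const.sub hc))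
      nlinarith [lt_min hδ₁ hε]
  obtain ⟨v1, q1⟩ := key (p := 0) (q := a) le_rfl ha (by linarith) le_rfl
    ((le_max_left _ _).trans_eq' (by norm_num))
  obtain ⟨v2, q2⟩ := key ha.le hab hb.le le_rfl ((le_max_left _ _).trans (le_max_right _ _))
  obtain ⟨v3, q3⟩ := key (p := b) (q := 1) (by linarith) hb le_rfl le_rfl
    (((le_max_right _ _).trans (le_max_right _ _)).trans_eq' (by norm_num))
  refine ⟨v2.trans_le (min_le_right _ _), q2.trans_le (min_le_right _ _), ?_⟩
  have e1 := hlow _ _ (mem_clamp ha hw) (v1.trans_le (min_le_left _ _)) (q1.trans_le (min_le_left _ _))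
  have e3 := hlow _ _ (mem_clamp hb hw) (v3.trans_le (min_le_left _ _)) (q3.trans_le (min_le_left _ _))
  have := energy_layers ha hab hb hw
  have f1 := mul_le_mul_of_nonneg_left e1 ha.le
  have f3 := mul_le_mul_of_nonneg_left e3 (sub_nonneg.2 hb.le)
  have hδ' : δ ≤ ε * (b - a) / 2 := (min_le_left _ _).trans (min_le_right _ _)
  have : 0 ≤ ε * (b - a) * (b - a) := by positivity
  nlinarith

/-- The trace of a layer lies between the face areas at its two levels. -/
theorem trace_layer (hab : a < b) (hw : w ∈ lipClass L) (hsd : IsSymmDecreasing w) (i : Fin 3) :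
    faceArea w i b ≤ planeInt (fun x => clampFun a b (w x)) i (1 / 2) ∧
      planeInt (fun x => clampFun a b (w x)) i (1 / 2) ≤ faceArea w i a := by
  rw [planeInt_face hw hsd (continuous_clampFun a b) i]
  have hW := lipClass_half hw
  have hc : Continuous fun y => half w (facePoint i 1 y) :=
    hW.1.continuous.comp (continuous_facePoint' i 1)
  have hi : IntegrableOn (fun y => clampFun a b (half w (facePoint i 1 y))) square :=
    ((continuous_clampFun a b).comp hc).continuousOn.integrableOn_compact isCompact_Icc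
  refine ⟨measureReal_lt_le_integral measurableSet_square (by simp [volume_square]) hc.measurable
    hi (fun r => (clampFun_mem a b r).1) fun r hr => (clampFun_eq_one hab hr.le).ge, ?_⟩
  refine integral_le_measureReal_lt measurableSet_square (by simp [volume_square]) hc.measurable
    (φ := clampFun a b) hi (fun r => (clampFun_mem a b r).2)
    fun r hr => (clampFun_eq_zero hab hr).le

end Vale.Agent.P232.Rigid
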