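import Vale.Agent.P232.Rigid.Stable.Form
import Vale.Agent.P232.Rigid.Stable.CoverGap
import Vale.Agent.P232.Phase1.Bound

/-!
# P232 rigidity: stability of the phase 1 bound

`StableSpec V` for `0 < V < 13/50`: along a failing sequence the end areas converge, the closed
bounds of cases A and B pass to the limit and force the end areas of a ball or of a tube; case C
has slack.
-/

open MeasureTheory Set Filter
open scoped ENNReal Real Topology

noncomputable section

namespace Vale.Agent.P232.Rigid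

open Phase1 (endTop endBot)
open BandFree (jrel)

variable {D : Set R3} {M : ℝ} {i j k : Fin 3}

theorem facePoint_eq_update (k : Fin 3) (t : ℝ) (x : R3) (y : R2)
    (hy : ∀ l, y l = x (k.succAbove l)) : facePoint k t y = Function.update x k t := by
  funext l
  by_cases hl : l = k
  · subst hl; simp [facePoint]
  · obtain ⟨m, rfl⟩ := Fin.exists_succAbove_eq hl
    simp [facePoint, Fin.succAbove_ne, hy]

theorem face_area_eq (hdown : ∀ x ∈ D, ∀ y ∈ box, y ≤ x → y ∈ D) (hm : MeasurableSet D)
    (hij : i ≠ j) (hki : k ≠ i) (hkj : k ≠ j) {t : ℝ} (ht : t ∈ Icc (0 : ℝ) 1) :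
    volume.real (square ∩ facePoint k t ⁻¹' D) = sliceArea D i j t := by
  set Dt : Set R3 := box ∩ (fun x => Function.update x k t) ⁻¹' D with hDt
  have hcu : Measurable fun x : R3 => Function.update x k t :=
    (continuous_id.update k continuous_const).measurable
  have hmem : ∀ x ∈ box, Function.update x k t ∈ box := fun x hx => by
    refine ⟨fun l => ?_, fun l => ?_⟩ <;> by_cases hl : l = k
    · subst hl; simpa using ht.1
    · simpa [hl] using hx.1 l
    · subst hl; simpa using ht.2
    · simpa [hl] using hx.2 l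
  have hdt : ∀ x ∈ Dt, ∀ y ∈ box, y ≤ x → y ∈ Dt := fun x hx y hy hyx =>
    ⟨hy, hdown _ hx.2 _ (hmem y hy) fun l => by
      by_cases hl : l = k
      · subst hl; simp
      · simpa [hl] using hyx l⟩
  have hvol := boxVolume_eq (i := i) (j := j) hdt inter_subset_left
    (measurableSet_box.inter (hm.preimage hcu)) hij
  have hs : ∀ c, sliceArea Dt i j c = sliceArea D i j t := by
    intro c
    refine intervalIntegral.integral_congr fun a _ => ?_
    simp only [heightExt, height]
    congr 2
    ext b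
    have hb : ∀ b : ℝ, Function.update (mkPoint i j (clamp a) b (clamp c)) k t =
        mkPoint i j (clamp a) b (clamp t) := fun b => by
      funext l
      by_cases hl : l = k
      · subst hl; simp [mkPoint, hki, hkj, clamp_of_mem ht]
      · obtain ⟨k', hk'i, hk'j, hall⟩ := exists_third hij
        have hkk : k' = k := by rcases hall k with h | h | h <;> simp_all
        rcases hall l with h | h | h
        · subst h; simp [mkPoint, hl]
        · subst h; simp [mkPoint, hl]
        · exact absurd (h.trans hkk) hl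
    constructor
    · rintro ⟨hb01, -, hD⟩
      exact ⟨hb01, by rwa [mem_preimage, hb] at hD⟩
    · rintro ⟨hb01, hD⟩
      exact ⟨hb01, mkPoint_mem_box (clamp_mem a) hb01 (clamp_mem c), by rwa [mem_preimage, hb]⟩
  simp only [hs, intervalIntegral.integral_const, sub_zero, one_smul] at hvol
  rw [← hvol, boxVolume]
  set e := MeasurableEquiv.piFinSuccAbove (fun _ : Fin 3 => ℝ) k
  have hset : Dt = e ⁻¹' (Icc (0 : ℝ) 1 ×ˢ (square ∩ facePoint k t ⁻¹' D)) := by
    ext x
    have he : ∀ l, (e x).2 l = x (k.succAbove l) := fun l => rfl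
    have he1 : (e x).1 = x k := rfl
    simp only [Dt, mem_inter_iff, mem_preimage, mem_prod]
    rw [facePoint_eq_update k t x _ he, he1]
    constructor
    · rintro ⟨hx, hD⟩
      exact ⟨⟨hx.1 k, hx.2 k⟩, ⟨fun l => hx.1 _, fun l => hx.2 _⟩, hD⟩
    · rintro ⟨h1, h2, hD⟩
      refine ⟨⟨fun l => ?_, fun l => ?_⟩, hD⟩ <;> by_cases hl : l = k
      · subst hl; exact h1.1
      · obtain ⟨m, rfl⟩ := Fin.exists_succAbove_eq hl
        exact h2.1 m
      · subst hl; exact h1.2
      · obtain ⟨m, rfl⟩ := Fin.exists_succAbove_eq hl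
        exact h2.2 m
  rw [hset, measureReal_def, measureReal_def,
    (volume_preserving_piFinSuccAbove (fun _ : Fin 3 => ℝ) k).measure_preimage
      ((measurableSet_Icc.prod (measurableSet_square.inter
        (hm.preimage (continuous_facePoint' k t).measurable))).nullMeasurableSet),
    Measure.volume_eq_prod, Measure.prod_prod, Real.volume_Icc]
  simp

theorem endArea_eq_endTop (hdown : ∀ x ∈ D, ∀ y ∈ box, y ≤ x → y ∈ D) (hm : MeasurableSet D)
    (hij : i ≠ j) (hki : k ≠ i) (hkj : k ≠ j) : endArea D k = endTop D i j := by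
  rw [endArea, endTop, sInf_image']
  congr 1
  funext t
  exact face_area_eq hdown hm hij hki hkj (Ioo_subset_Icc_self t.2)

theorem tendsto_unique_end (hdown : ∀ x ∈ D, ∀ y ∈ box, y ≤ x → y ∈ D) {c : ℝ}
    (h : Tendsto (sliceArea D i j) (𝓝[<] 1) (𝓝 c)) : endTop D i j = c :=
  tendsto_nhds_unique (Phase1.tendsto_ends hdown).1 h

/-- When all slices are at most `1/π`, little length is left for bands and crosses. -/
theorem others_bound (h : IsReduced D M) (hij : i ≠ j) (hki : k ≠ i) (hkj : k ≠ j)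
    (hall : ∀ l, l = i ∨ l = j ∨ l = k) (hb : endBot D i j ≤ 1 / π) {l : Fin 3} (hl : l ≠ k) :
    (1 - Real.sqrt (π * endTop D i j)) * endArea D l ≤ M - Real.sqrt (π * endTop D i j) := by
  have hdown := h.down
  set a := endTop D i j with ha
  set r := Real.sqrt (π * a)
  set L : ℝ → ℝ := fun z => Slicing.len (heightExt D i j z)
  have hπ := Real.pi_pos
  have ha0 : 0 ≤ a := Phase1.endTop_nonneg hdown
  have hab : a ≤ endBot D i j := (Phase1.sliceArea_mem_ends hdown (z := 1 / 2)
    ⟨by norm_num, by norm_num⟩).1.trans (Phase1.sliceArea_mem_ends hdown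
    (z := 1 / 2) ⟨by norm_num, by norm_num⟩).2
  have hr1 : r ≤ 1 := Real.sqrt_le_one.2 (by
    calc π * a ≤ π * (1 / π) := mul_le_mul_of_nonneg_left (hab.trans hb) hπ.le
      _ = 1 := by field_simp)
  obtain ⟨hLI, hLM⟩ := slicing D M h i j hij (fun _ => 1) (fun _ => 0) continuous_const
    continuous_const (fun _ => zero_le_one) (fun _ => le_rfl) (fun _ => by norm_num) (1 / 2)
    ⟨by norm_num, by norm_num⟩ (1 / 2) ⟨by norm_num, by norm_num⟩ le_rfl
  simp only [one_mul, intervalIntegral.integral_zero, add_zero] at hLI hLM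
  have pw : ∀ z ∈ Ioo (0 : ℝ) 1, ∀ g, (g = rightHeight (heightExt D i j z) ∨
      g = topWidth (heightExt D i j z)) → r + (1 - r) * g ≤ L z := by
    intro z hz g hg
    have hf := isHeight_of_antitone (antitone_heightExt (i := i) (j := j) hdown z)
      (heightExt_mem D i j z)
    have hM : hf.slice.Master (L z) :=
      hf.master (lenGe_len (antitone_heightExt hdown z) (heightExt_mem D i j z))
    set s := hf.slice
    have hsA : s.A = sliceArea D i j z := rfl
    have hg' : g = s.u ∨ g = s.w := hg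
    have hA := Phase1.sliceArea_mem_ends hdown (i := i) (j := j) hz
    rw [← hsA, ← ha] at hA
    have hAπ : s.A ≤ 1 / π := hA.2.trans hb
    have hπ2 : 1 / π ≤ 1 / 2 := by
      rw [div_le_div_iff₀ hπ two_pos]; linarith [Real.pi_gt_three]
    have hg1 : 0 ≤ g ∧ g ≤ 1 := by
      rcases hg' with rfl | rfl
      exacts [⟨s.u_nonneg, s.u_le.trans s.Y_le⟩, ⟨s.w_nonneg, s.w_le.trans s.X_le⟩]
    by_cases hone : 1 ≤ L z
    · nlinarith [mul_nonneg (sub_nonneg.2 hr1) (sub_nonneg.2 hg1.2)]
    · have huw : s.u = 0 ∧ s.w = 0 := by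
        rcases s.u_nonneg.eq_or_lt with hu | hu <;> rcases s.w_nonneg.eq_or_lt with hw | hw
        · exact ⟨hu.symm, hw.symm⟩
        · refine absurd (le_trans (Real.le_sqrt_of_sq_le ?_) (Slice.chord_le hM)) hone
          rw [s.Y_eq hw, ← hu]; nlinarith [sq_nonneg (s.X - s.w)]
        · refine absurd (le_trans (Real.le_sqrt_of_sq_le ?_) (Slice.chord_le hM)) hone
          have hX : s.X = 1 := by
            by_contra hne
            exact hu.ne' (s.u_eq (lt_of_le_of_ne s.X_le hne))
          rw [hX, ← hw]; nlinarith [sq_nonneg (s.Y - s.u)]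
        · have hX : s.X = 1 := by
            by_contra hne
            exact hu.ne' (s.u_eq (lt_of_le_of_ne s.X_le hne))
          refine absurd (le_trans (Real.one_le_sqrt.2 ?_)
            (Slice.cross_le hM (s.Y_eq hw) hX)) hone
          have e : π * (1 / π) = 1 := by field_simp
          nlinarith [mul_le_mul_of_nonneg_left hAπ hπ.le, Real.pi_gt_three]
      have hg0 : g = 0 := by rcases hg' with rfl | rfl; exacts [huw.1, huw.2]
      rw [hg0, mul_zero, add_zero]
      refine le_trans (Real.sqrt_le_sqrt (mul_le_mul_of_nonneg_left hA.1 hπ.le)) ?_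
      have := s.island_le hM huw.2 huw.1
      exact this
  have key : ∀ g : ℝ → ℝ, Antitone g → (∀ z ∈ Ioo (0 : ℝ) 1, r + (1 - r) * g z ≤ L z) →
      (1 - r) * ∫ z in (0 : ℝ)..1, g z ≤ M - r := by
    intro g hg hgl
    have hgI : IntervalIntegrable g volume 0 1 := hg.intervalIntegrable
    have := intervalIntegral.integral_mono_on_of_le_Ioo zero_le_one
      (intervalIntegrable_const.add (hgI.const_mul (1 - r))) hLI hgl
    rw [intervalIntegral.integral_add intervalIntegrable_const (hgI.const_mul _),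
      intervalIntegral.integral_const, intervalIntegral.integral_const_mul] at this
    simp only [sub_zero, one_smul] at this
    linarith
  have hanti : ∀ p q : Fin 3, Antitone fun z => rightHeight (heightExt D p q z) :=
    fun p q a b hab => by
      refine le_csInf ((nonempty_Ioo.2 zero_lt_one).image _) ?_
      rintro _ ⟨x, hx, rfl⟩
      exact ((T1.isHeight_ext hdown b).rightHeight_le hx).trans
        (antitone_heightExt_fst hdown x hab)
  rcases hall l with rfl | rfl | rfl
  · rw [endArea_eq_endTop hdown h.measurable hkj hki.symm hij,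
      tendsto_unique_end hdown (tendsto_sliceArea hdown hij hki hkj hall).2]
    exact key _ (hanti _ _) fun z hz => pw z hz _ (Or.inl rfl)
  · rw [endArea_eq_endTop hdown h.measurable hki hkj.symm hij.symm,
      tendsto_unique_end hdown (tendsto_sliceArea_transpose hdown hij hki hkj hall).2]
    refine key _ ?_ fun z hz => pw z hz _ (Or.inr rfl)
    simp only [(topWidth_eq_rightHeight hdown hij _).1]
    exact hanti _ _
  · exact absurd rfl hl

/-- Case A in closed form. -/
theorem caseA_bound (h : IsReduced D M) (hij : i ≠ j) (hV : 0 < boxVolume D)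
    (hb : endBot D i j ≤ 1 / π) :
    ballForm 0 (endTop D i j) (endBot D i j) (boxVolume D) ≤ M := by
  have hdown := h.down
  have hA := antitone_sliceArea (i := i) (j := j) hdown
  obtain ⟨haV, hVb⟩ := Phase1.ends_volume hdown h.subset h.measurable hij
  rw [boxVolume_eq hdown h.subset h.measurable hij]
  have hsl : BandFree.Slicing (sliceArea D i j) M := by
    refine ⟨hA.antitoneOn _, fun z _ => sliceArea_mem hdown z, ?_⟩
    intro c s hc hs hc0 hs0 hcs z₀ hz₀ z₁ hz₁ hz
    obtain ⟨hint, hle⟩ := slicing D M h i j hij c s hc hs hc0 hs0 hcs z₀ hz₀ z₁ hz₁ hz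
    refine le_trans (add_le_add_left ?_ _) hle
    refine intervalIntegral.integral_mono_on_of_le_Ioo zero_le_one ?_ hint fun z hz' =>
      mul_le_mul_of_nonneg_left ?_ (hc0 _)
    · refine BandFree.integrable_comp (hA.antitoneOn _)
        (φ := fun x => c x * Real.sqrt (π * BandFree.mh x)) (by unfold BandFree.mh; fun_prop)
        (M := Real.sqrt π) fun z _ => ?_
      have hm := sliceArea_mem (i := i) (j := j) hdown z
      rw [Real.norm_eq_abs, abs_of_nonneg (mul_nonneg (hc0 _) (Real.sqrt_nonneg _))]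
      have hc1 : c (sliceArea D i j z) ≤ 1 := by
        nlinarith [hcs (sliceArea D i j z), sq_nonneg (s (sliceArea D i j z))]
      exact (mul_le_of_le_one_left (Real.sqrt_nonneg _) hc1).trans (Real.sqrt_le_sqrt
        (mul_le_of_le_one_right Real.pi_pos.le ((min_le_left _ _).trans hm.2)))
    · have hf := isHeight_of_antitone (antitone_heightExt (i := i) (j := j) hdown z)
        (heightExt_mem D i j z)
      have hM := hf.master (lenGe_len (antitone_heightExt hdown z) (heightExt_mem D i j z))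
      have hAb := (Phase1.sliceArea_mem_ends hdown hz').2.trans hb
      rcases Phase1.master_or hM with h1 | h1
      · exact h1
      · refine le_trans (Real.sqrt_le_one.2 ?_) h1
        calc π * BandFree.mh (sliceArea D i j z) ≤ π * (1 / π) :=
              mul_le_mul_of_nonneg_left ((min_le_left _ _).trans hAb) Real.pi_pos.le
          _ = 1 := mul_one_div_cancel Real.pi_pos.ne'
  have hne : (sliceArea D i j '' Ioo 0 1).Nonempty := (nonempty_Ioo.2 zero_lt_one).image _
  have hlow := BandFree.low_bound hsl (Phase1.endTop_nonneg hdown) (hV.trans_le hVb)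
    (haV.trans hVb) (hb.trans (by rw [div_le_div_iff₀ Real.pi_pos two_pos]; linarith [Real.pi_gt_three]))
    (fun z hz => Phase1.sliceArea_mem_ends hdown hz)
    (fun δ hδ => by
      obtain ⟨_, ⟨z, hz, rfl⟩, hlt⟩ := exists_lt_of_csInf_lt hne
        (lt_add_of_pos_right (endTop D i j) hδ)
      exact ⟨z, hz, hlt⟩)
    (fun δ hδ => by
      obtain ⟨_, ⟨z, hz, rfl⟩, hlt⟩ := exists_lt_of_lt_csSup hne
        (sub_lt_self (endBot D i j) hδ)
      exact ⟨z, hz, hlt⟩)
  simpa [ballForm] using hlow

/-- Case B in closed form. -/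
theorem caseB_bound {a b V p : ℝ} (hs : Phase1.Setting a b V p) (ha : a ≤ 1 / 250)
    (hb : 1 / π ≤ b) (hb1 : b ≤ 1 / 2) : ballForm (π / 2) a b V ≤ p := by
  refine BandFree.patch_bound (V := V) ?_ hs.a_nonneg ha hb hb1
  intro lam E mu c hmu hc hc0 hc1 h1 h2
  refine hs.master lam E mu c (fun t => Real.sqrt (1 - c t ^ 2)) hmu hc (by fun_prop) hc0
    (fun t => Real.sqrt_nonneg _) (fun t => ?_) h1 h2
  rw [Real.sq_sqrt (by nlinarith [hc0 t, hc1 t]), add_sub_cancel]

/-- A direction with the largest end area. -/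
theorem exists_max_dir (D : Set R3) : ∃ i j k : Fin 3, i ≠ j ∧ k ≠ i ∧ k ≠ j ∧
    (∀ l, l = i ∨ l = j ∨ l = k) ∧
    ∀ p q : Fin 3, p ≠ q → endTop D p q ≤ endTop D i j := by
  obtain ⟨⟨i, j⟩, hmem, hmax⟩ :=
    (Finset.univ.filter fun q : Fin 3 × Fin 3 => q.1 ≠ q.2).exists_max_image
      (fun q => endTop D q.1 q.2) ⟨(0, 1), by simp⟩
  have hij : i ≠ j := (Finset.mem_filter.1 hmem).2
  obtain ⟨k, hki, hkj, hall⟩ := exists_third hij
  exact ⟨i, j, k, hij, hki, hkj, hall, fun p q hpq => hmax (p, q) (by simp [hpq])⟩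

/-- The three outcomes at one reduced set. -/
theorem trichotomy (h : IsReduced D M) (hij : i ≠ j) (hki : k ≠ i) (hkj : k ≠ j)
    (hall : ∀ l, l = i ∨ l = j ∨ l = k) (hmax : ∀ p q : Fin 3, p ≠ q → endTop D p q ≤ endTop D i j)
    (h0 : 0 < boxVolume D) (h1 : boxVolume D ≤ 13 / 50) :
    (endBot D i j ≤ 1 / π ∧ ballForm 0 (endTop D i j) (endBot D i j) (boxVolume D) ≤ M) ∨
      ((endTop D i j ≤ 1 / 250 ∧ 1 / π ≤ endBot D i j ∧ endBot D i j ≤ 1 / 2 ∧
          boxVolume D ≤ 17 / 100) ∧
        ballForm (π / 2) (endTop D i j) (endBot D i j) (boxVolume D) ≤ M) ∨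
      candidate (boxVolume D) + Phase1.Cover.gap (boxVolume D) ≤ 2 * M := by
  rcases le_or_gt (endBot D i j) (1 / π) with hb | hb
  · exact Or.inl ⟨hb, caseA_bound h hij h0 hb⟩
  have hset : Phase1.Setting (endTop D i j) (endBot D i j) (boxVolume D) M :=
    ⟨Phase1.endTop_nonneg h.down, (Phase1.ends_volume h.down h.subset h.measurable hij).1,
      (Phase1.ends_volume h.down h.subset h.measurable hij).2, Phase1.endBot_le_one h.down,
      T1.t1Spec D M h i j k hij hki hkj hall _ _ _ _ (Phase1.tendsto_ends h.down).1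
        (Phase1.tendsto_ends h.down).2 (Phase1.tendsto_ends h.down).1
        (Phase1.tendsto_ends h.down).1 (hmax k j hkj) (hmax k i hki)⟩
  by_cases hC : 1 / 250 ≤ endTop D i j ∨ 1 / 2 ≤ endBot D i j ∨ 17 / 100 ≤ boxVolume D
  · exact Or.inr (Or.inr (Phase1.Cover.cover_gap hset h0 h1 hb.le hC))
  simp only [not_or, not_le] at hC
  exact Or.inr (Or.inl ⟨⟨hC.1.le, hb.le, hC.2.1.le, hC.2.2.le⟩,
    caseB_bound hset hC.1.le hb.le hC.2.1.le⟩)

/-- **Stability in phase 1.** -/
theorem stable_phase1 {V : ℝ} (hV0 : 0 < V) (hV : V < 13 / 50) : StableSpec V := by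
  classical
  intro η hη
  by_contra hcon
  simp only [not_exists, not_and, not_forall, exists_prop] at hcon
  choose D M hR hvol hM hbad using fun n : ℕ => hcon (1 / ((n : ℝ) + 1)) (by positivity)
  choose i j k hij hki hkj hall hmax using fun n => exists_max_dir (D n)
  set 𝒰 := Filter.hyperfilter ℕ
  have h𝒰 : (𝒰 : Filter ℕ) ≤ atTop := Nat.cofinite_eq_atTop ▸ hyperfilter_le_cofinite
  have hδ : Tendsto (fun n : ℕ => 1 / ((n : ℝ) + 1)) 𝒰 (𝓝 0) :=
    tendsto_one_div_add_atTop_nhds_zero_nat.mono_left h𝒰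
  have hVn : Tendsto (fun n => boxVolume (D n)) 𝒰 (𝓝 V) := by
    refine tendsto_iff_dist_tendsto_zero.2 (squeeze_zero (fun _ => dist_nonneg) (fun n => ?_) hδ)
    rw [Real.dist_eq]
    exact (hvol n).le
  have hfst : ∀ n, endTop (D n) (i n) (j n) ∈ Icc (0 : ℝ) 1 ∧
      endBot (D n) (i n) (j n) ∈ Icc (0 : ℝ) 1 := fun n => by
    have hd := (hR n).down
    have hm := Phase1.sliceArea_mem_ends hd (i := i n) (j := j n) (z := 1 / 2)
      ⟨by norm_num, by norm_num⟩
    have h01 := sliceArea_mem (i := i n) (j := j n) hd (1 / 2)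
    exact ⟨⟨Phase1.endTop_nonneg hd, hm.1.trans h01.2⟩,
      ⟨h01.1.trans hm.2, Phase1.endBot_le_one hd⟩⟩
  obtain ⟨a, ha01, ha⟩ := (isCompact_Icc (a := (0 : ℝ)) (b := 1)).ultrafilter_le_nhds
    (Ultrafilter.map (fun n => endTop (D n) (i n) (j n)) 𝒰)
    (le_principal_iff.2 (Filter.mem_map.2 (Eventually.of_forall fun n => (hfst n).1)))
  obtain ⟨b, -, hb⟩ := (isCompact_Icc (a := (0 : ℝ)) (b := 1)).ultrafilter_le_nhds
    (Ultrafilter.map (fun n => endBot (D n) (i n) (j n)) 𝒰)
    (le_principal_iff.2 (Filter.mem_map.2 (Eventually.of_forall fun n => (hfst n).2)))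
  have ha' : Tendsto (fun n => endTop (D n) (i n) (j n)) 𝒰 (𝓝 a) := ha
  have hb' : Tendsto (fun n => endBot (D n) (i n) (j n)) 𝒰 (𝓝 b) := hb
  have haV : a ≤ V := le_of_tendsto_of_tendsto' ha' hVn fun n =>
    (Phase1.ends_volume (hR n).down (hR n).subset (hR n).measurable (hij n)).1
  have hVb : V ≤ b := le_of_tendsto_of_tendsto' hVn hb' fun n =>
    (Phase1.ends_volume (hR n).down (hR n).subset (hR n).measurable (hij n)).2
  have hcand : Tendsto (fun n => candidate (boxVolume (D n))) 𝒰 (𝓝 (candidate V)) :=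
    (continuous_candidate.tendsto V).comp hVn
  have hMup : Tendsto (fun n : ℕ => (candidate V + 1 / ((n : ℝ) + 1)) / 2) 𝒰 (𝓝 (jrel V)) := by
    have := ((tendsto_const_nhds (x := candidate V)).add hδ).div_const 2
    have e : candidate V / 2 = jrel V := by
      rw [BandFree.candidate_eq_two_mul_jrel]; ring
    rwa [add_zero, e] at this
  have hgood : ∀ᶠ n in (𝒰 : Filter ℕ), 0 < boxVolume (D n) ∧ boxVolume (D n) ≤ 13 / 50 :=
    hVn.eventually ((eventually_gt_nhds hV0).and (eventually_le_nhds hV))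
  set A : ℕ → Prop := fun n => endBot (D n) (i n) (j n) ≤ 1 / π ∧
    ballForm 0 (endTop (D n) (i n) (j n)) (endBot (D n) (i n) (j n)) (boxVolume (D n)) ≤ M n
  set B : ℕ → Prop := fun n => (endTop (D n) (i n) (j n) ≤ 1 / 250 ∧
      1 / π ≤ endBot (D n) (i n) (j n) ∧ endBot (D n) (i n) (j n) ≤ 1 / 2 ∧
      boxVolume (D n) ≤ 17 / 100) ∧
    ballForm (π / 2) (endTop (D n) (i n) (j n)) (endBot (D n) (i n) (j n)) (boxVolume (D n)) ≤ M n
  have hform : ∀ m : ℝ, (∀ᶠ n in (𝒰 : Filter ℕ),
      ballForm m (endTop (D n) (i n) (j n)) (endBot (D n) (i n) (j n)) (boxVolume (D n)) ≤ M n) →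
      ballForm m a b V ≤ jrel V := fun m hm => by
    refine le_of_tendsto_of_tendsto
      ((continuousAt_ballForm m (hV0.trans_le hVb)).tendsto.comp
        (ha'.prodMk_nhds (hb'.prodMk_nhds hVn))) hMup ?_
    filter_upwards [hm] with n hn
    simp only [Function.comp_apply]
    linarith [hM n]
  have hball : a = 0 → shapePerimeter 3 V = candidate V → False := fun h0 hsp => by
    have hev : ∀ᶠ n in (𝒰 : Filter ℕ), endTop (D n) (i n) (j n) < η :=
      ha'.eventually (eventually_lt_nhds (by rwa [h0]))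
    obtain ⟨n, hn⟩ := hev.exists
    obtain ⟨d, hd⟩ := hbad n Finset.univ Finset.univ_nonempty (by simpa using hsp)
    refine hd ?_
    have hd' := (hR n).down
    obtain ⟨p, q, hpq, hdp, hdq⟩ :=
      (by decide : ∀ d : Fin 3, ∃ p q : Fin 3, p ≠ q ∧ d ≠ p ∧ d ≠ q) d
    rw [if_pos (Finset.mem_univ d), sub_zero,
      endArea_eq_endTop hd' (hR n).measurable hpq hdp hdq,
      abs_of_nonneg (Phase1.endTop_nonneg hd')]
    exact lt_of_le_of_lt (hmax n p q hpq) hn
  have htube : a = V → shapePerimeter 2 V = candidate V → (∀ᶠ n in (𝒰 : Filter ℕ), A n) → False :=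
    fun hat hsp hA => by
    have hsp' : Real.sqrt (π * V) = jrel V := by
      have : 2 * Real.sqrt (π * V) = candidate V := by
        rw [← hsp]; simp [shapePerimeter]
      rw [BandFree.candidate_eq_two_mul_jrel] at this
      linarith
    have hr : Real.sqrt (π * V) < 1 := by
      rw [Real.sqrt_lt' one_pos]; nlinarith [Real.pi_lt_d4]
    have hlim : Tendsto (fun n : ℕ => ((candidate V + 1 / ((n : ℝ) + 1)) / 2 -
        Real.sqrt (π * endTop (D n) (i n) (j n))) /
        (1 - Real.sqrt (π * endTop (D n) (i n) (j n)))) 𝒰 (𝓝 0) := by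
      have h1 : Tendsto (fun n => Real.sqrt (π * endTop (D n) (i n) (j n))) 𝒰
          (𝓝 (Real.sqrt (π * V))) :=
        ((Real.continuous_sqrt.comp (continuous_const.mul continuous_id)).tendsto V).comp
          (hat ▸ ha')
      have := (hMup.sub h1).div ((tendsto_const_nhds (x := (1 : ℝ))).sub h1)
        (sub_pos.2 hr).ne'
      rwa [hsp', sub_self, zero_div] at this
    have e1 := hlim.eventually (eventually_lt_nhds hη)
    have e2 : ∀ᶠ n in (𝒰 : Filter ℕ), |endTop (D n) (i n) (j n) - V| < η := by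
      have := (hat ▸ ha').eventually (Metric.ball_mem_nhds V hη)
      exact this.mono fun n hn => by rw [← Real.dist_eq]; exact hn
    have e3 : ∀ᶠ n in (𝒰 : Filter ℕ), Real.sqrt (π * endTop (D n) (i n) (j n)) < 1 :=
      (((Real.continuous_sqrt.comp (continuous_const.mul continuous_id)).tendsto V).comp
          (hat ▸ ha')).eventually (eventually_lt_nhds hr)
    obtain ⟨n, ⟨hnA, -⟩, hn1, hn2, hn3⟩ := (hA.and (e1.and (e2.and e3))).exists
    have hcard : (Finset.univ.erase (k n)).card = 2 := by simp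
    obtain ⟨d, hd⟩ := hbad n (Finset.univ.erase (k n))
      ⟨i n, by simp [(hki n).symm]⟩ (by rw [hcard]; exact hsp)
    refine hd ?_
    by_cases hdk : d = k n
    · subst hdk
      rw [if_neg (by simp),
        endArea_eq_endTop (hR n).down (hR n).measurable (hij n) (hki n) (hkj n)]
      exact hn2
    · rw [if_pos (by simp [hdk]), sub_zero, abs_of_nonneg (by
        rw [endArea]; exact Real.iInf_nonneg fun _ => measureReal_nonneg)]
      have := others_bound (hR n) (hij n) (hki n) (hkj n) (hall n) hnA hdk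
      refine lt_of_le_of_lt ?_ hn1
      rw [le_div_iff₀ (sub_pos.2 hn3), mul_comm]
      linarith [hM n]
  have htri : ∀ᶠ n in (𝒰 : Filter ℕ), A n ∨ (B n ∨
      candidate (boxVolume (D n)) + Phase1.Cover.gap (boxVolume (D n)) ≤ 2 * M n) :=
    hgood.mono fun n hn => trichotomy (hR n) (hij n) (hki n) (hkj n) (hall n) (hmax n) hn.1 hn.2
  rcases Ultrafilter.eventually_or.1 htri with hA | hBC
  · rcases formA_le hV0 hV.le ha01.1 haV hVb (hform 0 (hA.mono fun n hn => hn.2)) with
      ⟨h0, hsp⟩ | ⟨hat, -, hsp⟩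
    · exact hball h0 hsp
    · exact htube hat hsp hA
  rcases Ultrafilter.eventually_or.1 hBC with hB | hC
  · obtain ⟨h0, hsp⟩ := formB_le hV0
      (le_of_tendsto hVn (hB.mono fun n hn => hn.1.2.2.2)) ha01.1
      (le_of_tendsto ha' (hB.mono fun n hn => hn.1.1))
      (ge_of_tendsto hb' (hB.mono fun n hn => hn.1.2.1))
      (le_of_tendsto hb' (hB.mono fun n hn => hn.1.2.2.1))
      (hform (π / 2) (hB.mono fun n hn => hn.2))
    exact hball h0 hsp
  · have hg : Tendsto (fun n => candidate (boxVolume (D n)) + Phase1.Cover.gap (boxVolume (D n)))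
        𝒰 (𝓝 (candidate V + Phase1.Cover.gap V)) :=
      hcand.add ((Phase1.Cover.continuous_gap.tendsto V).comp hVn)
    have hlim : Tendsto (fun n : ℕ => candidate V + 1 / ((n : ℝ) + 1)) 𝒰 (𝓝 (candidate V)) := by
      simpa using (tendsto_const_nhds (x := candidate V)).add hδ
    have := le_of_tendsto_of_tendsto hg hlim (hC.mono fun n hn => hn.trans (hM n))
    linarith [Phase1.Cover.gap_pos hV0]

end Vale.Agent.P232.Rigid
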