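import Vale.Agent.P232.Rigid.SideGradient

/-!
# P232 rigidity: approximations of a minimiser and the traces of their symmetrisations

An axis is flat if the marginal is constant. A flat axis is an invariance of the set, so it carries
the whole volume as end area at every level; an axis with positive end area at some level is flat.
-/

open MeasureTheory Set Filter
open scoped ENNReal NNReal Real Topology

noncomputable section

namespace Vale.Agent.P232.Rigid

theorem candidate_nonneg {V : ℝ} (h0 : 0 ≤ V) (h1 : V ≤ 1) : 0 ≤ candidate V := by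
  have hm : 0 ≤ min V (1 - V) := le_min h0 (by linarith)
  exact le_min (le_min (mul_nonneg (Real.rpow_nonneg (by positivity) _) (Real.rpow_nonneg hm _))
    (by positivity)) (by norm_num)

/-- The indicator of `E`. -/
def chi (E : Set R3) : R3 → ℝ := E.indicator fun _ => 1

theorem chi_cases (E : Set R3) (x : R3) : chi E x = 0 ∨ chi E x = 1 := by
  by_cases h : x ∈ E <;> simp [chi, h]

theorem chi_mem (E : Set R3) (x : R3) : chi E x ∈ Icc (0 : ℝ) 1 := by
  rcases chi_cases E x with h | h <;> simp [h]

/-- The mean square deviation of the marginal across `e`. -/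
def spread (E : Set R3) (V : ℝ) (e : Fin 3) : ℝ :=
  ∫ t in (0 : ℝ)..1, (marginal E e t - V) ^ 2

/-- The axes across which the marginal is not constant. -/
def transAxes (E : Set R3) (V : ℝ) : Finset (Fin 3) :=
  Finset.univ.filter fun e => 0 < spread E V e

/-- Approximations of a minimiser with their partial and full symmetrisations. -/
structure Approx (V : ℝ) (E : Set R3) where
  u : ℕ → R3 → ℝ
  L : ℕ → ℝ≥0
  v : ℕ → Fin 3 → R3 → ℝ
  w : ℕ → Fin 3 → R3 → ℝ
  torus : IsTorusSet E
  vol : torusVolume E = V
  mem_u : ∀ n, u n ∈ lipClass (L n)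
  mem_v : ∀ n d, v n d ∈ lipClass (L n)
  mem_w : ∀ n d, w n d ∈ lipClass (L n)
  symm_v : ∀ n d, SymmExcept d (v n d)
  symm_w : ∀ n d, IsSymmDecreasing (w n d)
  plane_v : ∀ n d (φ : ℝ → ℝ), Continuous φ → ∀ t,
    planeInt (fun x => φ (v n d x)) d t = planeInt (fun x => φ (u n x)) d t
  energy_u : ∀ n, (∫ x in cell, gradNorm (u n) x) ≤ candidate V
  energy_v : ∀ n d, (∫ x in cell, gradNorm (v n d) x) ≤ candidate V
  energy_w : ∀ n d, (∫ x in cell, gradNorm (w n d) x) ≤ candidate V
  plane_w : ∀ n d i, i ≠ d → ∀ (φ : ℝ → ℝ), Continuous φ → ∀ t,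
    planeInt (fun x => φ (w n d x)) i t = planeInt (fun x => φ (v n d x)) i t
  invar_w : ∀ n d e, (∀ x t, u n (Function.update x e t) = u n x) →
    ∀ x t, w n d (Function.update x e t) = w n d x
  square_w : ∀ n d e (φ : ℝ → ℝ), Continuous φ → Monotone φ →
    (∫ t in (0 : ℝ)..1, planeInt (fun x => φ (u n x)) e t ^ 2) ≤
      ∫ t in (0 : ℝ)..1, planeInt (fun x => φ (w n d x)) e t ^ 2
  range_w : ∀ n d x, (range fun t => w n d (Function.update x d t)) =
    range fun t => v n d (Function.update x d t)
  err_tendsto : Tendsto (fun n => ∫ x in cell, |u n x - chi E x|) atTop (𝓝 0)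
  invar_u : ∀ e, (∀ τ : ℝ, ∀ᵐ x, chi E (x + τ • unit e) = chi E x) →
    ∀ n x t, u n (Function.update x e t) = u n x

theorem exists_approx (hP : PartialSpec) {V : ℝ} (h0 : 0 ≤ V) (h1 : V ≤ 1) {E : Set R3}
    (hE : IsTorusSet E) (hV : torusVolume E = V)
    (hper : perimeter E ≤ ENNReal.ofReal (candidate V)) : Nonempty (Approx V E) := by
  have hfin : perimeter E ≠ ⊤ := ne_top_of_le_ne_top ENNReal.ofReal_ne_top hper
  have hP0 : (perimeter E).toReal ≤ candidate V :=
    ENNReal.toReal_le_of_le_ofReal (candidate_nonneg h0 h1) hper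
  have hm : Measurable (chi E) := measurable_const.indicator hE.measurable
  have hB : ∀ x, |chi E x| ≤ 1 := fun x => abs_le_one_of_mem (chi_mem E x)
  have hp : IsPeriodicFun (chi E) := hE.periodic_indicator
  choose L hL using fun n => exists_lipschitzWith (contDiff_mollify hm hB n 1) (mollify_periodic hp n)
  have hu : ∀ n, mollify n (chi E) ∈ lipClass (L n) := fun n =>
    ⟨hL n, mollify_periodic hp n, mollify_mem_Icc hm (chi_mem E) n⟩
  have hen : ∀ n, ∫ x in cell, gradNorm (mollify n (chi E)) x ≤ candidate V := fun n =>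
    (gradient_le_of_contDiff (contDiff_mollify hm hB n 2) (mollify_periodic hp n)
      ((hE.hasVariationLE hfin).mollify hm hB hp n)).trans hP0
  choose v hv w hw h1 h2 h3 h4 h5 h6 h7 h8 h9 using fun n d => hP (L n) _ (hu n) d
  refine ⟨⟨fun n => mollify n (chi E), L, v, w, hE, hV, hu, hv, hw, h1, h2, h3, hen,
    fun n d => (h4 n d).trans (hen n), fun n d => ((h5 n d).trans (h4 n d)).trans (hen n), h6, h7, h8,
    h9, ?_, fun e he n x t => ?_⟩⟩
  · have : Tendsto (fun n => ∫ x in cell, |mollify n (chi E) x - chi E x|) atTop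
        (𝓝 (∫ x in cell, (0 : ℝ))) := by
      refine tendsto_integral_of_dominated_convergence (fun _ => 2) (fun n => ?_)
        (integrableOn_const volume_cell_ne_top) (fun n => ae_of_all _ fun x => ?_) ?_
      · exact (continuous_abs.measurable.comp
          ((contDiff_mollify hm hB n 0).continuous.measurable.sub hm)).aestronglyMeasurable
      · rw [Real.norm_eq_abs, abs_abs]
        exact (abs_sub _ _).trans (by linarith [abs_mollify_le hm hB n x, hB x])
      · refine ae_restrict_of_ae ?_
        filter_upwards [tendsto_mollify hm hB] with x hx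
        simpa using (hx.sub_const (chi E x)).abs
    simpa using this
  · show mollify n (chi E) (Function.update x e t) = mollify n (chi E) x
    rw [update_eq_add]
    simp only [mollify]
    refine integral_congr_ae ?_
    filter_upwards [(Measure.measurePreserving_sub_left volume x).quasiMeasurePreserving.ae
      (he (t - x e))] with y hy
    rw [show x + (t - x e) • unit e - y = x - y + (t - x e) • unit e by abel, hy]

/-- The lower bound, for Lipschitz functions close to indicators of volume `V`. -/
theorem energy_lower (hP : PartialSpec) {V : ℝ} (h0 : 0 ≤ V) (h1 : V ≤ 1)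
    (hev : ∀ᶠ W in 𝓝 V, ReducedBoundAt W) {η : ℝ} (hη : 0 < η) :
    ∃ δ, 0 < δ ∧ ∀ (L : ℝ≥0) (g : R3 → ℝ), g ∈ lipClass L → |(∫ x in cell, g x) - V| < δ →
      (∫ x in cell, g x * (1 - g x)) < δ → candidate V - η ≤ ∫ x in cell, gradNorm g x := by
  set P := candidate V with hPdef
  have hP0 : 0 ≤ P := candidate_nonneg h0 h1
  obtain ⟨γ, hγ, hγ'⟩ := Metric.eventually_nhds_iff.1
    (hev.and (continuous_candidate.continuousAt.eventually
      (eventually_gt_nhds (show P - η / 2 < candidate V by linarith))))
  set δ₀ := min (1 / 4) (η / (4 * (P + 1))) with hδ₀def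
  have hδ₀ : 0 < δ₀ := lt_min (by norm_num) (by positivity)
  have hδ₀4 : δ₀ ≤ 1 / 4 := min_le_left _ _
  have hδ₀P : δ₀ * (4 * (P + 1)) ≤ η := (le_div_iff₀ (by positivity)).1 (min_le_right _ _)
  refine ⟨γ * δ₀ / 4, by positivity, fun L g hg hA hQ => ?_⟩
  obtain ⟨v, hv, w, hw, -, hsd, hpv, hev', hew, hpw, -⟩ := hP L g hg 0
  have hφ : ∀ φ : ℝ → ℝ, Continuous φ → ∫ x in cell, φ (w x) = ∫ x in cell, φ (g x) := by
    intro φ hc
    obtain ⟨C, hC⟩ := (isCompact_Icc (a := (0 : ℝ)) (b := 1)).exists_bound_of_continuousOn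
      hc.continuousOn
    have e : ∀ {f : R3 → ℝ}, f ∈ lipClass L → ∀ d,
        ∫ x in cell, φ (f x) = ∫ t in (0 : ℝ)..1, planeInt (fun x => φ (f x)) d t := fun hf d =>
      integral_cell_eq_planeInt (hc.comp hf.1.continuous).measurable (fun x => hC _ (hf.2.2 x)) d
    rw [e hw 1, intervalIntegral.integral_congr fun t _ => hpw 1 (by decide) φ hc t, ← e hv 1,
      e hv 0, intervalIntegral.integral_congr fun t _ => hpv φ hc t, ← e hg 0]
  obtain ⟨D, hD, hvol⟩ := exists_reduced_level (lipClass_half hw).1 (lipClass_half hw).2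
    (half_antitone hsd) hδ₀ (by linarith)
  rw [integral_box_half_comp hw hsd (φ := fun t => t) continuous_id,
    integral_box_half_comp hw hsd (φ := fun t => t * (1 - t)) (by fun_prop),
    hφ (fun t => t) continuous_id, hφ (fun t => t * (1 - t)) (by fun_prop)] at hvol
  have h2 : (∫ x in cell, g x * (1 - g x)) / δ₀ ≤ γ / 4 := by
    rw [div_le_iff₀ hδ₀]; linarith
  have h3 : γ * δ₀ / 4 ≤ γ / 4 := by nlinarith
  have hd : dist (boxVolume D) V < γ := by
    rw [Real.dist_eq]
    calc |boxVolume D - V| ≤ |boxVolume D - ∫ x in cell, g x| + |(∫ x in cell, g x) - V| :=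
          abs_sub_le _ _ _
      _ < γ := by linarith
  obtain ⟨hb, hc⟩ := hγ' hd
  have hle := hb D _ hD rfl
  rw [integral_gradNorm_half hw hsd] at hle
  have hW : (∫ x in cell, gradNorm w x) ≤ ∫ x in cell, gradNorm g x := hew.trans hev'
  have hI : (P - η / 2) * (1 - 2 * δ₀) ≤ ∫ x in cell, gradNorm w x := by
    have h4 : P - η / 2 ≤ 2 * ((∫ x in cell, gradNorm w x) / 2 / (1 - 2 * δ₀)) := by linarith
    rw [← mul_div_assoc, mul_div_cancel₀ _ (two_ne_zero (α := ℝ)), le_div_iff₀ (by linarith)] at h4
    exact h4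
  nlinarith

variable {V : ℝ} {E : Set R3} (D : Approx V E)

namespace Approx

include D

/-- The distance of the approximation to the indicator. -/
def err (n : ℕ) : ℝ := ∫ x in cell, |D.u n x - chi E x|

theorem err_nonneg (n : ℕ) : 0 ≤ D.err n :=
  setIntegral_nonneg measurableSet_cell fun _ _ => abs_nonneg _

theorem measurable_chi : Measurable (chi E) := measurable_const.indicator D.torus.measurable

theorem measurable_marginal (d : Fin 3) : Measurable (marginal E d) :=
  measurable_planeInt D.measurable_chi d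

theorem marginal_periodic (d : Fin 3) : Function.Periodic (marginal E d) 1 :=
  planeInt_periodic D.torus.periodic_indicator d

omit D in
theorem marginal_mem (d : Fin 3) (t : ℝ) : marginal E d t ∈ Icc (0 : ℝ) 1 :=
  planeInt_mem (chi_mem E) d t

theorem intervalIntegrable_marginal (d : Fin 3) : IntervalIntegrable (marginal E d) volume 0 1 :=
  intervalIntegrable_planeInt D.measurable_chi (fun x => abs_le_one_of_mem (chi_mem E x)) d 0 1

theorem integral_chi : ∫ x in cell, chi E x = V := by
  rw [chi, setIntegral_indicator D.torus.measurable, setIntegral_const, smul_eq_mul, mul_one]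
  exact D.vol

theorem mass (d : Fin 3) : ∫ t in (0 : ℝ)..1, marginal E d t = V := by
  rw [← D.integral_chi]
  exact (integral_cell_eq_planeInt D.measurable_chi (fun x => abs_le_one_of_mem (chi_mem E x)) d).symm

theorem abs_integral_sub (n : ℕ) : |(∫ x in cell, D.u n x) - V| ≤ D.err n := by
  refine (le_of_eq (congrArg (fun r => |(∫ x in cell, D.u n x) - r|) D.integral_chi.symm)).trans ?_
  rw [← integral_sub (integrableOn_cell_of_continuous (D.mem_u n).1.continuous)
    (integrableOn_cell D.measurable_chi 1 fun x _ => abs_le_one_of_mem (chi_mem E x))]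
  exact abs_integral_le_integral_abs

theorem u_mul_le (n : ℕ) (x : R3) : D.u n x * (1 - D.u n x) ≤ |D.u n x - chi E x| := by
  obtain ⟨h0, h1⟩ := (D.mem_u n).2.2 x
  rcases chi_cases E x with h | h <;> rw [h]
  · rw [sub_zero, abs_of_nonneg h0]; nlinarith
  · rw [abs_of_nonpos (by linarith)]; nlinarith

/-- The defect `u (1 - u)`, plane by plane. -/
def defect (n : ℕ) (d : Fin 3) (t : ℝ) : ℝ := planeInt (fun x => D.u n x * (1 - D.u n x)) d t

theorem defect_nonneg (n : ℕ) (d : Fin 3) (t : ℝ) : 0 ≤ D.defect n d t :=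
  planeInt_nonneg (fun x => (mul_one_sub_mem ((D.mem_u n).2.2 x)).1) d t

theorem intervalIntegrable_defect (n : ℕ) (d : Fin 3) :
    IntervalIntegrable (D.defect n d) volume 0 1 :=
  intervalIntegrable_planeInt
    ((D.mem_u n).1.continuous.mul (continuous_const.sub (D.mem_u n).1.continuous)).measurable
    (fun x => abs_le_one_of_mem (mul_one_sub_mem ((D.mem_u n).2.2 x))) d 0 1

theorem integral_quad_le (n : ℕ) : (∫ x in cell, D.u n x * (1 - D.u n x)) ≤ D.err n := by
  have hu := (D.mem_u n).1.continuous
  refine integral_mono (integrableOn_cell_of_continuous (by fun_prop)) ?_ (D.u_mul_le n)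
  exact (integrableOn_cell_of_continuous hu).sub (integrableOn_cell D.measurable_chi 1
    fun x _ => abs_le_one_of_mem (chi_mem E x)) |>.abs

theorem integral_defect (n : ℕ) (d : Fin 3) : ∫ t in (0 : ℝ)..1, D.defect n d t ≤ D.err n := by
  refine le_of_eq_of_le (Eq.symm ?_) (D.integral_quad_le n)
  exact integral_cell_eq_planeInt
    ((D.mem_u n).1.continuous.mul (continuous_const.sub (D.mem_u n).1.continuous)).measurable
    (fun x => abs_le_one_of_mem (mul_one_sub_mem ((D.mem_u n).2.2 x))) d

theorem plane_err (n : ℕ) (d : Fin 3) {f : R3 → ℝ} (hf : Measurable f)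
    (h01 : ∀ x, f x ∈ Icc (0 : ℝ) 1) {C : ℝ}
    (hC : ∀ x, |f x - chi E x| ≤ C * |D.u n x - chi E x|) :
    ∫ t in (0 : ℝ)..1, |planeInt f d t - marginal E d t| ≤ C * D.err n := by
  have hm := D.measurable_chi
  have hb : ∀ x, |(|f x - chi E x|)| ≤ 1 := fun x => by
    rw [abs_abs, abs_le]
    constructor <;> linarith [(h01 x).1, (h01 x).2, (chi_mem E x).1, (chi_mem E x).2]
  have hfm : Measurable fun x => |f x - chi E x| := continuous_abs.measurable.comp (hf.sub hm)
  have hf1 := fun x => abs_le_one_of_mem (h01 x)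
  refine le_trans (intervalIntegral.integral_mono_on zero_le_one
    ((intervalIntegrable_planeInt hf hf1 d 0 1).sub (D.intervalIntegrable_marginal d)).abs
    (intervalIntegrable_planeInt hfm hb d 0 1) fun t _ => ?_) ?_
  · show |(∫ y in square, f (facePoint d t y)) - ∫ y in square, chi E (facePoint d t y)| ≤ _
    rw [← integral_sub (integrableOn_plane hf 1 hf1 d t)
      (integrableOn_plane hm 1 (fun x => abs_le_one_of_mem (chi_mem E x)) d t)]
    exact abs_integral_le_integral_abs
  · rw [← integral_cell_eq_planeInt hfm hb d, err, ← integral_const_mul]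
    refine integral_mono (integrableOn_cell hfm 1 fun x _ => hb x) ?_ hC
    exact ((integrableOn_cell_of_continuous (D.mem_u n).1.continuous).sub
      (integrableOn_cell hm 1 fun x _ => abs_le_one_of_mem (chi_mem E x))).abs.const_mul C

theorem plane_err_u (n : ℕ) (d : Fin 3) :
    ∫ t in (0 : ℝ)..1, |planeInt (D.u n) d t - marginal E d t| ≤ D.err n := by
  have := D.plane_err n d (f := D.u n) (D.mem_u n).1.continuous.measurable (D.mem_u n).2.2 (C := 1)
    fun x => (one_mul _).ge
  rwa [one_mul] at this

theorem integral_comp_w (n : ℕ) (d : Fin 3) {φ : ℝ → ℝ} (hc : Continuous φ) :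
    ∫ x in cell, φ (D.w n d x) = ∫ x in cell, φ (D.u n x) := by
  obtain ⟨C, hC⟩ := (isCompact_Icc (a := (0 : ℝ)) (b := 1)).exists_bound_of_continuousOn
    hc.continuousOn
  obtain ⟨i, hi⟩ : ∃ i, i ≠ d := exists_ne d
  have e : ∀ {f : R3 → ℝ}, f ∈ lipClass (D.L n) → ∀ k,
      ∫ x in cell, φ (f x) = ∫ t in (0 : ℝ)..1, planeInt (fun x => φ (f x)) k t := fun hf k =>
    integral_cell_eq_planeInt (hc.comp hf.1.continuous).measurable (fun x => hC _ (hf.2.2 x)) k
  rw [e (D.mem_w n d) i, intervalIntegral.integral_congr fun t _ => D.plane_w n d i hi φ hc t,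
    ← e (D.mem_v n d) i, e (D.mem_v n d) d,
    intervalIntegral.integral_congr fun t _ => D.plane_v n d φ hc t, ← e (D.mem_u n) d]

theorem abs_level_sub_vol (n : ℕ) (d : Fin 3) {δ s : ℝ} (hδ : 0 < δ) (hs : δ ≤ s) (hs' : s ≤ 1 - δ) :
    |boxVolume (box ∩ {x | s < half (D.w n d) x}) - V| ≤ D.err n + D.err n / δ := by
  have hw := lipClass_half (D.mem_w n d)
  have h := abs_level_sub_integral (μ := volume) (K := box) (by simp [volume_box])
    hw.1.continuous.measurable hw.2 hδ hs hs'
  rw [integral_box_half_comp (D.mem_w n d) (D.symm_w n d) (φ := fun t => t) continuous_id,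
    integral_box_half_comp (D.mem_w n d) (D.symm_w n d) (φ := fun t => t * (1 - t)) (by fun_prop),
    D.integral_comp_w n d (φ := fun t => t) continuous_id,
    D.integral_comp_w n d (φ := fun t => t * (1 - t)) (by fun_prop)] at h
  have h2 := div_le_div_of_nonneg_right (D.integral_quad_le n) hδ.le
  have h3 := D.abs_integral_sub n
  calc |boxVolume (box ∩ {x | s < half (D.w n d) x}) - V|
      ≤ |boxVolume (box ∩ {x | s < half (D.w n d) x}) - ∫ x in cell, D.u n x| +
        |(∫ x in cell, D.u n x) - V| := abs_sub_le _ _ _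
    _ ≤ D.err n / δ + D.err n := add_le_add (h.trans h2) h3
    _ = D.err n + D.err n / δ := add_comm _ _

theorem eventually_err (K : ℝ) {γ : ℝ} (hγ : 0 < γ) : ∀ᶠ n in atTop, K * D.err n < γ := by
  have h : Tendsto (fun n => K * D.err n) atTop (𝓝 0) := by
    simpa [err] using D.err_tendsto.const_mul K
  exact h.eventually (eventually_lt_nhds hγ)

/-! ## Flat axes are invariant -/

theorem tendsto_pd_u (hP : PartialSpec) (h0 : 0 ≤ V) (h1 : V ≤ 1)
    (hev : ∀ᶠ W in 𝓝 V, ReducedBoundAt W) {e : Fin 3} (he : spread E V e = 0) {ε : ℝ} (hε : 0 < ε) :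
    ∀ᶠ n in atTop, ∫ x in cell, |pd e (D.u n) x| ≤ ε := by
  set P := candidate V with hPdef
  have hP0 : 0 ≤ P := candidate_nonneg h0 h1
  set s := min (1 / 2) (ε / (3 * (P + 1))) with hsdef
  have hs : 0 < s := lt_min (by norm_num) (by positivity)
  have hs2 : s ≤ 1 / 2 := min_le_left _ _
  have hsP : s * (3 * (P + 1)) ≤ ε := (le_div_iff₀ (by positivity)).1 (min_le_right _ _)
  set c := Real.sqrt (1 - s ^ 2) with hcdef
  have hc2 : c ^ 2 = 1 - s ^ 2 := Real.sq_sqrt (by nlinarith)
  have hc0 : 0 ≤ c := Real.sqrt_nonneg _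
  have hc1 : c ≤ 1 := by nlinarith
  obtain ⟨δ, hδ, hlow⟩ := energy_lower hP h0 h1 hev (η := s * ε / 3) (by positivity)
  filter_upwards [D.eventually_err (2 * P / δ) (γ := s * ε / 3) (by positivity)] with n hn
  obtain ⟨huL, hup, hu01⟩ := D.mem_u n
  set F := planeInt (gradPerp e (D.u n)) e
  set B := planeInt (D.u n) e
  have hFi : IntervalIntegrable F volume 0 1 :=
    intervalIntegrable_planeInt (measurable_gradPerp e _) (abs_gradPerp_le huL e) e 0 1
  have hBi : IntervalIntegrable B volume 0 1 :=
    intervalIntegrable_planeInt huL.continuous.measurable (fun x => abs_le_one_of_mem (hu01 x)) e 0 1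
  have hdev : ∫ t in (0 : ℝ)..1, |marginal E e t - V| = 0 := by
    have hi : IntegrableOn (fun t => (marginal E e t - V) ^ 2) (Ioc 0 1) :=
      IntegrableOn.of_bound (by simp) (((D.measurable_marginal e).sub_const V).pow_const 2).aestronglyMeasurable 1
        (ae_of_all _ fun t => by
          rw [Real.norm_eq_abs, abs_of_nonneg (sq_nonneg _), sq_le_one_iff_abs_le_one, abs_le]
          constructor <;> linarith [(marginal_mem (E := E) e t).1, (marginal_mem (E := E) e t).2])
    rw [spread, intervalIntegral.integral_of_le zero_le_one] at he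
    have hz := (integral_eq_zero_iff_of_nonneg (fun t => sq_nonneg _) hi).1 he
    rw [intervalIntegral.integral_of_le zero_le_one]
    refine integral_eq_zero_of_ae (hz.mono fun t ht => ?_)
    simp only [Pi.zero_apply, ne_eq, OfNat.ofNat_ne_zero, not_false_eq_true, pow_eq_zero_iff] at ht
    simp [ht]
  have hpt : ∀ᵐ t : ℝ, P - s * ε / 3 -
      P / δ * (|B t - marginal E e t| + |marginal E e t - V| + D.defect n e t) ≤ F t := by
    filter_upwards [integral_gradNorm_sliceFun (D.mem_u n) e] with t ht
    have hF0 : 0 ≤ F t := planeInt_nonneg (gradPerp_nonneg e _) e t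
    have hq := D.defect_nonneg n e t
    have hB : |B t - V| ≤ |B t - marginal E e t| + |marginal E e t - V| := abs_sub_le _ _ _
    rcases lt_or_ge (|B t - marginal E e t| + |marginal E e t - V| + D.defect n e t) δ with h | h
    · have hg := lipClass_sliceFun (D.mem_u n) e t
      have h3 := hlow _ _ hg
        (by rw [integral_cell_sliceFun huL.continuous.measurable
              (fun x => abs_le_one_of_mem (hu01 x))]
            show |B t - V| < δ
            linarith)
        (by
          refine lt_of_eq_of_lt (integral_cell_sliceFun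
            (f := fun x => D.u n x * (1 - D.u n x))
            (huL.continuous.mul (continuous_const.sub huL.continuous)).measurable
            (fun x => abs_le_one_of_mem (mul_one_sub_mem (hu01 x))) e t) ?_
          show D.defect n e t < δ
          linarith [abs_nonneg (B t - marginal E e t), abs_nonneg (marginal E e t - V)])
      rw [ht] at h3
      have hpos : 0 ≤ P / δ * (|B t - marginal E e t| + |marginal E e t - V| + D.defect n e t) := by
        positivity
      linarith
    · have h2 : P ≤ P / δ * (|B t - marginal E e t| + |marginal E e t - V| + D.defect n e t) := by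
        rw [div_mul_eq_mul_div, le_div_iff₀ hδ]
        exact mul_le_mul_of_nonneg_left h hP0
      linarith [show 0 ≤ s * ε / 3 by positivity]
  have hi1 : IntervalIntegrable (fun t => |B t - marginal E e t|) volume 0 1 :=
    (hBi.sub (D.intervalIntegrable_marginal e)).abs
  have hi2 : IntervalIntegrable (fun t => |marginal E e t - V|) volume 0 1 :=
    ((D.intervalIntegrable_marginal e).sub intervalIntegrable_const).abs
  have hi := ((hi1.add hi2).add (D.intervalIntegrable_defect n e)).const_mul (P / δ)
  have hF : P - s * ε / 3 - P / δ * (D.err n + D.err n) ≤ ∫ t in (0 : ℝ)..1, F t := by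
    refine le_trans ?_ (intervalIntegral.integral_mono_ae zero_le_one
      (intervalIntegrable_const.sub hi) hFi hpt)
    rw [intervalIntegral.integral_sub intervalIntegrable_const hi,
      intervalIntegral.integral_const_mul, intervalIntegral.integral_add (hi1.add hi2)
        (D.intervalIntegrable_defect n e), intervalIntegral.integral_add hi1 hi2, hdev]
    simp only [intervalIntegral.integral_const, sub_zero, one_smul, add_zero]
    gcongr
    · exact D.plane_err_u n e
    · exact D.integral_defect n e
  have hv := (vert_le (D.mem_u n) e (c := c) (s := s) (by linarith [hc2])).trans (D.energy_u n)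
  have hn' : P / δ * (D.err n + D.err n) = 2 * P / δ * D.err n := by ring
  have hc3 : 1 - c ≤ s ^ 2 := by nlinarith
  have h4 : c * (P - 2 * (s * ε / 3)) ≤ c * ∫ t in (0 : ℝ)..1, F t :=
    mul_le_mul_of_nonneg_left (by linarith) hc0
  have h5 : c * (s * ε / 3) ≤ 1 * (s * ε / 3) := mul_le_mul_of_nonneg_right hc1 (by positivity)
  have h6 : (1 - c) * P ≤ s ^ 2 * P := mul_le_mul_of_nonneg_right hc3 hP0
  have h7 : s * (∫ x in cell, |pd e (D.u n) x|) ≤ s * ε := by nlinarith
  exact le_of_mul_le_mul_left h7 hs

theorem invariant_of_flat (hP : PartialSpec) (h0 : 0 ≤ V) (h1 : V ≤ 1)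
    (hev : ∀ᶠ W in 𝓝 V, ReducedBoundAt W) {e : Fin 3} (he : spread E V e = 0) :
    ∀ n x t, D.u n (Function.update x e t) = D.u n x := by
  refine D.invar_u e fun τ => ?_
  have hp : IsPeriodicFun (chi E) := D.torus.periodic_indicator
  set g : R3 → ℝ := fun x => |chi E (x + τ • unit e) - chi E x| with hgdef
  have hgp : IsPeriodicFun g := fun x i => by
    show |chi E (x + unit i + τ • unit e) - chi E (x + unit i)| = _
    rw [add_right_comm, hp, hp]
  have hgm : Measurable g := continuous_abs.measurable.comp
    ((D.measurable_chi.comp (measurable_id.add_const _)).sub D.measurable_chi)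
  have hzero : ∫ x in cell, g x = 0 := by
    refine le_antisymm (le_of_forall_pos_le_add fun ε hε => ?_)
      (setIntegral_nonneg measurableSet_cell fun x _ => abs_nonneg _)
    rw [zero_add]
    obtain ⟨n, hn, hn'⟩ := ((D.tendsto_pd_u hP h0 h1 hev he (half_pos hε)).and
      (D.eventually_err 2 (half_pos hε))).exists
    have hu := (D.mem_u n).1.continuous
    set k : R3 → ℝ := fun x => |D.u n x - chi E x| with hk
    have hkp : IsPeriodicFun k := fun x i => by
      show |D.u n (x + unit i) - chi E (x + unit i)| = _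
      rw [(D.mem_u n).2.1, hp]
    have hkm : Measurable k := continuous_abs.measurable.comp (hu.measurable.sub D.measurable_chi)
    have hkb : ∀ x, |k x| ≤ 1 := fun x => by
      rw [hk, abs_abs, abs_le]
      constructor <;> linarith [((D.mem_u n).2.2 x).1, ((D.mem_u n).2.2 x).2, (chi_mem E x).1,
        (chi_mem E x).2]
    have i1 : IntegrableOn k cell := integrableOn_cell hkm 1 fun x _ => hkb x
    have i2 : IntegrableOn (fun x => k (x + τ • unit e)) cell :=
      integrableOn_cell (hkm.comp (measurable_id.add_const _)) 1 fun x _ => hkb _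
    have i3 : IntegrableOn (fun x => |D.u n (x + τ • unit e) - D.u n x|) cell :=
      integrableOn_cell_of_continuous (by fun_prop)
    have hle : ∫ x in cell, g x ≤
        ∫ x in cell, (k (x + τ • unit e) + |D.u n (x + τ • unit e) - D.u n x| + k x) := by
      refine integral_mono (integrableOn_cell hgm 1 fun x _ => ?_) ((i2.add i3).add i1) fun x => ?_
      · show |(|chi E (x + τ • unit e) - chi E x|)| ≤ 1
        rw [abs_abs, abs_le]
        constructor <;> linarith [(chi_mem E (x + τ • unit e)).1, (chi_mem E (x + τ • unit e)).2,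
          (chi_mem E x).1, (chi_mem E x).2]
      · refine (abs_sub_le _ (D.u n (x + τ • unit e)) _).trans ?_
        refine (add_le_add_right (abs_sub_le _ (D.u n x) _) _).trans (le_of_eq ?_)
        simp only [hk]
        rw [abs_sub_comm (chi E (x + τ • unit e))]
        ring
    rw [integral_add (f := fun x => k (x + τ • unit e) + |D.u n (x + τ • unit e) - D.u n x|) (g := k)
      (i2.add i3) i1, integral_add i2 i3, setIntegral_cell_add hkp] at hle
    have := integral_abs_translate_le (D.mem_u n) e τ
    have herr : (∫ x in cell, k x) = D.err n := rfl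
    linarith
  have hz : ∀ᵐ x, x ∈ cell → g x = 0 := (ae_restrict_iff' measurableSet_cell).1
    ((integral_eq_zero_iff_of_nonneg (fun x => abs_nonneg _) (integrableOn_cell hgm 1 fun x _ => by
      show |(|chi E (x + τ • unit e) - chi E x|)| ≤ 1
      rw [abs_abs, abs_le]
      constructor <;> linarith [(chi_mem E (x + τ • unit e)).1, (chi_mem E (x + τ • unit e)).2,
        (chi_mem E x).1, (chi_mem E x).2])).1 hzero)
  have hall : ∀ᵐ x, ∀ k : Fin 3 → ℤ, (x + fun i => (k i : ℝ)) ∈ cell → g (x + fun i => (k i : ℝ)) = 0 :=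
    ae_all_iff.2 fun k => (measurePreserving_add_right volume
      (fun i => (k i : ℝ) : R3)).quasiMeasurePreserving.ae hz
  filter_upwards [hall] with x hx
  have h := hx (fun i => -⌊x i⌋) (mem_univ_pi.2 fun i => by
    simp only [Pi.add_apply, Int.cast_neg, mem_Ico]
    constructor <;> linarith [Int.floor_le (x i), Int.lt_floor_add_one (x i)])
  rw [hgp.add_int] at h
  exact sub_eq_zero.1 (abs_eq_zero.1 h)

theorem face_of_flat (hP : PartialSpec) (h0 : 0 ≤ V) (h1 : V ≤ 1)
    (hev : ∀ᶠ W in 𝓝 V, ReducedBoundAt W) {e : Fin 3} (he : spread E V e = 0) (n : ℕ) (d : Fin 3)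
    {δ s : ℝ} (hδ : 0 < δ) (hs : δ ≤ s) (hs' : s ≤ 1 - δ) :
    |faceArea (D.w n d) e s - V| ≤ D.err n + D.err n / δ := by
  have hinv := D.invar_w n d e (D.invariant_of_flat hP h0 h1 hev he n)
  obtain ⟨hwL, hwp, hw01⟩ := D.mem_w n d
  have hW := lipClass_half (D.mem_w n d)
  have hmf : Measurable fun y => half (D.w n d) (facePoint e 1 y) :=
    hW.1.continuous.measurable.comp (continuous_facePoint' e 1).measurable
  have h := abs_level_sub_integral (μ := volume) (K := square) (by simp [volume_square]) hmf
    (fun y => hW.2 _) hδ hs hs'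
  have key : ∀ φ : ℝ → ℝ, Continuous φ →
      ∫ y in square, φ (half (D.w n d) (facePoint e 1 y)) = ∫ x in cell, φ (D.u n x) := by
    intro φ hc
    obtain ⟨C, hC⟩ := (hwp.comp φ).exists_bound (hc.comp hwL.continuous)
    rw [← planeInt_face (D.mem_w n d) (D.symm_w n d) hc e, ← D.integral_comp_w n d hc]
    exact (integral_cell_of_indep (hc.comp hwL.continuous).measurable hC
      (fun x t => congrArg φ (hinv x t)) _).symm
  rw [key (fun t => t) continuous_id, key (fun t => t * (1 - t)) (by fun_prop)] at h
  have h2 := div_le_div_of_nonneg_right (D.integral_quad_le n) hδ.le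
  have h3 := D.abs_integral_sub n
  calc |faceArea (D.w n d) e s - V| ≤ |faceArea (D.w n d) e s - ∫ x in cell, D.u n x| +
        |(∫ x in cell, D.u n x) - V| := abs_sub_le _ _ _
    _ ≤ D.err n / δ + D.err n := add_le_add (h.trans h2) h3
    _ = D.err n + D.err n / δ := add_comm _ _

/-! ## Axes with end area are flat -/

theorem spread_le (h0 : 0 ≤ V) (h1 : V ≤ 1) {e : Fin 3} (n : ℕ) (d : Fin 3) {p η : ℝ} (hp : 0 < p)
    (hp1 : p ≤ 1) (hη : 0 ≤ η) (hηV : η ≤ V) (hf : V - η ≤ faceArea (D.w n d) e p) :
    spread E V e ≤ 3 * η + 5 / p * D.err n := by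
  set φ : ℝ → ℝ := fun r => max 0 (min 1 (r / p)) with hφdef
  have hφc : Continuous φ := by fun_prop
  have hφm : Monotone φ := fun r r' h => max_le_max le_rfl (min_le_min le_rfl
    (div_le_div_of_nonneg_right h hp.le))
  have hφ01 : ∀ r, φ r ∈ Icc (0 : ℝ) 1 := fun r =>
    ⟨le_max_left _ _, max_le zero_le_one (min_le_left _ _)⟩
  have hφC : ∀ x, |φ (D.u n x) - chi E x| ≤ 1 / p * |D.u n x - chi E x| := fun x => by
    obtain ⟨r0, r1⟩ := (D.mem_u n).2.2 x
    obtain ⟨f0, f1⟩ := hφ01 (D.u n x)
    have hrp : φ (D.u n x) ≤ D.u n x / p := max_le (div_nonneg r0 hp.le) (min_le_right _ _)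
    rcases chi_cases E x with h | h <;> rw [h]
    · rw [sub_zero, sub_zero, abs_of_nonneg f0, abs_of_nonneg r0, div_mul_eq_mul_div, one_mul]
      exact hrp
    · rw [abs_of_nonpos (by linarith), abs_of_nonpos (by linarith), div_mul_eq_mul_div, one_mul,
        le_div_iff₀ hp]
      rcases le_or_gt p (D.u n x) with hq | hq
      · have : φ (D.u n x) = 1 := by
          simp only [hφdef]
          rw [min_eq_left ((one_le_div hp).2 hq), max_eq_right zero_le_one]
        rw [this]; linarith
      · have : φ (D.u n x) = D.u n x / p := by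
          simp only [hφdef]
          rw [min_eq_right ((div_le_one hp).2 hq.le), max_eq_right (div_nonneg r0 hp.le)]
        rw [this]
        have e : -(D.u n x / p - 1) * p = p - D.u n x := by field_simp; ring
        rw [e]; linarith
  set A' := planeInt (fun x => φ (D.u n x)) e
  set B := planeInt (fun x => φ (D.w n d x)) e
  have hmu : Measurable fun x => φ (D.u n x) := (hφc.comp (D.mem_u n).1.continuous).measurable
  have hmw : Measurable fun x => φ (D.w n d x) := (hφc.comp (D.mem_w n d).1.continuous).measurable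
  have hA01 : ∀ t, A' t ∈ Icc (0 : ℝ) 1 := planeInt_mem (fun x => hφ01 _) e
  have hB01 : ∀ t, B t ∈ Icc (0 : ℝ) 1 := planeInt_mem (fun x => hφ01 _) e
  have hA01' := marginal_mem (E := E) e
  have hB : ∀ t, V - η ≤ B t := by
    intro t
    refine hf.trans (le_trans ?_ (planeInt_mono hmw hmw (fun x => abs_le_one_of_mem (hφ01 _))
      (fun x => abs_le_one_of_mem (hφ01 _)) (t := 1 / 2) fun y => hφm ?_))
    · rw [planeInt_face (D.mem_w n d) (D.symm_w n d) hφc e, faceArea]
      refine measureReal_lt_le_integral measurableSet_square (by simp [volume_square])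
        ((lipClass_half (D.mem_w n d)).1.continuous.measurable.comp
          (continuous_facePoint' e 1).measurable) ?_ (fun r => (hφ01 r).1) fun r hr => ?_
      · exact (hφc.comp ((lipClass_half (D.mem_w n d)).1.continuous.comp
          (continuous_facePoint' e 1))).continuousOn.integrableOn_compact isCompact_Icc
      · simp only [hφdef]
        rw [min_eq_left ((one_le_div hp).2 hr.le), max_eq_right zero_le_one]
    · have := (IsSymmDecreasing.between (D.symm_w n d) (D.mem_w n d).2.1 (facePoint e (1 / 2) y) e t).1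
      rwa [facePoint_update, facePoint_update] at this
  have iA : IntervalIntegrable A' volume 0 1 :=
    intervalIntegrable_planeInt hmu (fun x => abs_le_one_of_mem (hφ01 _)) e 0 1
  have iB : IntervalIntegrable B volume 0 1 :=
    intervalIntegrable_planeInt hmw (fun x => abs_le_one_of_mem (hφ01 _)) e 0 1
  have iM := D.intervalIntegrable_marginal e
  have iA2 : IntervalIntegrable (fun t => A' t ^ 2) volume 0 1 :=
    intervalIntegrable_of_bdd ((measurable_planeInt hmu e).pow_const 2) 1 (fun t => by
      rw [abs_pow]; exact pow_le_one₀ (abs_nonneg _) (abs_le_one_of_mem (hA01 t))) 0 1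
  have iB2 : IntervalIntegrable (fun t => B t ^ 2) volume 0 1 :=
    intervalIntegrable_of_bdd ((measurable_planeInt hmw e).pow_const 2) 1 (fun t => by
      rw [abs_pow]; exact pow_le_one₀ (abs_nonneg _) (abs_le_one_of_mem (hB01 t))) 0 1
  have iM2 : IntervalIntegrable (fun t => marginal E e t ^ 2) volume 0 1 :=
    intervalIntegrable_of_bdd ((D.measurable_marginal e).pow_const 2) 1 (fun t => by
      rw [abs_pow]; exact pow_le_one₀ (abs_nonneg _) (abs_le_one_of_mem (hA01' t))) 0 1
  have hsq : (∫ t in (0 : ℝ)..1, marginal E e t ^ 2) ≤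
      (∫ t in (0 : ℝ)..1, A' t ^ 2) + 2 * (1 / p * D.err n) := by
    refine le_trans (intervalIntegral.integral_mono_on zero_le_one iM2
      (iA2.add ((iA.sub iM).abs.const_mul 2)) fun t _ => ?_) ?_
    · show _ ≤ A' t ^ 2 + 2 * |A' t - marginal E e t|
      have := le_abs_self (A' t - marginal E e t)
      have := neg_le_abs (A' t - marginal E e t)
      nlinarith [(hA01 t).1, (hA01 t).2, (hA01' t).1, (hA01' t).2]
    · rw [intervalIntegral.integral_add iA2 ((iA.sub iM).abs.const_mul 2),
        intervalIntegral.integral_const_mul]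
      gcongr
      exact D.plane_err n e hmu (fun x => hφ01 _) hφC
  have hBsq : (∫ t in (0 : ℝ)..1, B t ^ 2) ≤
      (V - η) ^ 2 + 3 * ((∫ t in (0 : ℝ)..1, B t) - (V - η)) := by
    refine le_trans (intervalIntegral.integral_mono_on zero_le_one iB2
      ((intervalIntegrable_const (c := (V - η) ^ 2)).add
        ((iB.sub (intervalIntegrable_const (c := V - η))).const_mul 3))
      fun t _ => ?_) ?_
    · show _ ≤ (V - η) ^ 2 + 3 * (B t - (V - η))
      nlinarith [hB t, (hB01 t).1, (hB01 t).2]
    · rw [intervalIntegral.integral_add intervalIntegrable_const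
          ((iB.sub intervalIntegrable_const).const_mul 3), intervalIntegral.integral_const_mul,
        intervalIntegral.integral_sub iB intervalIntegrable_const]
      simp
  have hBm : (∫ t in (0 : ℝ)..1, B t) ≤ V + 1 / p * D.err n := by
    have e1 : (∫ t in (0 : ℝ)..1, B t) = ∫ t in (0 : ℝ)..1, A' t := by
      rw [← integral_cell_eq_planeInt hmw (fun x => abs_le_one_of_mem (hφ01 _)) e,
        ← integral_cell_eq_planeInt hmu (fun x => abs_le_one_of_mem (hφ01 _)) e,
        D.integral_comp_w n d hφc]
    have e2 : (∫ t in (0 : ℝ)..1, A' t) - ∫ t in (0 : ℝ)..1, marginal E e t ≤ 1 / p * D.err n := by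
      rw [← intervalIntegral.integral_sub iA iM]
      exact le_trans (intervalIntegral.integral_mono_on zero_le_one (iA.sub iM) (iA.sub iM).abs
        fun t _ => le_abs_self _) (D.plane_err n e hmu (fun x => hφ01 _) hφC)
    rw [D.mass e] at e2
    linarith
  have hsp : spread E V e = (∫ t in (0 : ℝ)..1, marginal E e t ^ 2) - V ^ 2 := by
    have : ∀ t, (marginal E e t - V) ^ 2 = marginal E e t ^ 2 - 2 * V * marginal E e t + V ^ 2 :=
      fun t => by ring
    simp only [spread, this]
    rw [intervalIntegral.integral_add (iM2.sub (iM.const_mul _)) intervalIntegrable_const,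
      intervalIntegral.integral_sub iM2 (iM.const_mul _), intervalIntegral.integral_const_mul,
      D.mass e]
    simp
    ring
  have hw2 : (∫ t in (0 : ℝ)..1, A' t ^ 2) ≤ ∫ t in (0 : ℝ)..1, B t ^ 2 :=
    D.square_w n d e φ hφc hφm
  have h2 : (V - η) ^ 2 ≤ V ^ 2 := by nlinarith
  have h5 : 5 / p * D.err n = 5 * (1 / p * D.err n) := by ring
  have := D.err_nonneg n
  linarith

omit D in
theorem spread_nonneg (e : Fin 3) : 0 ≤ spread E V e :=
  intervalIntegral.integral_nonneg zero_le_one fun _ _ => sq_nonneg _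

/-! ## The traces -/

/-- The end areas of the candidate seen by `E`. -/
def endVal (E : Set R3) (V : ℝ) (i : Fin 3) : ℝ := if i ∈ transAxes E V then 0 else V

omit D in
theorem spread_eq_zero {e : Fin 3} (h : e ∉ transAxes E V) : spread E V e = 0 :=
  le_antisymm (by simpa [transAxes] using h) (spread_nonneg e)

theorem levels (hP : PartialSpec) (hL : LevelSpec) (h0 : 0 < V) (h1 : V ≤ 1)
    (hev : ∀ᶠ W in 𝓝 V, ReducedBoundAt W) (hst : FaceSpec V) {p q : ℝ} (hp : 0 < p) (hpq : p < q)
    (hq : q < 1) {η : ℝ} (hη : 0 < η) :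
    ∀ᶠ n in atTop, ((transAxes E V).Nonempty ∧
      shapePerimeter (transAxes E V).card V = candidate V) ∧
      ∀ d i, faceArea (D.w n d) i q ≤ endVal E V i + η ∧
        endVal E V i - η ≤ faceArea (D.w n d) i p := by
  have hη' : ∀ i, ∃ b : ℝ, 0 < b ∧ (i ∈ transAxes E V → 3 * b < spread E V i) := fun i => by
    by_cases h : i ∈ transAxes E V
    · have hs : 0 < spread E V i := by simpa [transAxes] using h
      exact ⟨spread E V i / 4, by positivity, fun _ => by linarith⟩
    · exact ⟨1, one_pos, fun h' => absurd h' h⟩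
  choose b hb hb' using hη'
  set η₁ := min (min η (V / 3)) (min (b 0) (min (b 1) (b 2))) with hη₁def
  have hη₁ : 0 < η₁ := lt_min (lt_min hη (by linarith)) (lt_min (hb 0) (lt_min (hb 1) (hb 2)))
  have hη₁η : η₁ ≤ η := (min_le_left _ _).trans (min_le_left _ _)
  have hη₁V : η₁ ≤ V / 3 := (min_le_left _ _).trans (min_le_right _ _)
  have hη₁b : ∀ i, η₁ ≤ b i := fun i => by
    refine (min_le_right _ _).trans ?_
    fin_cases i
    exacts [min_le_left _ _, (min_le_right _ _).trans (min_le_left _ _),
      (min_le_right _ _).trans (min_le_right _ _)]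
  obtain ⟨δs, hδs, hstab⟩ := hst p q hp hpq hq η₁ hη₁
  have e3 : ∀ᶠ n in atTop, ∀ i, i ∈ transAxes E V → 3 * η₁ + 5 / p * D.err n < spread E V i :=
    eventually_all.2 fun i => by
      by_cases h : i ∈ transAxes E V
      · filter_upwards [D.eventually_err (5 / p)
          (γ := spread E V i - 3 * η₁) (by linarith [hb' i h, hη₁b i])] with n hn _
        linarith
      · exact Eventually.of_forall fun n h' => absurd h' h
  set δ₀ := min p (1 - q) with hδ₀def
  have hδ₀ : 0 < δ₀ := lt_min hp (by linarith)
  have hδ₀q : δ₀ ≤ q := (min_le_left _ _).trans hpq.le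
  have hqδ₀ : q ≤ 1 - δ₀ := by linarith [min_le_right p (1 - q)]
  filter_upwards [D.eventually_err (1 + 1 / δ₀) (lt_min hδs (show 0 < V / 3 by linarith)), e3]
    with n hn hspread
  rw [show (1 + 1 / δ₀) * D.err n = D.err n + D.err n / δ₀ by ring] at hn
  have hq0 : 0 ≤ D.err n / δ₀ := div_nonneg (D.err_nonneg n) hδ₀.le
  have hn1 : D.err n < δs := by linarith [min_le_left δs (V / 3)]
  have hn3 : D.err n + D.err n / δ₀ < V / 3 := hn.trans_le (min_le_right _ _)
  have main : ∀ d, ((transAxes E V).Nonempty ∧
      shapePerimeter (transAxes E V).card V = candidate V) ∧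
      ∀ i, faceArea (D.w n d) i q ≤ endVal E V i + η ∧
        endVal E V i - η ≤ faceArea (D.w n d) i p := by
    intro d
    have hA : |(∫ x in cell, D.w n d x) - V| < δs := by
      rw [D.integral_comp_w n d (φ := fun t => t) continuous_id]
      exact (D.abs_integral_sub n).trans_lt hn1
    have hQ : (∫ x in cell, D.w n d x * (1 - D.w n d x)) < δs := by
      rw [D.integral_comp_w n d (φ := fun t => t * (1 - t)) (by fun_prop)]
      exact (D.integral_quad_le n).trans_lt hn1
    obtain ⟨S, hSne, hSper, hSend⟩ := hstab _ _ (D.mem_w n d) (D.symm_w n d) hA hQ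
      ((D.energy_w n d).trans (by linarith))
    have hS : S = transAxes E V := by
      ext i
      obtain ⟨hlo, hup⟩ := hSend i
      constructor
      · intro hi
        rw [if_pos hi] at hlo
        by_contra h
        have hf := abs_le.1 (D.face_of_flat hP h0.le h1 hev (spread_eq_zero h) n d hδ₀ hδ₀q hqδ₀)
        linarith [hf.1]
      · intro hi
        by_contra h
        rw [if_neg h] at hup
        linarith [hspread i hi, D.spread_le h0.le h1 n d hp (by linarith) hη₁.le (by linarith)
          (show V - η₁ ≤ faceArea (D.w n d) i p by linarith)]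
    refine ⟨⟨hS ▸ hSne, hS ▸ hSper⟩, fun i => ?_⟩
    have heq : (if i ∈ S then 0 else V) = endVal E V i := by rw [hS]; rfl
    have hE := hSend i
    rw [heq] at hE
    exact ⟨by linarith, by linarith⟩
  exact ⟨(main 0).1, fun d => (main d).2⟩

theorem trans_shape (hP : PartialSpec) (hL : LevelSpec) (h0 : 0 < V) (h1 : V ≤ 1)
    (hev : ∀ᶠ W in 𝓝 V, ReducedBoundAt W) (hst : FaceSpec V) :
    (transAxes E V).Nonempty ∧ shapePerimeter (transAxes E V).card V = candidate V :=
  ((D.levels hP hL h0 h1 hev hst (p := 1 / 3) (q := 2 / 3) (by norm_num) (by norm_num) (by norm_num)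
    one_pos).exists).choose_spec.1

theorem face_tendsto (hP : PartialSpec) (hL : LevelSpec) (h0 : 0 < V) (h1 : V ≤ 1)
    (hev : ∀ᶠ W in 𝓝 V, ReducedBoundAt W) (hst : FaceSpec V) (d i : Fin 3) {s : ℝ} (hs : 0 < s)
    (hs1 : s < 1) :
    Tendsto (fun n => faceArea (D.w n d) i s) atTop (𝓝 (endVal E V i)) := by
  refine Metric.tendsto_nhds.2 fun η hη => ?_
  filter_upwards [D.levels hP hL h0 h1 hev hst (half_pos hs) (half_lt_self hs) hs1 (half_pos hη),
    D.levels hP hL h0 h1 hev hst hs (show s < (s + 1) / 2 by linarith) (by linarith) (half_pos hη)]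
    with n hn hn'
  rw [Real.dist_eq, abs_lt]
  constructor
  · linarith [((hn'.2 d i)).2]
  · linarith [((hn.2 d i)).1]

end Approx

end Vale.Agent.P232.Rigid
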