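import Vale.Agent.P232.Reduction
import Vale.Agent.P232.UpperBound

/-!
# P232 rigidity: which sets attain the profile (statements of the pieces)

Route: notes/helper27/P232/RIGIDITY.md. The torus has period `1`; reduced sets live in the box
(one octant scaled by `2`), so perimeters double. A piece file proves `theorem xxx : XxxSpec`
(taking other Specs as hypotheses when needed). Only `StableSpec` touches the numeric bound.
-/

open MeasureTheory Set Filter
open scoped ENNReal NNReal Real Topology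

noncomputable section

namespace Vale.Agent.P232.Rigid

/-! ## Notions -/

/-- The integral of `f` over the plane `x d = t` of the torus. -/
def planeInt (f : R3 → ℝ) (d : Fin 3) (t : ℝ) : ℝ := ∫ y in square, f (facePoint d t y)

/-- The area of the slice `x d = t` of `E`. -/
def marginal (E : Set R3) (d : Fin 3) : ℝ → ℝ := planeInt (E.indicator fun _ => 1) d

/-- A ball, tube or slab, `S` being the transverse axes, translated by `c`. -/
def shapeSet (S : Finset (Fin 3)) (c : R3) (R : ℝ) : Set R3 := {x | x - c ∈ tubeSet S R}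

/-- Slice areas across a transverse axis: `n = 3` ball, `n = 2` tube, `n = 1` slab. -/
def shapeMarginal (n : ℕ) (R t : ℝ) : ℝ :=
  if n = 3 then π * max 0 (R ^ 2 - intDist t ^ 2)
  else if n = 2 then 2 * Real.sqrt (max 0 (R ^ 2 - intDist t ^ 2))
  else if intDist t < R then 1 else 0

/-- The radius at volume `V`. -/
def shapeRadius (n : ℕ) (V : ℝ) : ℝ :=
  if n = 3 then (3 * V / (4 * π)) ^ ((1 : ℝ) / 3)
  else if n = 2 then Real.sqrt (V / π) else V / 2

/-- The perimeter at volume `V`. -/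
def shapePerimeter (n : ℕ) (V : ℝ) : ℝ :=
  if n = 3 then (36 * π) ^ ((1 : ℝ) / 3) * V ^ ((2 : ℝ) / 3)
  else if n = 2 then 2 * Real.sqrt (π * V) else 2

/-- The least length of a slice of area `A` across a transverse axis. -/
def shapeLen (n : ℕ) (A : ℝ) : ℝ :=
  if n = 3 then 2 * Real.sqrt (π * min A (1 - A))
  else if n = 2 then (if 0 < A then 2 else 0) else 0

/-- The area of a down set in its end slice `x d = 1`. -/
def endArea (D : Set R3) (d : Fin 3) : ℝ :=
  ⨅ t : Ioo (0 : ℝ) 1, volume.real (square ∩ facePoint d t ⁻¹' D)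

/-- The scaling of the octant to the box. -/
def half (f : R3 → ℝ) : R3 → ℝ := fun x => f ((1 / 2 : ℝ) • x)

/-- The area of `{s < w}` on the face `x i = 1` of the box, `w` being read in the box. -/
def faceArea (w : R3 → ℝ) (i : Fin 3) (s : ℝ) : ℝ :=
  volume.real (square ∩ {y | s < half w (facePoint i 1 y)})

/-- Symmetric decreasing in every coordinate but `d`. -/
def SymmExcept (d : Fin 3) (v : R3 → ℝ) : Prop :=
  ∀ i, i ≠ d → ∀ (x : R3) (s t : ℝ), |s| ≤ |t| → |t| ≤ 1 / 2 →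
    v (Function.update x i t) ≤ v (Function.update x i s)

/-- What the marginal `A` across a transverse axis of a minimiser satisfies. -/
structure SideData (n : ℕ) (V : ℝ) (A : ℝ → ℝ) : Prop where
  measurable : Measurable A
  periodic : Function.Periodic A 1
  mem : ∀ t, A t ∈ Icc (0 : ℝ) 1
  mass : ∫ t in (0 : ℝ)..1, A t = V
  lin : ∀ c σ : ℝ → ℝ, Continuous c → ContDiff ℝ 1 σ → Function.Periodic c 1 →
    Function.Periodic σ 1 → (∀ t, 0 ≤ c t) → (∀ t, c t ^ 2 + σ t ^ 2 ≤ 1) →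
      ∫ t in (0 : ℝ)..1, (c t * shapeLen n (A t) + deriv σ t * A t) ≤ candidate V
  vert : ∀ c s : ℝ, 0 ≤ c → 0 ≤ s → c ^ 2 + s ^ 2 ≤ 1 →
    c * (∫ t in (0 : ℝ)..1, shapeLen n (A t)) + s * (2 * V) ≤ candidate V
  zero_one : n = 1 → ∀ᵐ t : ℝ, A t * (1 - A t) = 0

/-! ## The pieces -/

/-- S (owners of the bound): near-equality forces the end areas of a candidate. -/
def StableSpec (V : ℝ) : Prop :=
  ∀ η : ℝ, 0 < η → ∃ δ : ℝ, 0 < δ ∧ ∀ (D : Set R3) (M : ℝ), IsReduced D M →
    |boxVolume D - V| < δ → 2 * M ≤ candidate V + δ →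
      ∃ S : Finset (Fin 3), S.Nonempty ∧ shapePerimeter S.card V = candidate V ∧
        ∀ d, |endArea D d - if d ∈ S then 0 else V| < η

/-- S in the form used: the same for the levels of nearly optimal symmetric functions. -/
def FaceSpec (V : ℝ) : Prop :=
  ∀ p q : ℝ, 0 < p → p < q → q < 1 → ∀ η : ℝ, 0 < η → ∃ δ : ℝ, 0 < δ ∧
    ∀ (L : ℝ≥0) (w : R3 → ℝ), w ∈ lipClass L → IsSymmDecreasing w →
      |(∫ x in cell, w x) - V| < δ → (∫ x in cell, w x * (1 - w x)) < δ →
      (∫ x in cell, gradNorm w x) ≤ candidate V + δ →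
        ∃ S : Finset (Fin 3), S.Nonempty ∧ shapePerimeter S.card V = candidate V ∧
          ∀ i, faceArea w i q < (if i ∈ S then 0 else V) + η ∧
            (if i ∈ S then 0 else V) - η < faceArea w i p

/-- M1a: symmetrise in two axes, then in the third. -/
def PartialSpec : Prop :=
  ∀ (L : ℝ≥0) (u : R3 → ℝ), u ∈ lipClass L → ∀ d : Fin 3,
    ∃ v ∈ lipClass L, ∃ w ∈ lipClass L, SymmExcept d v ∧ IsSymmDecreasing w ∧
      (∀ φ : ℝ → ℝ, Continuous φ → ∀ t,
        planeInt (fun x => φ (v x)) d t = planeInt (fun x => φ (u x)) d t) ∧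
      (∫ x in cell, gradNorm v x) ≤ (∫ x in cell, gradNorm u x) ∧
      (∫ x in cell, gradNorm w x) ≤ (∫ x in cell, gradNorm v x) ∧
      (∀ i, i ≠ d → ∀ φ : ℝ → ℝ, Continuous φ → ∀ t,
        planeInt (fun x => φ (w x)) i t = planeInt (fun x => φ (v x)) i t) ∧
      (∀ e, (∀ x t, u (Function.update x e t) = u x) → ∀ x t, w (Function.update x e t) = w x) ∧
      (∀ e, ∀ φ : ℝ → ℝ, Continuous φ → Monotone φ →
        (∫ t in (0 : ℝ)..1, planeInt (fun x => φ (u x)) e t ^ 2) ≤
          ∫ t in (0 : ℝ)..1, planeInt (fun x => φ (w x)) e t ^ 2) ∧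
      ∀ x, (range fun t => w (Function.update x d t)) = range fun t => v (Function.update x d t)

/-- M1b: a good level in a given interval of levels. -/
def LevelSpec : Prop :=
  ∀ (L : ℝ≥0) (w : R3 → ℝ), LipschitzWith L w → (∀ x, w x ∈ Icc (0 : ℝ) 1) →
    (∀ x ∈ box, ∀ y ∈ box, y ≤ x → w x ≤ w y) →
      ∀ δ J p q : ℝ, 0 < δ → δ ≤ p → p < q → q ≤ 1 - δ → 0 ≤ J →
        (∀ s ∈ Ioo δ (1 - δ), ∀ M : ℝ, IsReduced (box ∩ {x | s < w x}) M → J ≤ M) →
          ∃ s ∈ Ioo p q, IsReduced (box ∩ {x | s < w x})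
            (((∫ x in box, gradNorm w x) - J * (1 - 2 * δ - (q - p))) / (q - p))

/-- M2a: one slice, extended constantly along `d`. -/
def SliceSpec : Prop :=
  ∀ (L : ℝ≥0) (w : R3 → ℝ) (d i j : Fin 3), d ≠ i → d ≠ j → i ≠ j →
    LipschitzWith L w → (∀ x, w x ∈ Icc (0 : ℝ) 1) →
    (∀ x ∈ box, ∀ y ∈ box, y ≤ x → w x ≤ w y) →
    (∀ x t, w (Function.update x d t) = w x) →
      ∀ δ : ℝ, 0 < δ → δ < 1 / 2 → ∃ A a b : ℝ,
        volume.real (box ∩ {x | 1 - δ < w x}) ≤ A ∧ A ≤ volume.real (box ∩ {x | δ < w x}) ∧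
        volume.real (square ∩ {y | 1 - δ < w (facePoint i 1 y)}) ≤ a ∧
        a ≤ volume.real (square ∩ {y | δ < w (facePoint i 1 y)}) ∧
        volume.real (square ∩ {y | 1 - δ < w (facePoint j 1 y)}) ≤ b ∧
        b ≤ volume.real (square ∩ {y | δ < w (facePoint j 1 y)}) ∧
        a ≤ A ∧ b ≤ A ∧ A * (1 - A) ≤ (A - a) + (A - b) ∧
        Real.sqrt (π * min A (1 - A)) - Real.sqrt (π * (a + b)) ≤
          (∫ x in box, gradNorm w x) / (1 - 2 * δ) ∧
        (0 < a → 1 - b ≤ (∫ x in box, gradNorm w x) / (1 - 2 * δ)) ∧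
        (0 < b → 1 - a ≤ (∫ x in box, gradNorm w x) / (1 - 2 * δ))

/-- M2b: a minimiser gives side data across every transverse axis. -/
def SideSpec : Prop :=
  ∀ V : ℝ, 0 < V → V ≤ 1 / 2 → (∀ᶠ W in 𝓝 V, ReducedBoundAt W) → FaceSpec V →
    ∀ E : Set R3, IsTorusSet E → torusVolume E = V → perimeter E ≤ ENNReal.ofReal (candidate V) →
      ∃ S : Finset (Fin 3), S.Nonempty ∧ shapePerimeter S.card V = candidate V ∧
        ∀ d ∈ S, SideData S.card V (marginal E d)

/-- M4: one-variable rigidity. -/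
def CircleSpec : Prop :=
  ∀ (n : ℕ) (V : ℝ), (n = 1 ∨ n = 2 ∨ n = 3) → 0 < V → V ≤ 1 / 2 →
    shapePerimeter n V = candidate V → ∀ A : ℝ → ℝ, SideData n V A →
      ∃ c : ℝ, ∀ᵐ t : ℝ, A t = shapeMarginal n (shapeRadius n V) (t - c)

/-- M5: the marginals determine the set. -/
def ShapeSpec : Prop :=
  ∀ (E : Set R3) (S : Finset (Fin 3)) (c : R3) (V : ℝ), IsTorusSet E → S.Nonempty →
    0 < V → V ≤ 1 / 2 → shapePerimeter S.card V = candidate V → torusVolume E = V →
    (∀ d ∈ S, ∀ᵐ t : ℝ, marginal E d t = shapeMarginal S.card (shapeRadius S.card V) (t - c d)) →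
      ∀ᵐ x : R3, x ∈ E ↔ x ∈ shapeSet S c (shapeRadius S.card V)

/-- Target: at volume `V` every minimiser is a ball, tube, slab, or the complement of one. -/
def ClassifiedAt (V : ℝ) : Prop :=
  ∀ E : Set R3, IsTorusSet E → torusVolume E = V → perimeter E = profile V →
    ∃ (S : Finset (Fin 3)) (c : R3) (R : ℝ), S.Nonempty ∧ 0 < R ∧ R < 1 / 2 ∧
      ((∀ᵐ x : R3, x ∈ E ↔ x ∈ shapeSet S c R) ∨ ∀ᵐ x : R3, x ∈ E ↔ x ∉ shapeSet S c R)

/-- The assembly: bound and stability at the smaller volume give classification. -/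
def AssemblySpec : Prop :=
  ∀ V ∈ Ioo (0 : ℝ) 1, (∀ᶠ W in 𝓝 (min V (1 - V)), ReducedBoundAt W) →
    FaceSpec (min V (1 - V)) → ClassifiedAt V

end Vale.Agent.P232.Rigid
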