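import Vale.Agent.P232.Rigid.Stable

/-!
# P232 rigidity: stability where the slab wins, from the end areas of each direction
-/

open MeasureTheory Set Filter
open scoped ENNReal Real Topology

noncomputable section

namespace Vale.Agent.P232.Rigid

open Phase1 (endTop endBot)

/-- Near-equality makes each direction look normal or tangent to a slab. -/
def DirSpec (V : ℝ) : Prop :=
  ∀ η : ℝ, 0 < η → ∃ δ : ℝ, 0 < δ ∧ ∀ (D : Set R3) (M : ℝ), IsReduced D M →
    |boxVolume D - V| < δ → 2 * M ≤ candidate V + δ → ∀ i j : Fin 3, i ≠ j →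
      (endTop D i j < η ∧ 1 - η < endBot D i j) ∨
        (|endTop D i j - V| < η ∧ |endBot D i j - V| < η)

variable {D : Set R3} {M : ℝ}

/-- The area of a slice with both wraps. -/
theorem cross_area_le {f : ℝ → ℝ} (hf : IsHeight f) :
    hf.slice.u + hf.slice.w - hf.slice.u * hf.slice.w ≤ hf.slice.A := by
  rcases hf.slice.u_nonneg.eq_or_lt with hu | hu
  · rw [← hu]; linarith [hf.slice.w_le_A]
  have hX : botWidth f = 1 := by
    by_contra hne
    exact hu.ne' (hf.slice.u_eq (lt_of_le_of_ne IsHeight.botWidth_le_one hne))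
  show rightHeight f + topWidth f - rightHeight f * topWidth f ≤ ∫ x in (0 : ℝ)..1, f x
  rw [hf.area_eq]
  have hw := IsHeight.topWidth_mem (f := f)
  have hI := hf.intervalIntegrable (IsHeight.topWidth_mem (f := f)) (IsHeight.botWidth_mem (f := f))
  have h1 := intervalIntegral.integral_mono_on_of_le_Ioo (IsHeight.topWidth_le (f := f))
    intervalIntegrable_const hI fun x hx => hf.rightHeight_le
      ⟨hw.1.trans_lt hx.1, hx.2.trans_le IsHeight.botWidth_le_one⟩
  rw [intervalIntegral.integral_const, hX, smul_eq_mul] at h1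
  rw [hX]
  linarith [h1]

/-- Slices with three tangential directions: the areas must be `0` or `1`. -/
theorem tangent_bound (h : IsReduced D M) {i j k : Fin 3} (hij : i ≠ j) (hki : k ≠ i)
    (hkj : k ≠ j) (hall : ∀ l, l = i ∨ l = j ∨ l = k) :
    endTop D i j * (1 - endBot D i j) ≤ 2 * boxVolume D - endTop D k j - endTop D k i := by
  have hdown := h.down
  rw [boxVolume_eq hdown h.subset h.measurable hij,
    tendsto_unique_end hdown (tendsto_sliceArea hdown hij hki hkj hall).2,
    tendsto_unique_end hdown (tendsto_sliceArea_transpose hdown hij hki hkj hall).2]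
  have hanti : ∀ p q : Fin 3, Antitone fun z => rightHeight (heightExt D p q z) :=
    fun p q a b hab => by
      refine le_csInf ((nonempty_Ioo.2 zero_lt_one).image _) ?_
      rintro _ ⟨x, hx, rfl⟩
      exact ((T1.isHeight_ext hdown b).rightHeight_le hx).trans
        (antitone_heightExt_fst hdown x hab)
  have hu : IntervalIntegrable (fun z => rightHeight (heightExt D i j z)) volume 0 1 :=
    (hanti i j).intervalIntegrable
  have hw : IntervalIntegrable (fun z => topWidth (heightExt D i j z)) volume 0 1 := by
    simp only [(topWidth_eq_rightHeight hdown hij _).1]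
    exact (hanti j i).intervalIntegrable
  have hA : IntervalIntegrable (sliceArea D i j) volume 0 1 :=
    (antitone_sliceArea hdown).intervalIntegrable
  have := intervalIntegral.integral_mono_on_of_le_Ioo zero_le_one intervalIntegrable_const
    (((hA.const_mul 2).sub hu).sub hw) (f := fun _ => endTop D i j * (1 - endBot D i j))
    fun z hz => by
      have hm := Phase1.sliceArea_mem_ends hdown (i := i) (j := j) hz
      have hs := (T1.isHeight_ext (i := i) (j := j) hdown z).slice
      have hf := T1.isHeight_ext (i := i) (j := j) hdown z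
      have hc := cross_area_le hf
      have h1 := hf.slice.u_le_A
      have h2 := hf.slice.w_le_A
      have ha := Phase1.endTop_nonneg (i := i) (j := j) hdown
      have hb := Phase1.endBot_le_one (i := i) (j := j) hdown
      show endTop D i j * (1 - endBot D i j) ≤
        2 * hf.slice.A - hf.slice.u - hf.slice.w
      have h3 : endTop D i j * (1 - endBot D i j) ≤ hf.slice.A * (1 - hf.slice.A) :=
        mul_le_mul hm.1 (sub_le_sub_left hm.2 1) (by linarith) (ha.trans hm.1)
      nlinarith [mul_nonneg (sub_nonneg.2 h1) (sub_nonneg.2 h2),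
        hf.slice.u_nonneg, hf.slice.w_nonneg, hf.slice.A_le_Y.trans hf.slice.Y_le]
  rw [intervalIntegral.integral_sub ((hA.const_mul 2).sub hu) hw,
    intervalIntegral.integral_sub (hA.const_mul 2) hu, intervalIntegral.integral_const_mul,
    intervalIntegral.integral_const] at this
  simpa using this

/-- The projection bound in two directions at once. -/
theorem projection_bound (h : IsReduced D M) {i j k : Fin 3} (hij : i ≠ j) (hki : k ≠ i)
    (hkj : k ≠ j) :
    (1 / Real.sqrt 2) * ((endBot D i j - endTop D i j) + (endBot D k j - endTop D k j)) ≤ M := by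
  have hdown := h.down
  set t : ℝ := 1 / Real.sqrt 2
  have ht0 : 0 ≤ t := by positivity
  have ht : t ^ 2 = 1 / 2 := by simp [t]
  -- the constant field: `t` along the axes `k` and `i`
  have hc : ∀ l, ContDiff ℝ 1 fun _ : R3 => (if l = j then (0 : ℝ) else t) := fun l => contDiff_const
  have hb : ∀ x ∈ box, ∑ l, (if l = j then (0 : ℝ) else t) ^ 2 ≤ 1 := fun x _ => by
    fin_cases j <;> simp [Fin.sum_univ_three, ht] <;> norm_num
  have key := h.bound (fun l _ => if l = j then (0 : ℝ) else t) hc hb
  have hdiv : ∀ x : R3, divergence (fun l _ => if l = j then (0 : ℝ) else t) x = 0 := fun x => by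
    simp [divergence, pd]
  simp only [hdiv, integral_zero] at key
  have face : ∀ p q r : Fin 3, p ≠ q → r ≠ p → r ≠ q →
      volume.real (square ∩ facePoint r 1 ⁻¹' D) ≤ endTop D p q ∧
        endBot D p q ≤ volume.real (square ∩ facePoint r 0 ⁻¹' D) := by
    intro p q r hpq hrp hrq
    constructor
    · rw [face_area_eq hdown h.measurable hpq hrp hrq (right_mem_Icc.2 zero_le_one)]
      refine le_csInf ((nonempty_Ioo.2 zero_lt_one).image _) ?_
      rintro _ ⟨z, hz, rfl⟩
      exact antitone_sliceArea hdown hz.2.le
    · rw [face_area_eq hdown h.measurable hpq hrp hrq (left_mem_Icc.2 zero_le_one)]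
      refine csSup_le ((nonempty_Ioo.2 zero_lt_one).image _) ?_
      rintro _ ⟨z, hz, rfl⟩
      exact antitone_sliceArea hdown hz.1.le
  have f1 := face i j k hij hki hkj
  have f2 := face k j i hkj hki.symm hij
  have hflux : flux D (fun l _ => if l = j then (0 : ℝ) else t) ≤
      -t * ((endBot D i j - endTop D i j) + (endBot D k j - endTop D k j)) := by
    have e : flux D (fun l _ => if l = j then (0 : ℝ) else t) =
        ∑ l, (if l = j then (0 : ℝ) else t) * (volume.real (square ∩ facePoint l 1 ⁻¹' D) -
          volume.real (square ∩ facePoint l 0 ⁻¹' D)) := by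
      simp only [flux, setIntegral_const, smul_eq_mul]
      exact Finset.sum_congr rfl fun l _ => by ring
    rw [e, show (Finset.univ : Finset (Fin 3)) = {k, i, j} from (Finset.eq_univ_of_forall fun l => by
      obtain ⟨k', hk'i, hk'j, hall⟩ := exists_third hij
      have hkk : k = k' := by rcases hall k with h | h | h <;> simp_all
      subst hkk
      rcases hall l with h | h | h <;> simp [h]).symm,
      Finset.sum_insert (by simp [hki, hkj]), Finset.sum_insert (by simp [hij]),
      Finset.sum_singleton, if_neg hkj, if_neg hij, if_pos rfl]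
    nlinarith [mul_le_mul_of_nonneg_left f1.1 ht0, mul_le_mul_of_nonneg_left f1.2 ht0,
      mul_le_mul_of_nonneg_left f2.1 ht0, mul_le_mul_of_nonneg_left f2.2 ht0]
  linarith

/-- The end areas do not depend on the order of the axes of the slice. -/
theorem ends_swap (h : IsReduced D M) {i j : Fin 3} (hij : i ≠ j) :
    endTop D i j = endTop D j i ∧ endBot D i j = endBot D j i := by
  obtain ⟨k, hki, hkj, -⟩ := exists_third hij
  have e : sliceArea D i j '' Ioo 0 1 = sliceArea D j i '' Ioo 0 1 := image_congr fun t ht => by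
    rw [← face_area_eq h.down h.measurable hij hki hkj (Ioo_subset_Icc_self ht),
      face_area_eq h.down h.measurable hij.symm hkj hki (Ioo_subset_Icc_self ht)]
  exact ⟨congrArg sInf e, congrArg sSup e⟩

/-- Stability in the slab range. -/
theorem stable_of_dir {V : ℝ} (hV0 : 0 < V) (hV : V ≤ 1 / 2) (hc : candidate V = 2)
    (hdir : DirSpec V) : StableSpec V := by
  intro η hη
  set η' := min η (min (V / 2) (min (1 / 8) (V * (1 - V) / 20)))
  have hV1 : 0 < V * (1 - V) := mul_pos hV0 (by linarith)
  have hη' : 0 < η' := lt_min hη (lt_min (by linarith) (lt_min (by norm_num) (by linarith)))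
  have hle : η' ≤ η ∧ η' ≤ V / 2 ∧ η' ≤ 1 / 8 ∧ η' ≤ V * (1 - V) / 20 :=
    ⟨min_le_left _ _, (min_le_right _ _).trans (min_le_left _ _),
      (min_le_right _ _).trans ((min_le_right _ _).trans (min_le_left _ _)),
      (min_le_right _ _).trans ((min_le_right _ _).trans (min_le_right _ _))⟩
  obtain ⟨δ, hδ, hD⟩ := hdir η' hη'
  refine ⟨min δ η', lt_min hδ hη', fun D M h hvol hM => ?_⟩
  have hd := hD D M h (hvol.trans_le (min_le_left _ _)) (hM.trans (by linarith [min_le_left δ η']))
  have hvol' := abs_lt.1 (hvol.trans_le (min_le_right _ _))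
  have hM1 : 2 * M ≤ 2 + η' := hM.trans (by rw [hc]; linarith [min_le_right δ η'])
  have hdown := h.down
  -- one normal direction exists
  have hex : ∃ i j k : Fin 3, i ≠ j ∧ k ≠ i ∧ k ≠ j ∧ endTop D i j < η' ∧ 1 - η' < endBot D i j := by
    by_contra hno
    simp only [not_exists, not_and] at hno
    have htan : ∀ i j : Fin 3, i ≠ j → |endTop D i j - V| < η' ∧ |endBot D i j - V| < η' := by
      intro i j hij
      obtain ⟨k, hki, hkj, -⟩ := exists_third hij
      exact (hd i j hij).resolve_left fun hh => hno i j k hij hki hkj hh.1 hh.2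
    obtain ⟨k, hki, hkj, hall⟩ := exists_third (i := (0 : Fin 3)) (j := 1) (by decide)
    have hb := tangent_bound h (by decide : (0 : Fin 3) ≠ 1) hki hkj hall
    have h1 := htan 0 1 (by decide)
    have h2 := htan k 1 hkj
    have h3 := htan k 0 hki
    rw [abs_lt, abs_lt] at h1 h2 h3
    nlinarith [mul_le_mul (by linarith : V - η' ≤ endTop D 0 1)
      (by linarith : 1 - V - η' ≤ 1 - endBot D 0 1) (by linarith [hle.2.2.2])
      (Phase1.endTop_nonneg hdown)]
  obtain ⟨i, j, k, hij, hki, hkj, hk0, hk1⟩ := hex
  refine ⟨{k}, Finset.singleton_nonempty k, ?_, fun d => ?_⟩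
  · rw [Finset.card_singleton, hc]; simp [shapePerimeter]
  by_cases hdk : d = k
  · subst hdk
    rw [if_pos (Finset.mem_singleton_self _), sub_zero,
      endArea_eq_endTop hdown h.measurable hij hki hkj,
      abs_of_nonneg (Phase1.endTop_nonneg hdown)]
    linarith [hle.1]
  rw [if_neg (by simpa using hdk)]
  have main : ∀ p q : Fin 3, p ≠ q → d = p → k ≠ p → k ≠ q → endTop D p q < η' →
      1 - η' < endBot D p q → |endArea D d - V| < η := by
    rintro p q hpq rfl hkp hkq hp0 hp1
    rw [endArea_eq_endTop hdown h.measurable hkq hkp.symm hpq]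
    rcases hd k q hkq with hh | hh
    · exfalso
      have hproj := projection_bound h hpq hkp hkq
      have hs : Real.sqrt 2 < 3 / 2 := by
        rw [Real.sqrt_lt' (by norm_num)]; norm_num
      have hs0 : 0 < Real.sqrt 2 := by positivity
      rw [one_div, inv_mul_le_iff₀ hs0] at hproj
      nlinarith [hle.2.2.1, hh.1, hh.2]
    · exact hh.1.trans_le hle.1
  obtain ⟨k', hk'i, hk'j, hall⟩ := exists_third hij
  have hkk : k = k' := by rcases hall k with h | h | h <;> simp_all
  subst hkk
  rcases hall d with rfl | rfl | rfl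
  · exact main d j hij rfl hki hkj hk0 hk1
  · obtain ⟨e1, e2⟩ := ends_swap h hij
    exact main d i hij.symm rfl hkj hki (e1 ▸ hk0) (e2 ▸ hk1)
  · exact absurd rfl hdk

end Vale.Agent.P232.Rigid
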